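/-
Row 302, package ST (owner helper73).  DEFINITIONS shared by ST / TR / REAL / TOP.

Standing data (D1),(D2) of Notes_helper100:  `M` a von Neumann algebra on `H`, `A` a masa of `M`,
`Om` a cyclic and separating vector for `M` whose vector functional `phi` is `A`-central.
No separability, no normalisation of `Om`.
Everything is stated for plain operators `H →L[ℂ] H`; membership in `M`, `A` is a hypothesis.
-/
import Mathlib

set_option autoImplicit false

namespace Claimed.Agent.R302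

open scoped InnerProductSpace

/-- Standing data of the "expected corner". -/
structure StData (H : Type*) [NormedAddCommGroup H] [InnerProductSpace ℂ H] [CompleteSpace H] where
  M : VonNeumannAlgebra H
  A : StarSubalgebra ℂ (H →L[ℂ] H)
  Om : H
  masa : ∀ y : H →L[ℂ] H, y ∈ A ↔ (y ∈ M ∧ ∀ a ∈ A, Commute y a)
  cyc : ∀ (ξ : H) (ε : ℝ), 0 < ε → ∃ x ∈ M, ‖ξ - x Om‖ < ε
  sep : ∀ x ∈ M, x Om = 0 → x = 0
  central : ∀ a ∈ A, ∀ x ∈ M, ⟪Om, (a * x) Om⟫_ℂ = ⟪Om, (x * a) Om⟫_ℂ

variable {H : Type*} [NormedAddCommGroup H] [InnerProductSpace ℂ H] [CompleteSpace H]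

namespace StData

variable (S : StData H)

/-- The vector functional `phi x = <x Om, Om>` (Mathlib convention: `⟪Om, x Om⟫`). -/
noncomputable def phi (x : H →L[ℂ] H) : ℂ := ⟪S.Om, x S.Om⟫_ℂ

/-- The commutant of `M` as a set of operators. -/
def M' : Set (H →L[ℂ] H) := {c | ∀ x ∈ S.M, Commute c x}

/-- `e` is a projection of `A`. -/
def IsProjA (e : H →L[ℂ] H) : Prop := e ∈ S.A ∧ IsStarProjection e

end StData

/-- Finite partitions of `1` by projections of `A` (zero cells allowed). -/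
structure StPart (S : StData H) where
  cells : Finset (H →L[ℂ] H)
  proj : ∀ e ∈ cells, S.IsProjA e
  orth : ∀ e ∈ cells, ∀ e' ∈ cells, e ≠ e' → e * e' = 0
  sum_eq : ∑ e ∈ cells, e = 1

namespace StPart

variable {S : StData H}

/-- `P ≤ P'` : `P'` refines `P`. -/
instance : LE (StPart S) := ⟨fun P P' => ∀ e' ∈ P'.cells, ∃ e ∈ P.cells, e * e' = e'⟩

/-- The pinching `C_P(x) = ∑ e x e`. -/
noncomputable def pinch (P : StPart S) (x : H →L[ℂ] H) : H →L[ℂ] H := ∑ e ∈ P.cells, e * x * e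

end StPart

namespace StData

variable (S : StData H)

/-- `F` eventually holds along the refinement net of all finite partitions. -/
def EvPart (F : StPart S → Prop) : Prop := ∃ P₀ : StPart S, ∀ P : StPart S, P₀ ≤ P → F P

/-- The `phi`-preserving conditional expectation onto `A` (junk value `0` outside `M`);
characterised by `EA x ∈ A` and `phi (EA x * a) = phi (x * a)` for `a ∈ A`. -/
noncomputable def EA (x : H →L[ℂ] H) : H →L[ℂ] H :=
  open Classical in
  if h : ∃ b ∈ S.A, ∀ a ∈ S.A, S.phi (b * a) = S.phi (x * a) then Classical.choose h else 0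

/-- Right multiplication by `n` on `H = L²(M,phi)`, when it is bounded (junk value `0` otherwise):
`rmul n (x Om) = x (n Om)` for `x ∈ M`. -/
noncomputable def rmul (n : H →L[ℂ] H) : H →L[ℂ] H :=
  open Classical in
  if h : ∃ T : H →L[ℂ] H, ∀ x ∈ S.M, T (x S.Om) = x (n S.Om) then Classical.choose h else 0

/-- `n` is a bounded right multiplier. -/
def IsRBdd (n : H →L[ℂ] H) : Prop := ∃ T : H →L[ℂ] H, ∀ x ∈ S.M, T (x S.Om) = x (n S.Om)

/-- Groupoid normalisers of `A` in `M`. -/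
structure IsGN (v : H →L[ℂ] H) : Prop where
  mem : v ∈ S.M
  pisom : v * star v * v = v
  src : star v * v ∈ S.A
  rng : v * star v ∈ S.A
  conj : ∀ a ∈ S.A, v * a * star v ∈ S.A
  conj' : ∀ a ∈ S.A, star v * a * v ∈ S.A

/-- `k` is a (bounded) Radon-Nikodym element of `v`:  `phi (v* w v) = phi (k w)` on `M`. -/
def IsRN (v k : H →L[ℂ] H) : Prop :=
  k ∈ S.A ∧ 0 ≤ k ∧ ∀ w ∈ S.M, S.phi (star v * w * v) = S.phi (k * w)

/-- Groupoid normalisers with bounded Radon-Nikodym elements in both directions. -/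
def IsGNb (v : H →L[ℂ] H) : Prop :=
  S.IsGN v ∧ (∃ k, S.IsRN v k) ∧ (∃ k, S.IsRN (star v) k)

/-- Symmetric unitary normalisers with bounded Radon-Nikodym element. -/
def IsSym (u : H →L[ℂ] H) : Prop :=
  u ∈ S.M ∧ IsSelfAdjoint u ∧ u * u = 1 ∧ (∀ a ∈ S.A, u * a * u ∈ S.A) ∧ ∃ k, S.IsRN u k

/-- The algebraic normalising algebra: finite sums `∑ a_k u_k`, `a_k ∈ A`, `u_k` symmetric
unitary normalisers with bounded RN.  (It is a unital `*`-algebra containing every `v a`, `v` a
groupoid normaliser with bounded RN: `st_Nalg_*` in `ST/Norm.lean`.) -/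
def Nalg : Submodule ℂ (H →L[ℂ] H) :=
  Submodule.span ℂ {n | ∃ a ∈ S.A, ∃ u, S.IsSym u ∧ n = a * u}

/-- `L²(N) = closure (Nalg Om)`. -/
noncomputable def L2N : Submodule ℂ H :=
  (S.Nalg.map ((ContinuousLinearMap.apply ℂ H S.Om : (H →L[ℂ] H) →L[ℂ] H) :
    (H →L[ℂ] H) →ₗ[ℂ] H)).topologicalClosure

/-- `Mo = ker E_N = { w ∈ M : phi (n* w) = 0 for n ∈ Nalg }`. -/
def Mo : Set (H →L[ℂ] H) := {w | w ∈ S.M ∧ ∀ n ∈ S.Nalg, S.phi (star n * w) = 0}

/-- `N = M ∩ {Q}'`, `Q` the projection onto `L²(N)`: the elements of `M` which together with their adjoint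
leave `L²(N)` invariant.  (Equals the strong closure of `Nalg`: `st_NN_approx`.) -/
def NN : Set (H →L[ℂ] H) :=
  {b | b ∈ S.M ∧ (∀ ξ ∈ S.L2N, b ξ ∈ S.L2N) ∧ (∀ ξ ∈ S.L2N, star b ξ ∈ S.L2N)}

/-- The `phi`-preserving conditional expectation onto `N` (junk `0` outside `M`): the unique `b ∈ NN` with
`x - b ∈ Mo`. -/
noncomputable def EN (x : H →L[ℂ] H) : H →L[ℂ] H :=
  open Classical in
  if h : ∃ b, b ∈ S.NN ∧ x - b ∈ S.Mo then Classical.choose h else 0

end StData

end Claimed.Agent.R302
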