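/-
Row 302, package ST, file ENAbs (abstract operator lemmas for the EN chain): the conditional expectation `E_N` WITHOUT Takesaki's theorem / modular theory / commutation theorem, bounded approximation of `N`
by `Nalg` (D6), the bimodule `Mo`, and the FINAL EXPORT `st_decomp`.
LEAVES: ST-EN-abs (abstract operator lemmas `st_res_conv`, `st_cfc_agree`, `st_ghat_*`), ST-EN-L2N (the projection `Q`), ST-EN-main (`st_EN_sa`), ST-EN-prop (properties, `st_decomp`).
This file (ST-EN-abs): proofs by helper211; statements by helper73.  Uses `tr_cfc_poly_approx` of TR/Clip.lean (which imports only Mathlib).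

Proof of `st_EN_sa` (x = x* ∈ M; by scaling `‖x‖ ≤ 1/2`; `c := ‖x‖`; `g t := t/(1+t²)`; `T := Q x Q`).
 1. `n_i ∈ Nalg` self-adjoint with `n_i Om → Q x Om` (`st_four_seq`).  For `m ∈ Nalg`:  `n_i m Om = rmul m (n_i Om) → rmul m (Q x Om) = Q (rmul m) x Om = Q x m Om = T (m Om)`.
    So `n_i → T` pointwise on the dense subset `Nalg Om` of `K := L2N`; `T` is bounded self-adjoint, `T K ⊆ K`.
 2. `st_res_conv`:  `g(n_i) ξ → g(T) ξ` for `ξ ∈ K`  (resolvent identity `(n_i - i)⁻¹ - (T - i)⁻¹ = (n_i - i)⁻¹ (T - n_i) (T - i)⁻¹`, `‖(n_i - i)⁻¹‖ ≤ 1`,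
    `(T - i)⁻¹ K ⊆ K`, `(T-i)(Nalg Om)` dense in `K`;  `g = ((t-i)⁻¹ + (t+i)⁻¹)/2`).
 3. `g(n_i) ∈ M`, `‖g(n_i)‖ ≤ 1/2`, convergent on `Om ∈ K`: `st_strong_lim` gives `Y ∈ M`, `g(n_i) → Y` strongly, `Y = Y*`, `Y ξ = g(T) ξ` on `K`.
 4. `ghat c` continuous, `|ghat c| ≤ c`, `ghat c (g t) = t` for `|t| ≤ c ≤ 1/2`.   `b := cfc (ghat c) Y ∈ M`, `‖b‖ ≤ c`,
    `b ξ = cfc (ghat c) (g(T)) ξ = T ξ` on `K` (`st_cfc_agree`, `cfc_comp`, `spectrum T ⊆ [-c,c]`).  So `b K ⊆ K`, `b Om = Q x Om`, `b ∈ NN`.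
 5. `b_i := cfc (ghat c ∘ g) n_i`, `‖b_i‖ ≤ c`, `b_i → b` strongly (cfc is strongly continuous on bounded sets: polynomials + Weierstrass);
    `b_i` is a norm limit of real polynomials in `n_i`, which lie in `Nalg`; rescale to keep the norm `≤ c`.
-/
import Claimed.Agent.R302.ST.Defs
import Claimed.Agent.R302.TR.Clip

set_option autoImplicit false
set_option linter.unusedSectionVars false
set_option linter.deprecated false

namespace Claimed.Agent.R302

open scoped InnerProductSpace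

variable {H : Type*} [NormedAddCommGroup H] [InnerProductSpace ℂ H] [CompleteSpace H]

/-! ### abstract operator lemmas (no `StData`) -/

/-- the function `g t = t / (1 + t²)` -/
noncomputable def stG (t : ℝ) : ℝ := t / (1 + t ^ 2)

/-- a continuous left inverse of `g` on `[-c,c]`, `c ≤ 1`, bounded by `c` -/
noncomputable def stGhat (c : ℝ) (s : ℝ) : ℝ := max (-c) (min c (2 * s / (1 + Real.sqrt (1 - 4 * s ^ 2))))

theorem st_G_continuous : Continuous stG := by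
  unfold stG
  exact continuous_id.div (by fun_prop) (fun t => by positivity)

theorem st_G_abs_le (t : ℝ) : |stG t| ≤ 1 / 2 := by
  unfold stG
  rw [abs_div, abs_of_pos (by positivity : (0 : ℝ) < 1 + t ^ 2), div_le_iff₀ (by positivity)]
  nlinarith [sq_nonneg (|t| - 1), sq_abs t]

theorem st_Ghat_continuous (c : ℝ) : Continuous (stGhat c) := by
  unfold stGhat
  refine continuous_const.max (continuous_const.min (Continuous.div (by fun_prop) (by fun_prop) ?_))
  intro s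
  have := Real.sqrt_nonneg (1 - 4 * s ^ 2)
  positivity

theorem st_Ghat_abs_le {c : ℝ} (hc : 0 ≤ c) (s : ℝ) : |stGhat c s| ≤ c := by
  unfold stGhat
  rw [abs_le]
  exact ⟨le_max_left _ _, max_le (by linarith) (min_le_left _ _)⟩

theorem st_Ghat_G {c t : ℝ} (hc : c ≤ 1) (ht : |t| ≤ c) : stGhat c (stG t) = t := by
  have ht' := abs_le.1 ht
  have ht1 : t ^ 2 ≤ 1 := by
    have : |t| ≤ 1 := ht.trans hc
    rw [← sq_abs]
    exact pow_le_one₀ (abs_nonneg t) this
  have hpos : (0 : ℝ) < 1 + t ^ 2 := by positivity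
  have h1 : 1 - 4 * stG t ^ 2 = ((1 - t ^ 2) / (1 + t ^ 2)) ^ 2 := by
    unfold stG
    field_simp
    ring
  have h2 : Real.sqrt (1 - 4 * stG t ^ 2) = (1 - t ^ 2) / (1 + t ^ 2) := by
    rw [h1]
    exact Real.sqrt_sq (div_nonneg (by linarith) hpos.le)
  have h3 : 2 * stG t / (1 + Real.sqrt (1 - 4 * stG t ^ 2)) = t := by
    rw [h2]
    unfold stG
    field_simp
    ring
  unfold stGhat
  rw [h3, min_eq_right ht'.2, max_eq_right ht'.1]

/-! ### polynomials on vectors -/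

theorem st_pow_succ_apply (Y : H →L[ℂ] H) (k : ℕ) (ξ : H) : (Y ^ (k + 1)) ξ = Y ((Y ^ k) ξ) := by
  rw [pow_succ']
  rfl

theorem st_pow_agree (Y Y' : H →L[ℂ] H) (K : Submodule ℂ H) (hK : ∀ ξ ∈ K, Y' ξ ∈ K)
    (h : ∀ ξ ∈ K, Y ξ = Y' ξ) (k : ℕ) : ∀ ξ ∈ K, (Y ^ k) ξ = (Y' ^ k) ξ ∧ (Y' ^ k) ξ ∈ K := by
  induction k with
  | zero =>
    intro ξ hξ
    simpa using hξ
  | succ k ih =>
    intro ξ hξ
    obtain ⟨h1, h2⟩ := ih ξ hξ
    rw [st_pow_succ_apply, st_pow_succ_apply, h1, h _ h2]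
    exact ⟨rfl, hK _ h2⟩

open Polynomial in
theorem st_aeval_agree (Y Y' : H →L[ℂ] H) (K : Submodule ℂ H) (hK : ∀ ξ ∈ K, Y' ξ ∈ K)
    (h : ∀ ξ ∈ K, Y ξ = Y' ξ) (P : ℝ[X]) :
    ∀ ξ ∈ K, (aeval Y P) ξ = (aeval Y' P) ξ ∧ (aeval Y' P) ξ ∈ K := by
  induction P using Polynomial.induction_on' with
  | add p q hp hq =>
    intro ξ hξ
    obtain ⟨h1, h2⟩ := hp ξ hξ
    obtain ⟨h3, h4⟩ := hq ξ hξ
    rw [map_add, map_add, ContinuousLinearMap.add_apply, ContinuousLinearMap.add_apply, h1, h3]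
    exact ⟨rfl, K.add_mem h2 h4⟩
  | monomial k r =>
    intro ξ hξ
    obtain ⟨h1, h2⟩ := st_pow_agree Y Y' K hK h k ξ hξ
    rw [tr_aeval_monomial, tr_aeval_monomial, ContinuousLinearMap.smul_apply,
      ContinuousLinearMap.smul_apply, h1]
    exact ⟨rfl, K.smul_mem _ h2⟩

/-- Two self-adjoint operators which agree on a common closed invariant subspace have the same continuous functional calculus there. -/
theorem st_cfc_agree (Y Y' : H →L[ℂ] H) (hY : IsSelfAdjoint Y) (hY' : IsSelfAdjoint Y') (K : Submodule ℂ H)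
    (hKc : IsClosed (K : Set H)) (hK : ∀ ξ ∈ K, Y' ξ ∈ K) (h : ∀ ξ ∈ K, Y ξ = Y' ξ) (f : ℝ → ℝ) (hf : Continuous f) :
    ∀ ξ ∈ K, cfc f Y ξ = cfc f Y' ξ ∧ cfc f Y' ξ ∈ K := by
  intro ξ hξ
  have key : ∀ ε : ℝ, 0 < ε → ∃ η ∈ K, ‖cfc f Y ξ - η‖ ≤ ε ∧ ‖cfc f Y' ξ - η‖ ≤ ε := by
    intro ε hε
    have hden : 0 < ‖ξ‖ + 1 := by positivity
    obtain ⟨P, hP⟩ := tr_cfc_poly_approx (K := H) f hf (max ‖Y‖ ‖Y'‖) (ε / (‖ξ‖ + 1))
      (div_pos hε hden)
    obtain ⟨h1, h2⟩ := st_aeval_agree Y Y' K hK h P ξ hξ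
    have hb : ε / (‖ξ‖ + 1) * ‖ξ‖ ≤ ε := by
      rw [div_mul_eq_mul_div, div_le_iff₀ hden]
      nlinarith [norm_nonneg ξ]
    refine ⟨_, h2, ?_, ?_⟩
    · rw [← h1, ← ContinuousLinearMap.sub_apply]
      exact ((ContinuousLinearMap.le_opNorm _ _).trans (mul_le_mul_of_nonneg_right
        (hP Y hY (le_max_left _ _)) (norm_nonneg _))).trans hb
    · rw [← ContinuousLinearMap.sub_apply]
      exact ((ContinuousLinearMap.le_opNorm _ _).trans (mul_le_mul_of_nonneg_right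
        (hP Y' hY' (le_max_right _ _)) (norm_nonneg _))).trans hb
  constructor
  · rw [← sub_eq_zero, ← norm_eq_zero]
    refine le_antisymm (le_of_forall_pos_le_add fun ε hε => ?_) (norm_nonneg _)
    obtain ⟨η, _, h1, h2⟩ := key (ε / 2) (by positivity)
    have : cfc f Y ξ - cfc f Y' ξ = (cfc f Y ξ - η) - (cfc f Y' ξ - η) := by abel
    rw [this, zero_add]
    calc ‖(cfc f Y ξ - η) - (cfc f Y' ξ - η)‖ ≤ ‖cfc f Y ξ - η‖ + ‖cfc f Y' ξ - η‖ := norm_sub_le _ _
      _ ≤ ε := by linarith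
  · have hcl : cfc f Y' ξ ∈ closure (K : Set H) := by
      rw [Metric.mem_closure_iff]
      intro ε hε
      obtain ⟨η, hη, _, h2⟩ := key (ε / 2) (by positivity)
      refine ⟨η, hη, ?_⟩
      rw [dist_eq_norm]
      linarith
    rwa [hKc.closure_eq] at hcl

/-! ### resolvents -/

/-- `a t = 1 / (1 + t²)` -/
noncomputable def stA (t : ℝ) : ℝ := 1 / (1 + t ^ 2)

theorem st_A_continuous : Continuous stA := by
  unfold stA
  exact continuous_const.div (by fun_prop) (fun t => by positivity)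

theorem st_cfc_TA (T : H →L[ℂ] H) (hT : IsSelfAdjoint T) : T * cfc stA T = cfc stG T := by
  have h := cfc_mul (fun t : ℝ => t) stA T continuous_id.continuousOn st_A_continuous.continuousOn
  rw [cfc_id' ℝ T hT] at h
  rw [← h]
  refine cfc_congr fun t _ => ?_
  simp only [stG, stA]
  ring

theorem st_cfc_AT (T : H →L[ℂ] H) (hT : IsSelfAdjoint T) : cfc stA T * T = cfc stG T := by
  have h := cfc_mul stA (fun t : ℝ => t) T st_A_continuous.continuousOn continuous_id.continuousOn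
  rw [cfc_id' ℝ T hT] at h
  rw [← h]
  refine cfc_congr fun t _ => ?_
  simp only [stG, stA]
  ring

theorem st_cfc_TG_add (T : H →L[ℂ] H) (hT : IsSelfAdjoint T) :
    T * cfc stG T + cfc stA T = 1 := by
  have h := cfc_mul (fun t : ℝ => t) stG T continuous_id.continuousOn st_G_continuous.continuousOn
  rw [cfc_id' ℝ T hT] at h
  rw [← h, ← cfc_add T (fun t => t * stG t) stA
    (continuous_id.mul st_G_continuous).continuousOn st_A_continuous.continuousOn,
    ← cfc_const_one ℝ T hT]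
  refine cfc_congr fun t _ => ?_
  have : (1 : ℝ) + t ^ 2 ≠ 0 := by positivity
  simp only [stG, stA]
  field_simp
  ring

theorem st_cfc_GT_add (T : H →L[ℂ] H) (hT : IsSelfAdjoint T) :
    cfc stG T * T + cfc stA T = 1 := by
  have h := cfc_mul stG (fun t : ℝ => t) T st_G_continuous.continuousOn continuous_id.continuousOn
  rw [cfc_id' ℝ T hT] at h
  rw [← h, ← cfc_add T (fun t => stG t * t) stA
    (st_G_continuous.mul continuous_id).continuousOn st_A_continuous.continuousOn,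
    ← cfc_const_one ℝ T hT]
  refine cfc_congr fun t _ => ?_
  have : (1 : ℝ) + t ^ 2 ≠ 0 := by positivity
  simp only [stG, stA]
  field_simp
  ring

/-- the resolvent `(T - z)⁻¹`, `z = ± i`, written with the real functional calculus. -/
noncomputable def stRes (z : ℂ) (T : H →L[ℂ] H) : H →L[ℂ] H := cfc stG T + z • cfc stA T

theorem st_res_mul (z : ℂ) (hz : z * z = -1) (T : H →L[ℂ] H) (hT : IsSelfAdjoint T) :
    stRes z T * (T - z • (1 : H →L[ℂ] H)) = 1 := by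
  unfold stRes
  have e : (cfc stG T + z • cfc stA T) * (T - z • (1 : H →L[ℂ] H))
      = cfc stG T * T - z • cfc stG T + z • (cfc stA T * T) - (z * z) • cfc stA T := by
    simp only [add_mul, mul_sub, mul_smul_comm, smul_mul_assoc, mul_one]
    module
  rw [e, st_cfc_AT T hT, hz, ← st_cfc_GT_add T hT]
  simp

theorem st_mul_res (z : ℂ) (hz : z * z = -1) (T : H →L[ℂ] H) (hT : IsSelfAdjoint T) :
    (T - z • (1 : H →L[ℂ] H)) * stRes z T = 1 := by
  unfold stRes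
  have e : (T - z • (1 : H →L[ℂ] H)) * (cfc stG T + z • cfc stA T)
      = T * cfc stG T - z • cfc stG T + z • (T * cfc stA T) - (z * z) • cfc stA T := by
    simp only [mul_add, sub_mul, mul_smul_comm, smul_mul_assoc, one_mul]
    module
  rw [e, st_cfc_TA T hT, hz, ← st_cfc_TG_add T hT]
  simp

theorem st_res_lower (z : ℂ) (hz : z = Complex.I ∨ z = -Complex.I) (T : H →L[ℂ] H)
    (hT : IsSelfAdjoint T) (η : H) : ‖η‖ ≤ ‖(T - z • (1 : H →L[ℂ] H)) η‖ := by
  have hw : (T - z • (1 : H →L[ℂ] H)) η = T η - z • η := by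
    simp
  rw [hw]
  have hreal : (⟪η, T η⟫_ℂ).im = 0 := by
    have h : (starRingEnd ℂ) ⟪η, T η⟫_ℂ = ⟪η, T η⟫_ℂ := by
      rw [inner_conj_symm, ← ContinuousLinearMap.adjoint_inner_right, hT.adjoint_eq]
    exact Complex.conj_eq_iff_im.1 h
  have him : |(⟪η, T η - z • η⟫_ℂ).im| = ‖η‖ ^ 2 := by
    rw [inner_sub_right, inner_smul_right, Complex.sub_im, hreal, inner_self_eq_norm_sq_to_K]
    rcases hz with rfl | rfl
    · simp [← Complex.ofReal_pow]
    · simp [← Complex.ofReal_pow]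
  have hcs : |(⟪η, T η - z • η⟫_ℂ).im| ≤ ‖η‖ * ‖T η - z • η‖ :=
    (Complex.abs_im_le_norm _).trans (norm_inner_le_norm _ _)
  rw [him] at hcs
  by_cases h0 : ‖η‖ = 0
  · rw [h0]
    exact norm_nonneg _
  · have hpos : 0 < ‖η‖ := lt_of_le_of_ne (norm_nonneg _) (Ne.symm h0)
    rw [sq] at hcs
    exact le_of_mul_le_mul_left hcs hpos

theorem st_I_cases {z : ℂ} (hz : z = Complex.I ∨ z = -Complex.I) : z * z = -1 := by
  rcases hz with rfl | rfl <;> simp

theorem st_res_norm_le (z : ℂ) (hz : z = Complex.I ∨ z = -Complex.I) (T : H →L[ℂ] H)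
    (hT : IsSelfAdjoint T) (ξ : H) : ‖stRes z T ξ‖ ≤ ‖ξ‖ := by
  have h := st_res_lower z hz T hT (stRes z T ξ)
  have e : (T - z • (1 : H →L[ℂ] H)) (stRes z T ξ) = ξ := by
    have := congrArg (fun S : H →L[ℂ] H => S ξ) (st_mul_res z (st_I_cases hz) T hT)
    simpa using this
  rwa [e] at h

theorem st_res_conv_aux {ι : Type*} (l : Filter ι) (T : ι → H →L[ℂ] H) (T' : H →L[ℂ] H)
    (hT : ∀ i, IsSelfAdjoint (T i)) (hT' : IsSelfAdjoint T') (K : Submodule ℂ H) (hKc : IsClosed (K : Set H))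
    (hK : ∀ ξ ∈ K, T' ξ ∈ K) (D : Set H) (hD : ∀ ξ ∈ K, ∀ ε : ℝ, 0 < ε → ∃ ζ ∈ D, ‖ξ - ζ‖ < ε)
    (hconv : ∀ ζ ∈ D, Filter.Tendsto (fun i => T i ζ) l (nhds (T' ζ)))
    (z : ℂ) (hz : z = Complex.I ∨ z = -Complex.I) :
    ∀ ξ ∈ K, Filter.Tendsto (fun i => stRes z (T i) ξ) l (nhds (stRes z T' ξ)) := by
  intro ξ hξ
  have hzz := st_I_cases hz
  have hηK : stRes z T' ξ ∈ K := by
    unfold stRes
    rw [ContinuousLinearMap.add_apply, ContinuousLinearMap.smul_apply]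
    exact K.add_mem
      (st_cfc_agree T' T' hT' hT' K hKc hK (fun _ _ => rfl) stG st_G_continuous ξ hξ).2
      (K.smul_mem z
        (st_cfc_agree T' T' hT' hT' K hKc hK (fun _ _ => rfl) stA st_A_continuous ξ hξ).2)
  set η : H := stRes z T' ξ with hη
  have hηξ : (T' - z • (1 : H →L[ℂ] H)) η = ξ := by
    have := congrArg (fun S : H →L[ℂ] H => S ξ) (st_mul_res z hzz T' hT')
    simpa using this
  rw [Metric.tendsto_nhds]
  intro ε hε
  set L : ℝ := ‖T' - z • (1 : H →L[ℂ] H)‖ + 1 with hL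
  have hL1 : 1 ≤ L := by
    have := norm_nonneg (T' - z • (1 : H →L[ℂ] H))
    linarith
  have hLpos : 0 < L := by linarith
  obtain ⟨ζ, hζD, hζ⟩ := hD η hηK (ε / (3 * L)) (by positivity)
  have hc := hconv ζ hζD
  rw [Metric.tendsto_nhds] at hc
  filter_upwards [hc (ε / 3) (by positivity)] with i hi
  rw [dist_eq_norm] at hi ⊢
  have hback : stRes z (T i) ((T i - z • (1 : H →L[ℂ] H)) ζ) = ζ := by
    have := congrArg (fun S : H →L[ℂ] H => S ζ) (st_res_mul z hzz (T i) (hT i))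
    simpa using this
  have e : stRes z (T i) ξ - η
      = stRes z (T i) (ξ - (T' - z • (1 : H →L[ℂ] H)) ζ)
        + stRes z (T i) ((T' - z • (1 : H →L[ℂ] H)) ζ - (T i - z • (1 : H →L[ℂ] H)) ζ)
        + (ζ - η) := by
    rw [map_sub, map_sub, hback]
    abel
  have h1 : ‖stRes z (T i) (ξ - (T' - z • (1 : H →L[ℂ] H)) ζ)‖ ≤ ε / 3 := by
    refine (st_res_norm_le z hz (T i) (hT i) _).trans ?_
    rw [← hηξ, ← map_sub]
    refine (ContinuousLinearMap.le_opNorm _ _).trans ?_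
    have h2 : ‖T' - z • (1 : H →L[ℂ] H)‖ * ‖η - ζ‖ ≤ L * (ε / (3 * L)) :=
      mul_le_mul (by linarith) hζ.le (norm_nonneg _) hLpos.le
    have h3 : L * (ε / (3 * L)) = ε / 3 := by
      field_simp
    linarith
  have h2 : ‖stRes z (T i) ((T' - z • (1 : H →L[ℂ] H)) ζ - (T i - z • (1 : H →L[ℂ] H)) ζ)‖
      < ε / 3 := by
    refine lt_of_le_of_lt (st_res_norm_le z hz (T i) (hT i) _) ?_
    have : (T' - z • (1 : H →L[ℂ] H)) ζ - (T i - z • (1 : H →L[ℂ] H)) ζ = -(T i ζ - T' ζ) := by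
      simp
    rw [this, norm_neg]
    exact hi
  have h3 : ‖ζ - η‖ ≤ ε / 3 := by
    rw [norm_sub_rev]
    have : ε / (3 * L) ≤ ε / 3 := by
      apply div_le_div_of_nonneg_left hε.le (by norm_num)
      linarith
    linarith
  rw [e]
  calc _ ≤ ‖stRes z (T i) (ξ - (T' - z • (1 : H →L[ℂ] H)) ζ)‖
        + ‖stRes z (T i) ((T' - z • (1 : H →L[ℂ] H)) ζ - (T i - z • (1 : H →L[ℂ] H)) ζ)‖
        + ‖ζ - η‖ := (norm_add_le _ _).trans (add_le_add (norm_add_le _ _) le_rfl)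
    _ < ε := by linarith

/-- Strong resolvent convergence on an invariant subspace, from pointwise convergence on a dense subset of it. -/
theorem st_res_conv {ι : Type*} (l : Filter ι) (T : ι → H →L[ℂ] H) (T' : H →L[ℂ] H)
    (hT : ∀ i, IsSelfAdjoint (T i)) (hT' : IsSelfAdjoint T') (K : Submodule ℂ H) (hKc : IsClosed (K : Set H))
    (hK : ∀ ξ ∈ K, T' ξ ∈ K) (D : Set H) (_hDK : D ⊆ K) (hD : ∀ ξ ∈ K, ∀ ε : ℝ, 0 < ε → ∃ ζ ∈ D, ‖ξ - ζ‖ < ε)
    (hconv : ∀ ζ ∈ D, Filter.Tendsto (fun i => T i ζ) l (nhds (T' ζ))) :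
    ∀ ξ ∈ K, Filter.Tendsto (fun i => cfc stG (T i) ξ) l (nhds (cfc stG T' ξ)) := by
  intro ξ hξ
  have h1 := st_res_conv_aux l T T' hT hT' K hKc hK D hD hconv Complex.I (Or.inl rfl) ξ hξ
  have h2 := st_res_conv_aux l T T' hT hT' K hKc hK D hD hconv (-Complex.I) (Or.inr rfl) ξ hξ
  have h3 := (h1.add h2).const_smul (1 / 2 : ℂ)
  have e : ∀ S : H →L[ℂ] H,
      (1 / 2 : ℂ) • (stRes Complex.I S ξ + stRes (-Complex.I) S ξ) = cfc stG S ξ := by
    intro S
    simp only [stRes, ContinuousLinearMap.add_apply, ContinuousLinearMap.smul_apply]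
    module
  simpa only [e] using h3

/-! ### strong continuity -/

theorem st_pow_strong {ι : Type*} (l : Filter ι) (T : ι → H →L[ℂ] H) (T' : H →L[ℂ] H) (C : ℝ)
    (hC : ∀ i, ‖T i‖ ≤ C) (hconv : ∀ ξ, Filter.Tendsto (fun i => T i ξ) l (nhds (T' ξ))) (k : ℕ) :
    ∀ ξ, Filter.Tendsto (fun i => (T i ^ k) ξ) l (nhds ((T' ^ k) ξ)) := by
  induction k with
  | zero =>
    intro ξ
    simpa using tendsto_const_nhds
  | succ k ih =>
    intro ξ
    simp only [st_pow_succ_apply]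
    rw [tendsto_iff_norm_sub_tendsto_zero]
    have h1 := (tendsto_iff_norm_sub_tendsto_zero.1 (ih ξ)).const_mul C
    have h2 := tendsto_iff_norm_sub_tendsto_zero.1 (hconv ((T' ^ k) ξ))
    have h3 := h1.add h2
    rw [mul_zero, add_zero] at h3
    refine squeeze_zero (fun i => norm_nonneg _) (fun i => ?_) h3
    have e : T i ((T i ^ k) ξ) - T' ((T' ^ k) ξ)
        = T i ((T i ^ k) ξ - (T' ^ k) ξ) + (T i ((T' ^ k) ξ) - T' ((T' ^ k) ξ)) := by
      rw [map_sub]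
      abel
    rw [e]
    refine (norm_add_le _ _).trans (add_le_add ?_ le_rfl)
    exact ((T i).le_opNorm _).trans (mul_le_mul_of_nonneg_right (hC i) (norm_nonneg _))

open Polynomial in
theorem st_aeval_strong {ι : Type*} (l : Filter ι) (T : ι → H →L[ℂ] H) (T' : H →L[ℂ] H) (C : ℝ)
    (hC : ∀ i, ‖T i‖ ≤ C) (hconv : ∀ ξ, Filter.Tendsto (fun i => T i ξ) l (nhds (T' ξ))) (P : ℝ[X]) :
    ∀ ξ, Filter.Tendsto (fun i => (aeval (T i) P) ξ) l (nhds ((aeval T' P) ξ)) := by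
  induction P using Polynomial.induction_on' with
  | add p q hp hq =>
    intro ξ
    simp only [map_add, ContinuousLinearMap.add_apply]
    exact (hp ξ).add (hq ξ)
  | monomial k r =>
    intro ξ
    simp only [tr_aeval_monomial, ContinuousLinearMap.smul_apply]
    exact (st_pow_strong l T T' C hC hconv k ξ).const_smul _

/-- The continuous functional calculus is strongly continuous on bounded sets of self-adjoint operators. -/
theorem st_cfc_strong {ι : Type*} (l : Filter ι) (T : ι → H →L[ℂ] H) (T' : H →L[ℂ] H) (C : ℝ)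
    (hT : ∀ i, IsSelfAdjoint (T i)) (hT' : IsSelfAdjoint T') (hC : ∀ i, ‖T i‖ ≤ C)
    (hconv : ∀ ξ, Filter.Tendsto (fun i => T i ξ) l (nhds (T' ξ))) (f : ℝ → ℝ) (hf : Continuous f) :
    ∀ ξ, Filter.Tendsto (fun i => cfc f (T i) ξ) l (nhds (cfc f T' ξ)) := by
  intro ξ
  rw [Metric.tendsto_nhds]
  intro ε hε
  have hden : 0 < ‖ξ‖ + 1 := by positivity
  obtain ⟨P, hP⟩ := tr_cfc_poly_approx (K := H) f hf (max C ‖T'‖) (ε / 3 / (‖ξ‖ + 1))
    (div_pos (by positivity) hden)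
  have hb : ε / 3 / (‖ξ‖ + 1) * ‖ξ‖ ≤ ε / 3 := by
    rw [div_mul_eq_mul_div, div_le_iff₀ hden]
    nlinarith [norm_nonneg ξ]
  have hpoly := st_aeval_strong l T T' C hC hconv P ξ
  rw [Metric.tendsto_nhds] at hpoly
  filter_upwards [hpoly (ε / 3) (by positivity)] with i hi
  rw [dist_eq_norm] at hi ⊢
  have h1 : ‖cfc f (T i) ξ - (Polynomial.aeval (T i) P) ξ‖ ≤ ε / 3 := by
    rw [← ContinuousLinearMap.sub_apply]
    exact ((ContinuousLinearMap.le_opNorm _ _).trans (mul_le_mul_of_nonneg_right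
      (hP (T i) (hT i) ((hC i).trans (le_max_left _ _))) (norm_nonneg _))).trans hb
  have h2 : ‖cfc f T' ξ - (Polynomial.aeval T' P) ξ‖ ≤ ε / 3 := by
    rw [← ContinuousLinearMap.sub_apply]
    exact ((ContinuousLinearMap.le_opNorm _ _).trans (mul_le_mul_of_nonneg_right
      (hP T' hT' (le_max_right _ _)) (norm_nonneg _))).trans hb
  have e : cfc f (T i) ξ - cfc f T' ξ
      = (cfc f (T i) ξ - (Polynomial.aeval (T i) P) ξ)
        + ((Polynomial.aeval (T i) P) ξ - (Polynomial.aeval T' P) ξ)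
        - (cfc f T' ξ - (Polynomial.aeval T' P) ξ) := by abel
  rw [e]
  calc _ ≤ ‖cfc f (T i) ξ - (Polynomial.aeval (T i) P) ξ‖
        + ‖(Polynomial.aeval (T i) P) ξ - (Polynomial.aeval T' P) ξ‖
        + ‖cfc f T' ξ - (Polynomial.aeval T' P) ξ‖ :=
        (norm_sub_le _ _).trans (add_le_add (norm_add_le _ _) le_rfl)
    _ < ε := by linarith

open Polynomial in
theorem st_aeval_mem_subalgebra (B : Subalgebra ℂ (H →L[ℂ] H)) {n : H →L[ℂ] H} (hn : n ∈ B)
    (P : ℝ[X]) : aeval n P ∈ B := by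
  induction P using Polynomial.induction_on' with
  | add p q hp hq =>
    rw [map_add]
    exact B.add_mem hp hq
  | monomial k r =>
    rw [tr_aeval_monomial]
    exact B.smul_mem (B.pow_mem hn k) _

/-- `cfc f n` is a norm limit of real polynomials in `n`: membership in a norm-closed... stated as approximation inside a unital subalgebra. -/
theorem st_cfc_approx (B : Subalgebra ℂ (H →L[ℂ] H)) {n : H →L[ℂ] H} (hn : n ∈ B) (hsa : IsSelfAdjoint n)
    (f : ℝ → ℝ) (hf : Continuous f) {ε : ℝ} (hε : 0 < ε) :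
    ∃ m ∈ B, IsSelfAdjoint m ∧ ‖cfc f n - m‖ < ε := by
  obtain ⟨P, hP⟩ := tr_cfc_poly_approx (K := H) f hf ‖n‖ (ε / 2) (by positivity)
  refine ⟨Polynomial.aeval n P, st_aeval_mem_subalgebra B hn P, ?_, ?_⟩
  · rw [← cfc_polynomial P n hsa]
    exact cfc_predicate _ _
  · have := hP n hsa le_rfl
    linarith

/-- `cfc f x ∈ M` for `x = x* ∈ M` -/
theorem st_cfc_mem (M : VonNeumannAlgebra H) {x : H →L[ℂ] H} (hx : x ∈ M) (_hsa : IsSelfAdjoint x) (f : ℝ → ℝ) :
    cfc f x ∈ M := by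
  rw [← M.commutant_commutant, VonNeumannAlgebra.mem_commutant_iff]
  intro g hg
  have h1 : Commute x g := ((VonNeumannAlgebra.mem_commutant_iff.1 hg) x hx)
  exact ((h1.cfc_real f).eq).symm

end Claimed.Agent.R302
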