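/-
Row 302, package ST, file NormRN (part 2 of the Norm chain): groupoid normalisers, covariance of `E_A`, fixed part, Radon-Nikodym elements, right multiplications
by normalisers, three-set lemma, symmetric unitary normalisers, `Nalg` is a `*`-algebra.
LEAVES: ST-Norm-alg (closure properties, covariance, fixed part, D4), ST-Norm-RN (RN existence + exhaustion),
        ST-Norm-three (three-set lemma + symmetric unitaries + Nalg algebra), ST-Norm-rmul.

Proof plans.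
* covariance `EA (v z v*) = v EA z v*`:  `psi w := phi (v w v*) = ⟪v* Om, w v* Om⟫` is `A`-central, so `psi = psi ∘ EA` (`st_central_factor`);
  `phi (v z v* a) = psi (z a')`, `a' = v* a v`, `= psi (EA z a') = phi (v EA z v* a)`; conclude with `st_EA_eq`.
* fixed part: `b := EA v`, `f :=` support projection of `b` in `A`.  `b (v* a v) = EA (v v* a v) = EA (a v) = a b`, hence `f (v* a v - a) = 0`, hence `v f` commutes
  with `A`, `v f ∈ A`, `b = b f = EA (v f) = v f`.  Replace `f` by `f v*v`.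
* (D4): `∑ (v e v*) z (v e v*) = v (P.pinch (v* z v)) v*`, strong pinching limit at the vector `v* Om`, covariance.
* RN existence (`st_RN_of_le`): `psi a := phi (v* a v) ≤ C phi a` on `A₊`.  For `t ≥ 0` let `e_t :=` sup of all projections `e ∈ A` such that `psi e' ≤ t phi e'` for all
  projections `e' ≤ e` of `A` (hereditary + closed under orthogonal sums: complete additivity of vector functionals).  Below `1 - e_t`: `psi ≥ t phi`
  (maximal orthogonal family of `e''` with `psi e'' > t phi e''`).  `k :=` norm limit of `∑ t_i (e_{t_{i+1}} - e_{t_i})`.  Then `psi a = phi (k a)` on `A`, and on `M` by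
  `st_central_factor` for `ξ = v Om`.      (Alternative: Riesz on `closure (A Om)` + clipping of approximants.)
* exhaustion: with the same `e_t` for `psi` (no domination assumed): `phi (v v* - e_t) ≤ psi 1 / t`.  Do it for `v` and `v*` and intersect.
* `st_rbdd_GNb`: `‖x v Om‖² = phi (v* x* x v) = phi (k x* x) ≤ ‖k‖ ‖x Om‖²`.
  adjoint: `phi (z v) = phi (v* v z v) = phi (k v z)`.
* three-set lemma: see the comment at `st_three`.
-/
import Claimed.Agent.R302.ST.NormAlg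

set_option autoImplicit false
set_option linter.unusedSectionVars false
set_option linter.unusedVariables false

namespace Claimed.Agent.R302

open scoped InnerProductSpace ComplexOrder
open Filter Topology

variable {H : Type*} [NormedAddCommGroup H] [InnerProductSpace ℂ H] [CompleteSpace H]
variable (S : StData H)

/-! ### the key lemma: Radon-Nikodym derivative of `phi` w.r.t. `phi + ⟪ξ, · ξ⟫` inside `A`

`(g Om, g ξ)` is the orthogonal projection of `(Om, 0)` onto the closure of `{(a Om, a ξ) : a ∈ A}` in `H ⊕ H`; the approximants may be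
replaced by their real parts clipped to `[0,1]`, which makes them bounded, so that `st_strong_lim` applies. -/


/-- `‖x η‖² = re ⟪η, x* x η⟫`. -/
theorem rn_norm_sq (x : H →L[ℂ] H) (η : H) : ‖x η‖ ^ 2 = (⟪η, (star x * x) η⟫_ℂ).re := by
  rw [vn_mul_apply, vn_inner_star, inner_self_eq_norm_sq_to_K]
  norm_cast

/-- comparison of functional calculi on a vector -/
theorem rn_cfc_norm_le {a : H →L[ℂ] H} (f g : ℝ → ℝ) (hf : Continuous f) (hg : Continuous g)
    (h : ∀ t, |f t| ≤ |g t|) (η : H) : ‖cfc f a η‖ ≤ ‖cfc g a η‖ := by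
  have hfs : star (cfc f a) = cfc f a := (cfc_predicate f a : IsSelfAdjoint (cfc f a)).star_eq
  have hgs : star (cfc g a) = cfc g a := (cfc_predicate g a : IsSelfAdjoint (cfc g a)).star_eq
  have h1 : cfc f a * cfc f a ≤ cfc g a * cfc g a := by
    rw [← cfc_mul f f a (hf.continuousOn) (hf.continuousOn), ← cfc_mul g g a (hg.continuousOn) (hg.continuousOn)]
    apply cfc_mono
    · intro t _
      have := h t
      nlinarith [abs_mul_abs_self (f t), abs_mul_abs_self (g t), abs_nonneg (f t), abs_nonneg (g t)]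
    · exact (hf.mul hf).continuousOn
    · exact (hg.mul hg).continuousOn
  have h2 := vn_re_inner_le_of_le h1 η
  have h3 : ‖cfc f a η‖ ^ 2 ≤ ‖cfc g a η‖ ^ 2 := by
    rw [rn_norm_sq, rn_norm_sq, hfs, hgs]
    exact h2
  exact le_of_sq_le_sq h3 (norm_nonneg _) |> fun h => h

/-- normal operators: `‖x* η‖ = ‖x η‖` -/
theorem rn_norm_star_apply {x : H →L[ℂ] H} (hx : Commute (star x) x) (η : H) : ‖star x η‖ = ‖x η‖ := by
  have h : ‖star x η‖ ^ 2 = ‖x η‖ ^ 2 := by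
    rw [rn_norm_sq, rn_norm_sq, star_star, hx.eq]
  exact (sq_eq_sq₀ (norm_nonneg _) (norm_nonneg _)).1 h

/-- real part, then clipping to `[0,1]`, decreases both `‖a η‖` and `‖(1 - a) η‖`. -/
theorem rn_clip {a : H →L[ℂ] H} (ha : a ∈ S.A) :
    ∃ b ∈ S.A, 0 ≤ b ∧ b ≤ 1 ∧ ∀ η : H, ‖b η‖ ≤ ‖a η‖ ∧ ‖(1 - b) η‖ ≤ ‖(1 - a) η‖ := by
  set r : H →L[ℂ] H := (2⁻¹ : ℂ) • (a + star a) with hr
  have hrA : r ∈ S.A := S.A.smul_mem (add_mem ha (star_mem ha)) _
  have hrs : IsSelfAdjoint r := by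
    show star r = r
    rw [hr, star_smul, star_add, star_star, add_comm]
    simp
  have hn : Commute (star a) a := st_A_comm S (star_mem ha) ha
  have hn1 : Commute (star (1 - a)) (1 - a) :=
    st_A_comm S (star_mem (sub_mem (one_mem _) ha)) (sub_mem (one_mem _) ha)
  have h1 : ∀ η : H, ‖r η‖ ≤ ‖a η‖ := by
    intro η
    have e : r η = (2⁻¹ : ℂ) • (a η + star a η) := rfl
    have := norm_add_le (a η) (star a η)
    rw [rn_norm_star_apply hn] at this
    rw [e, norm_smul]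
    have h2 : ‖(2⁻¹ : ℂ)‖ = 2⁻¹ := by simp
    rw [h2]
    linarith
  have h2 : ∀ η : H, ‖(1 - r) η‖ ≤ ‖(1 - a) η‖ := by
    intro η
    have e : (1 - r) η = (2⁻¹ : ℂ) • ((1 - a) η + star (1 - a) η) := by
      have : (1 - r) = (2⁻¹ : ℂ) • ((1 - a) + star (1 - a)) := by
        rw [hr, star_sub, star_one]
        module
      rw [this]; rfl
    have := norm_add_le ((1 - a) η) (star (1 - a) η)
    rw [rn_norm_star_apply hn1] at this
    rw [e, norm_smul]
    have h2 : ‖(2⁻¹ : ℂ)‖ = 2⁻¹ := by simp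
    rw [h2]
    linarith
  set cl : ℝ → ℝ := fun t => max 0 (min 1 t) with hcl
  have hclc : Continuous cl := by fun_prop
  refine ⟨cfc cl r, vn_cfc_mem (vn_masaVN S.M S.A S.masa) hrA cl, ?_, ?_, fun η => ⟨?_, ?_⟩⟩
  · exact cfc_nonneg fun t _ => le_max_left _ _
  · exact cfc_le_one _ _ fun t _ => max_le zero_le_one (min_le_left _ _)
  · refine le_trans ?_ (h1 η)
    have := rn_cfc_norm_le (a := r) cl id hclc continuous_id (fun t => ?_) η
    · rwa [cfc_id ℝ r hrs] at this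
    · simp only [hcl, id]
      rcases le_total t 0 with h | h
      · rw [min_eq_right (h.trans zero_le_one), max_eq_left h]; simp
      · rcases le_total t 1 with h' | h'
        · rw [min_eq_right h', max_eq_right h]
        · rw [min_eq_left h', max_eq_right zero_le_one, abs_one, abs_of_nonneg h]; exact h'
  · refine le_trans ?_ (h2 η)
    have := rn_cfc_norm_le (a := r) (fun t => 1 - cl t) (fun t => 1 - t) (by fun_prop) (by fun_prop)
      (fun t => ?_) η
    · rwa [cfc_sub (fun _ => (1:ℝ)) cl r (by fun_prop) hclc.continuousOn,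
        cfc_sub (fun _ => (1:ℝ)) (fun t => t) r (by fun_prop) (by fun_prop), cfc_const_one ℝ r,
        cfc_id' ℝ r hrs] at this
    · simp only [hcl]
      rcases le_total t 0 with h | h
      · rw [min_eq_right (h.trans zero_le_one), max_eq_left h, sub_zero, abs_one,
          abs_of_nonneg (by linarith)]; linarith
      · rcases le_total t 1 with h' | h'
        · rw [min_eq_right h', max_eq_right h]
        · rw [min_eq_left h', max_eq_right zero_le_one]; simp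

/-- **Key lemma** (Radon-Nikodym of `phi` w.r.t. `phi + psi`, `psi = ⟪ξ, · ξ⟫`, inside `A`). -/
theorem rn_key (ξ : H) : ∃ g ∈ S.A, 0 ≤ g ∧ g ≤ 1 ∧
    ∀ a ∈ S.A, ⟪ξ, (g * a) ξ⟫_ℂ = S.phi ((1 - g) * a) := by
  let T : (H →L[ℂ] H) →ₗ[ℂ] WithLp 2 (H × H) :=
    { toFun := fun a => WithLp.toLp 2 (a S.Om, a ξ)
      map_add' := fun a b => rfl
      map_smul' := fun c a => rfl }
  have hT1 : ∀ a, (T a).fst = a S.Om := fun a => rfl
  have hT2 : ∀ a, (T a).snd = a ξ := fun a => rfl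
  let K₀ : Submodule ℂ (WithLp 2 (H × H)) := (Subalgebra.toSubmodule S.A.toSubalgebra).map T
  let K : Submodule ℂ (WithLp 2 (H × H)) := K₀.topologicalClosure
  let u : WithLp 2 (H × H) := WithLp.toLp 2 (S.Om, 0)
  let p : WithLp 2 (H × H) := K.starProjection u
  have hpK : p ∈ K := Submodule.starProjection_apply_mem K u
  have hperp : ∀ w ∈ K, ⟪w, u - p⟫_ℂ = 0 := fun w hw =>
    (Submodule.mem_orthogonal K _).1 (Submodule.sub_starProjection_mem_orthogonal u) w hw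
  have hTK : ∀ a ∈ S.A, T a ∈ K := fun a ha =>
    Submodule.le_topologicalClosure K₀ (Submodule.mem_map_of_mem ha)
  -- Pythagoras
  have hpyth : ∀ w ∈ K, ‖u - w‖ ^ 2 = ‖u - p‖ ^ 2 + ‖p - w‖ ^ 2 := by
    intro w hw
    have h0 : ⟪u - p, p - w⟫_ℂ = 0 := by
      rw [← inner_conj_symm, hperp _ (sub_mem hpK hw), map_zero]
    have := norm_add_sq_eq_norm_sq_add_norm_sq_of_inner_eq_zero (u - p) (p - w) h0
    rw [sub_add_sub_cancel] at this
    nlinarith [this]
  have hdist : ∀ a, ‖u - T a‖ ^ 2 = ‖(1 - a) S.Om‖ ^ 2 + ‖a ξ‖ ^ 2 := by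
    intro a
    rw [WithLp.prod_norm_sq_eq_of_L2]
    congr 1
    show ‖(0 : H) - a ξ‖ ^ 2 = _
    rw [zero_sub, norm_neg]
  -- approximating sequence
  obtain ⟨x, hx, hxlim⟩ := mem_closure_iff_seq_limit.1 (show p ∈ closure (K₀ : Set _) from hpK)
  have hx' : ∀ n, ∃ a ∈ S.A, T a = x n := fun n => by
    obtain ⟨a, ha, h⟩ := hx n
    exact ⟨a, ha, h⟩
  choose a haA hax using hx'
  choose b hbA hb0 hb1 hb using fun n => rn_clip S (haA n)
  have hle : ∀ n, ‖p - T (b n)‖ ≤ ‖p - x n‖ := by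
    intro n
    have h1 := hpyth _ (hTK _ (hbA n))
    have h2 := hpyth _ (hTK _ (haA n))
    rw [hdist] at h1 h2
    have h3 := (hb n S.Om).2
    have h4 := (hb n ξ).1
    have h5 : ‖p - T (b n)‖ ^ 2 ≤ ‖p - T (a n)‖ ^ 2 := by
      have h6 : ‖(1 - b n) S.Om‖ ^ 2 ≤ ‖(1 - a n) S.Om‖ ^ 2 := by gcongr
      have h7 : ‖b n ξ‖ ^ 2 ≤ ‖a n ξ‖ ^ 2 := by gcongr
      linarith
    rw [← hax n]
    exact le_of_sq_le_sq h5 (norm_nonneg _) |> fun h => h
  have hblim : Tendsto (fun n => T (b n)) atTop (𝓝 p) := by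
    rw [tendsto_iff_norm_sub_tendsto_zero]
    have h0 : Tendsto (fun n => ‖x n - p‖) atTop (𝓝 0) := tendsto_iff_norm_sub_tendsto_zero.1 hxlim
    refine squeeze_zero (fun _ => norm_nonneg _) (fun n => ?_) h0
    rw [norm_sub_rev, norm_sub_rev (x n)]
    exact hle n
  have hlim1 : Tendsto (fun n => b n S.Om) atTop (𝓝 p.fst) :=
    ((continuous_fst.comp (WithLp.prod_continuous_ofLp 2 H H)).tendsto p).comp hblim
  have hlim2 : Tendsto (fun n => b n ξ) atTop (𝓝 p.snd) :=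
    ((continuous_snd.comp (WithLp.prod_continuous_ofLp 2 H H)).tendsto p).comp hblim
  obtain ⟨g, hgM, -, hgOm, hg⟩ := st_strong_lim S atTop b 1 (fun n => st_A_le_M S (hbA n))
    (fun n => (CStarAlgebra.norm_le_one_iff_of_nonneg (b n) (hb0 n)).2 (hb1 n)) p.fst hlim1
  have hsot : SotTendsto atTop b g := hg
  have hwot := hsot.wotTendsto
  have hgA : g ∈ S.A := hwot.mem (vn_masaVN S.M S.A S.masa) (Eventually.of_forall hbA)
  have hgξ : g ξ = p.snd := tendsto_nhds_unique (hg ξ) hlim2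
  refine ⟨g, hgA, hwot.nonneg (Eventually.of_forall hb0), hwot.le_const (Eventually.of_forall hb1),
    fun c hc => ?_⟩
  have h := hperp _ (hTK _ (star_mem hc))
  rw [WithLp.prod_inner_apply] at h
  have e1 : (WithLp.ofLp (u - p)).fst = (1 - g) S.Om := by
    show S.Om - p.fst = _
    rw [← hgOm]; rfl
  have e2 : (WithLp.ofLp (u - p)).snd = - g ξ := by
    show (0 : H) - p.snd = _
    rw [← hgξ, zero_sub]
  have e3 : (WithLp.ofLp (T (star c))).fst = star c S.Om := rfl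
  have e4 : (WithLp.ofLp (T (star c))).snd = star c ξ := rfl
  rw [e1, e2, e3, e4, inner_neg_right, ← vn_inner_star, ← vn_inner_star, star_star,
    add_neg_eq_zero] at h
  have c1 : g * c = c * g := (st_A_comm S hgA hc).eq
  have c2 : (1 - g) * c = c * (1 - g) := (st_A_comm S (sub_mem (one_mem _) hgA) hc).eq
  rw [c1, c2]
  exact h.symm

/-! ### Hahn exhaustion and the Radon-Nikodym theorem in `A` -/

/-- monotonicity of multiplication by positive elements inside the abelian algebra `A` -/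
theorem rn_mul_le_mul {x y c : H →L[ℂ] H} (hx : x ∈ S.A) (hy : y ∈ S.A) (hc : c ∈ S.A) (hc0 : 0 ≤ c)
    (h : x ≤ y) : x * c ≤ y * c := by
  rw [← sub_nonneg, ← sub_mul]
  exact Commute.mul_nonneg (sub_nonneg.2 h) hc0 (st_A_comm S (sub_mem hy hx) hc)

theorem rn_proj_re (η : H) {p : H →L[ℂ] H} (hp : IsStarProjection p) :
    (⟪η, p η⟫_ℂ).re = ‖p η‖ ^ 2 := by
  rw [vn_proj_inner_self hp]; exact Complex.ofReal_re _

theorem rn_re_inner_le_norm (x : H →L[ℂ] H) (η : H) : (⟪η, x η⟫_ℂ).re ≤ ‖x‖ * ‖η‖ ^ 2 := by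
  calc (⟪η, x η⟫_ℂ).re ≤ ‖⟪η, x η⟫_ℂ‖ := Complex.re_le_norm _
    _ ≤ ‖η‖ * ‖x η‖ := norm_inner_le_norm _ _
    _ ≤ ‖η‖ * (‖x‖ * ‖η‖) := by gcongr; exact x.le_opNorm _
    _ = ‖x‖ * ‖η‖ ^ 2 := by ring

theorem rn_re_sc_mul (t : ℝ) (x : H →L[ℂ] H) (η : H) :
    (⟪η, (vn_sc t * x : H →L[ℂ] H) η⟫_ℂ).re = t * (⟪η, x η⟫_ℂ).re := by
  have : (vn_sc t * x : H →L[ℂ] H) η = (t : ℂ) • x η := by simp
  rw [this, inner_smul_right]
  simp

/-- Hahn-type exhaustion for two vector functionals on `A`. -/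
theorem st_hahn (ξ : H) {ε : ℝ} (hε : 0 < ε) :
    ∃ e C, S.IsProjA e ∧ ‖(1 - e) S.Om‖ < ε ∧ ∀ e', S.IsProjA e' → e' * e = e' → ‖e' ξ‖ ^ 2 ≤ C * ‖e' S.Om‖ ^ 2 := by
  obtain ⟨g, hgA, hg0, hg1, hg⟩ := rn_key S ξ
  set N : ℝ := ‖S.Om‖ ^ 2 + ‖ξ‖ ^ 2 + 1 with hN
  have hNpos : 0 < N := by positivity
  set δ : ℝ := ε ^ 2 / N with hδ
  have hδpos : 0 < δ := by positivity
  set e := vn_specGt g δ with he
  have heA : e ∈ S.A := vn_specGt_mem (vn_masaVN S.M S.A S.masa) hgA δ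
  have hep : IsStarProjection e := vn_specGt_isStarProjection g δ
  have h1A : (1 : H →L[ℂ] H) ∈ S.A := one_mem _
  refine ⟨e, 1 / δ, ⟨heA, hep⟩, ?_, ?_⟩
  · have hq : IsStarProjection (1 - e) := hep.one_sub
    have hqA : 1 - e ∈ S.A := sub_mem h1A heA
    have hn : ‖g * (1 - e)‖ ≤ δ := vn_norm_mul_specGt_compl_le hg0 hδpos.le
    have e1 : (⟪S.Om, (1 - e) S.Om⟫_ℂ).re
        = (⟪S.Om, (g * (1 - e)) S.Om⟫_ℂ).re + (⟪ξ, (g * (1 - e)) ξ⟫_ℂ).re := by
      rw [hg _ hqA]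
      unfold StData.phi
      rw [← Complex.add_re, ← inner_add_right, ← add_apply, ← add_mul, add_sub_cancel, one_mul]
    have h2 := rn_re_inner_le_norm (g * (1 - e)) S.Om
    have h3 := rn_re_inner_le_norm (g * (1 - e)) ξ
    rw [rn_proj_re _ hq] at e1
    have h4 : ‖(1 - e) S.Om‖ ^ 2 ≤ δ * (‖S.Om‖ ^ 2 + ‖ξ‖ ^ 2) := by
      have h5 : ‖g * (1 - e)‖ * ‖S.Om‖ ^ 2 ≤ δ * ‖S.Om‖ ^ 2 := by gcongr
      have h6 : ‖g * (1 - e)‖ * ‖ξ‖ ^ 2 ≤ δ * ‖ξ‖ ^ 2 := by gcongr
      linarith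
    have h5 : δ * (‖S.Om‖ ^ 2 + ‖ξ‖ ^ 2) < ε ^ 2 := by
      have : δ * N = ε ^ 2 := by rw [hδ]; field_simp
      nlinarith
    exact lt_of_pow_lt_pow_left₀ 2 hε.le (lt_of_le_of_lt h4 h5)
  · intro e' he' hee
    have hee' : e * e' = e' := by rw [(st_A_comm S heA he'.1).eq, hee]
    have h1 : vn_sc δ * e' ≤ g * e' := by
      have := rn_mul_le_mul S (S.A.mul_mem (S.A.smul_mem h1A _) heA) hgA he'.1 he'.2.nonneg
        (vn_smul_specGt_le hg0 δ)
      rwa [mul_assoc, hee'] at this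
    have h2 : (1 - g) * e' ≤ 1 * e' :=
      rn_mul_le_mul S (sub_mem h1A hgA) h1A he'.1 he'.2.nonneg (sub_le_self _ hg0)
    rw [one_mul] at h2
    have h3 := vn_re_inner_le_of_le h1 ξ
    have h4 := vn_re_inner_le_of_le h2 S.Om
    rw [rn_re_sc_mul, rn_proj_re _ he'.2, hg _ he'.1] at h3
    rw [rn_proj_re _ he'.2] at h4
    have h5 : δ * ‖e' ξ‖ ^ 2 ≤ ‖e' S.Om‖ ^ 2 := h3.trans h4
    rw [div_mul_eq_mul_div, one_mul, le_div_iff₀ hδpos]
    linarith

/-- Radon-Nikodym theorem in `A` for a dominated functional `⟪ξ, a ξ⟫`. -/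
theorem st_RN_vec (ξ : H) (C : ℝ)
    (h : ∀ e, S.IsProjA e → ‖e ξ‖ ^ 2 ≤ C * ‖e S.Om‖ ^ 2) :
    ∃ k ∈ S.A, 0 ≤ k ∧ ‖k‖ ≤ max C 0 ∧ ∀ a ∈ S.A, ⟪ξ, a ξ⟫_ℂ = S.phi (k * a) := by
  obtain ⟨g, hgA, hg0, hg1, hg⟩ := rn_key S ξ
  set D : ℝ := max C 0 with hD
  have hD0 : 0 ≤ D := le_max_right _ _
  set δ₀ : ℝ := 1 / (1 + D) with hδ₀
  have hδ₀pos : 0 < δ₀ := by positivity
  have hδ₀D : δ₀ * (1 + D) = 1 := by rw [hδ₀]; field_simp
  have h1A : (1 : H →L[ℂ] H) ∈ S.A := one_mem _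
  have hgs : IsSelfAdjoint g := hg0.isSelfAdjoint
  -- Step 1
  have step1 : ∀ δ : ℝ, 0 < δ → δ < δ₀ → (vn_sc δ : H →L[ℂ] H) ≤ g := by
    intro δ hδ hδlt
    set e := vn_specGt g δ with he
    have heA : e ∈ S.A := vn_specGt_mem (vn_masaVN S.M S.A S.masa) hgA δ
    have hep : IsStarProjection e := vn_specGt_isStarProjection g δ
    have hq : IsStarProjection (1 - e) := hep.one_sub
    have hqA : 1 - e ∈ S.A := sub_mem h1A heA
    have ha : g * (1 - e) ≤ vn_sc δ * (1 - e) := by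
      have := vn_specGt_compl_nonpos hgs δ
      rwa [sub_mul, sub_nonpos] at this
    have hb := vn_re_inner_le_of_le ha ξ
    have hc := vn_re_inner_le_of_le ha S.Om
    rw [rn_re_sc_mul, rn_proj_re _ hq] at hb hc
    have hd : (⟪ξ, (g * (1 - e)) ξ⟫_ℂ).re = ‖(1 - e) S.Om‖ ^ 2 - (⟪S.Om, (g * (1 - e)) S.Om⟫_ℂ).re := by
      rw [hg _ hqA, sub_mul, one_mul, st_phi_sub, Complex.sub_re]
      unfold StData.phi
      rw [rn_proj_re _ hq]
    have he1 := h _ ⟨hqA, hq⟩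
    have he2 : C * ‖(1 - e) S.Om‖ ^ 2 ≤ D * ‖(1 - e) S.Om‖ ^ 2 := by
      gcongr; exact le_max_left _ _
    have hf : (1 - δ * (1 + D)) * ‖(1 - e) S.Om‖ ^ 2 ≤ 0 := by
      have : δ * ‖(1 - e) ξ‖ ^ 2 ≤ δ * (D * ‖(1 - e) S.Om‖ ^ 2) := by
        gcongr; exact he1.trans he2
      nlinarith
    have hpos : 0 < 1 - δ * (1 + D) := by
      have : δ * (1 + D) < δ₀ * (1 + D) := by gcongr
      linarith
    have hz : ‖(1 - e) S.Om‖ ^ 2 ≤ 0 := by
      by_contra hcon
      rw [not_le] at hcon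
      have := mul_pos hpos hcon
      linarith
    have hz' : (1 - e) S.Om = 0 := by
      have : ‖(1 - e) S.Om‖ = 0 := by
        have h0 := sq_nonneg ‖(1 - e) S.Om‖
        exact pow_eq_zero_iff (two_ne_zero) |>.1 (le_antisymm hz h0)
      exact norm_eq_zero.1 this
    have hq0 : 1 - e = 0 := S.sep _ (st_A_le_M S hqA) hz'
    have he1 : e = 1 := (sub_eq_zero.1 hq0).symm
    have := vn_smul_specGt_le hg0 δ
    rwa [← he, he1, mul_one] at this
  -- Step 2
  have spec_ge : ∀ t ∈ spectrum ℝ g, δ₀ ≤ t := by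
    intro t ht
    refine le_of_forall_lt fun c hc => ?_
    have h1 : max c (δ₀ / 2) < δ₀ := max_lt hc (by linarith)
    have h2 : 0 < max c (δ₀ / 2) := lt_of_lt_of_le (by linarith) (le_max_right _ _)
    obtain ⟨d, hd1, hd2⟩ := exists_between h1
    have h3 := step1 d (h2.trans hd1) hd2
    rw [vn_sc_eq_algebraMap, algebraMap_le_iff_le_spectrum] at h3
    exact lt_of_le_of_lt (le_max_left _ _) (lt_of_lt_of_le hd1 (h3 t ht))
  have spec_le : ∀ t ∈ spectrum ℝ g, t ≤ 1 := by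
    intro t ht
    have h3 : g ≤ algebraMap ℝ (H →L[ℂ] H) 1 := by rw [map_one]; exact hg1
    rw [le_algebraMap_iff_spectrum_le] at h3
    exact h3 t ht
  -- Step 3
  set hf : ℝ → ℝ := fun t => 1 / max t δ₀ with hhf
  have hfc : Continuous hf := by
    apply Continuous.div continuous_const (by fun_prop)
    intro t
    exact (lt_of_lt_of_le hδ₀pos (le_max_right _ _)).ne'
  have hfspec : ∀ t ∈ spectrum ℝ g, hf t = 1 / t := fun t ht => by
    simp only [hhf]; rw [max_eq_left (spec_ge t ht)]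
  have hinvA : cfc hf g ∈ S.A := vn_cfc_mem (vn_masaVN S.M S.A S.masa) hgA hf
  have e1 : g * cfc hf g = 1 := by
    have : cfc (fun t : ℝ => t * hf t) g = cfc (fun t : ℝ => t) g * cfc hf g :=
      cfc_mul (fun t : ℝ => t) hf g (by fun_prop) hfc.continuousOn
    rw [cfc_id' ℝ g hgs] at this
    rw [← this, ← cfc_const_one ℝ g]
    apply cfc_congr
    intro t ht
    have ht0 : t ≠ 0 := (lt_of_lt_of_le hδ₀pos (spec_ge t ht)).ne'
    simp only [hfspec t ht]
    field_simp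
  have e2 : cfc (fun t : ℝ => (1 - t) * hf t) g = (1 - g) * cfc hf g := by
    rw [cfc_mul (fun t : ℝ => 1 - t) hf g (by fun_prop) hfc.continuousOn,
      cfc_sub (fun _ => (1:ℝ)) (fun t => t) g (by fun_prop) (by fun_prop), cfc_const_one ℝ g,
      cfc_id' ℝ g hgs]
  refine ⟨cfc (fun t : ℝ => (1 - t) * hf t) g, vn_cfc_mem (vn_masaVN S.M S.A S.masa) hgA _, ?_, ?_, ?_⟩
  · apply cfc_nonneg
    intro t ht
    have ht0 : 0 < t := lt_of_lt_of_le hδ₀pos (spec_ge t ht)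
    rw [hfspec t ht]
    have := spec_le t ht
    apply mul_nonneg (by linarith) (by positivity)
  · apply norm_cfc_le hD0
    intro t ht
    have ht0 : 0 < t := lt_of_lt_of_le hδ₀pos (spec_ge t ht)
    have ht1 := spec_le t ht
    rw [hfspec t ht, Real.norm_of_nonneg (mul_nonneg (by linarith) (by positivity)),
      mul_one_div, div_le_iff₀ ht0]
    have : δ₀ * (1 + D) ≤ t * (1 + D) := by
      gcongr; exact spec_ge t ht
    linarith
  · intro a ha
    rw [e2, mul_assoc, ← hg _ (mul_mem hinvA ha), ← mul_assoc, e1, one_mul]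

/-! ### Radon-Nikodym elements -/

theorem st_RN_unique {v k k' : H →L[ℂ] H} (hk : S.IsRN v k) (hk' : S.IsRN v k') : k = k' := by
  have hx : k - k' ∈ S.A := sub_mem hk.1 hk'.1
  have h : S.phi (star (star (k - k')) * star (k - k')) = 0 := by
    have hw : star (k - k') ∈ S.M := st_A_le_M S (star_mem hx)
    rw [star_star, sub_mul, st_phi_sub, ← hk.2.2 _ hw, ← hk'.2.2 _ hw, sub_self]
  have := st_phi_faithful S (st_A_le_M S (star_mem hx)) h
  rw [star_eq_zero, sub_eq_zero] at this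
  exact this

/-- `k` is supported on `v v*`. -/
theorem st_RN_supp {v k : H →L[ℂ] H} (hv : S.IsGN v) (hk : S.IsRN v k) : k * (v * star v) = k := by
  have hp := st_GN_rng_proj S hv
  set p := v * star v with hpdef
  have hq : IsStarProjection (1 - p) := hp.2.one_sub
  have hqA : 1 - p ∈ S.A := sub_mem (one_mem _) hp.1
  set s := CFC.sqrt k with hs
  have hsA : s ∈ S.A := st_sqrt_mem_A S hk.1
  have hss : s * s = k := CFC.sqrt_mul_sqrt_self k hk.2.1
  have hsa : star s = s := (CFC.sqrt_nonneg k).isSelfAdjoint.star_eq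
  have e0 : S.phi (k * (1 - p)) = 0 := by
    rw [← hk.2.2 _ (st_A_le_M S hqA)]
    have : star v * (1 - p) * v = 0 := by
      rw [hpdef, mul_sub, sub_mul, mul_one, mul_assoc (star v), hv.pisom, sub_self]
    rw [this]; simp [StData.phi]
  have e1 : star (s * (1 - p)) * (s * (1 - p)) = k * (1 - p) := by
    rw [star_mul, hq.isSelfAdjoint.star_eq, hsa, (st_A_comm S hqA hsA).eq, mul_assoc s,
      ← mul_assoc (1 - p) s, (st_A_comm S hqA hsA).eq, mul_assoc s (1 - p), hq.isIdempotentElem.eq,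
      ← mul_assoc, hss]
  have e2 : s * (1 - p) = 0 :=
    st_phi_faithful S (st_A_le_M S (mul_mem hsA hqA)) (by rw [e1, e0])
  have e3 : k * (1 - p) = 0 := by rw [← hss, mul_assoc, e2, mul_zero]
  rw [mul_sub, mul_one, sub_eq_zero] at e3
  exact e3.symm

/-- `v* a = (v* a v) v*` -/
theorem rn_star_mul_A {v a : H →L[ℂ] H} (hv : S.IsGN v) (ha : a ∈ S.A) :
    star v * a = (star v * a * v) * star v := by
  have := st_GN_intertwine' S (st_GN_star S hv) ha
  rwa [star_star] at this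

/-- `a v* = v* (v a v*)` -/
theorem rn_A_mul_star {v a : H →L[ℂ] H} (hv : S.IsGN v) (ha : a ∈ S.A) :
    a * star v = star v * (v * a * star v) := by
  have := st_GN_intertwine S (st_GN_star S hv) ha
  rwa [star_star] at this

theorem rn_inner_eq_phi (v w : H →L[ℂ] H) : ⟪v S.Om, w (v S.Om)⟫_ℂ = S.phi (star v * w * v) := by
  rw [mul_assoc, st_phi_star_mul]; rfl

/-- it is enough to test on `A` -/
theorem st_RN_of_A {v k : H →L[ℂ] H} (hv : S.IsGN v) (hk : k ∈ S.A) (hk0 : 0 ≤ k)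
    (h : ∀ a ∈ S.A, S.phi (star v * a * v) = S.phi (k * a)) : S.IsRN v k := by
  refine ⟨hk, hk0, fun w hw => ?_⟩
  have hvM := hv.mem
  have hcen : ∀ a ∈ S.A, ∀ x ∈ S.M, ⟪v S.Om, (a * x) (v S.Om)⟫_ℂ = ⟪v S.Om, (x * a) (v S.Om)⟫_ℂ := by
    intro a ha x hx
    rw [rn_inner_eq_phi, rn_inner_eq_phi]
    have ha' : star v * a * v ∈ S.A := hv.conj' a ha
    calc S.phi (star v * (a * x) * v) = S.phi ((star v * a) * (x * v)) := by simp only [mul_assoc]
      _ = S.phi (((star v * a * v) * star v) * (x * v)) := by rw [← rn_star_mul_A S hv ha]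
      _ = S.phi ((star v * a * v) * (star v * x * v)) := by simp only [mul_assoc]
      _ = S.phi ((star v * x * v) * (star v * a * v)) :=
          st_phi_central S ha' (mul_mem (mul_mem (star_mem hvM) hx) hvM)
      _ = S.phi (star v * x * (v * (star v * a * v))) := by simp only [mul_assoc]
      _ = S.phi (star v * (x * a) * v) := by
          rw [← st_GN_intertwine S hv ha]; simp only [mul_assoc]
  have h1 := st_central_factor S (v S.Om) hcen hw
  rw [rn_inner_eq_phi, rn_inner_eq_phi, h _ (st_EA_mem S hw), ← st_EA_mul_left S hk hw,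
    st_phi_EA S (mul_mem (st_A_le_M S hk) hw)] at h1
  exact h1

theorem st_RN_of_le {v : H →L[ℂ] H} (hv : S.IsGN v) (C : ℝ)
    (h : ∀ e, S.IsProjA e → ‖e (v S.Om)‖ ^ 2 ≤ C * ‖e S.Om‖ ^ 2) : ∃ k, S.IsRN v k ∧ ‖k‖ ≤ max C 0 := by
  obtain ⟨k, hkA, hk0, hkn, hk⟩ := st_RN_vec S (v S.Om) C h
  exact ⟨k, st_RN_of_A S hv hkA hk0 fun a ha => by rw [← rn_inner_eq_phi, hk a ha], hkn⟩

theorem st_GNb_star {v : H →L[ℂ] H} (hv : S.IsGNb v) : S.IsGNb (star v) :=
  ⟨st_GN_star S hv.1, hv.2.2, by rw [star_star]; exact hv.2.1⟩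

/-- chain rule -/
theorem st_RN_mul {v w k l : H →L[ℂ] H} (hv : S.IsGN v) (hw : S.IsGN w) (hk : S.IsRN v k) (hl : S.IsRN w l) :
    S.IsRN (v * w) (k * (v * l * star v)) := by
  have hc : v * l * star v ∈ S.A := hv.conj l hl.1
  refine ⟨mul_mem hk.1 hc, ?_, fun x hx => ?_⟩
  · exact Commute.mul_nonneg hk.2.1 (star_right_conjugate_nonneg hl.2.1 v) (st_A_comm S hk.1 hc)
  · have hvM := hv.mem
    calc S.phi (star (v * w) * x * (v * w)) = S.phi (star w * (star v * x * v) * w) := by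
          rw [star_mul]; simp only [mul_assoc]
      _ = S.phi (l * (star v * x * v)) := hl.2.2 _ (mul_mem (mul_mem (star_mem hvM) hx) hvM)
      _ = S.phi ((l * star v) * (x * v)) := by simp only [mul_assoc]
      _ = S.phi ((star v * (v * l * star v)) * (x * v)) := by rw [← rn_A_mul_star S hv hl.1]
      _ = S.phi (star v * ((v * l * star v) * x) * v) := by simp only [mul_assoc]
      _ = S.phi (k * ((v * l * star v) * x)) := hk.2.2 _ (mul_mem (st_A_le_M S hc) hx)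
      _ = S.phi (k * (v * l * star v) * x) := by simp only [mul_assoc]

theorem st_GNb_mul {v w : H →L[ℂ] H} (hv : S.IsGNb v) (hw : S.IsGNb w) : S.IsGNb (v * w) := by
  obtain ⟨hv1, ⟨k, hk⟩, ⟨k', hk'⟩⟩ := hv
  obtain ⟨hw1, ⟨l, hl⟩, ⟨l', hl'⟩⟩ := hw
  refine ⟨st_GN_mul S hv1 hw1, ⟨_, st_RN_mul S hv1 hw1 hk hl⟩, ?_⟩
  rw [star_mul]
  exact ⟨_, st_RN_mul S (st_GN_star S hw1) (st_GN_star S hv1) hl' hk'⟩

theorem st_GNb_of_mem_A {c : H →L[ℂ] H} (hc : c ∈ S.A) (h : c * star c * c = c) : S.IsGNb c := by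
  have hcs : star c ∈ S.A := star_mem hc
  refine ⟨st_GN_of_mem_A S hc h, ⟨c * star c, mul_mem hc hcs, mul_star_self_nonneg c, fun w hw => ?_⟩,
    ⟨star c * c, mul_mem hcs hc, star_mul_self_nonneg c, fun w hw => ?_⟩⟩
  · rw [← st_phi_central S hc (mul_mem (st_A_le_M S hcs) hw)]; simp only [mul_assoc]
  · rw [star_star, ← st_phi_central S hcs (mul_mem (st_A_le_M S hc) hw)]; simp only [mul_assoc]

theorem rn_GNb_proj {e : H →L[ℂ] H} (he : S.IsProjA e) : S.IsGNb e :=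
  st_GNb_of_mem_A S he.1 (by
    rw [he.2.isSelfAdjoint.star_eq, he.2.isIdempotentElem.eq, he.2.isIdempotentElem.eq])

theorem st_GNb_cut_left {v e : H →L[ℂ] H} (hv : S.IsGNb v) (he : S.IsProjA e) : S.IsGNb (e * v) :=
  st_GNb_mul S (rn_GNb_proj S he) hv

theorem st_GNb_cut_right {v e : H →L[ℂ] H} (hv : S.IsGNb v) (he : S.IsProjA e) : S.IsGNb (v * e) :=
  st_GNb_mul S hv (rn_GNb_proj S he)

theorem rn_star_pisom {v : H →L[ℂ] H} (hv : S.IsGN v) : star v * v * star v = star v := by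
  have := congrArg star hv.pisom
  simpa [mul_assoc] using this

theorem rn_proj_mul {e f : H →L[ℂ] H} (he : S.IsProjA e) (hf : S.IsProjA f) : S.IsProjA (e * f) :=
  ⟨mul_mem he.1 hf.1, he.2.mul hf.2 (st_A_comm S he.1 hf.1)⟩

/-- domination passes to sub-projections `f * e` of `f` -/
theorem rn_dom_aux {e f : H →L[ℂ] H} (he : S.IsProjA e) (hf : S.IsProjA f) (C : ℝ) (η : H)
    (h : ‖(f * e) η‖ ^ 2 ≤ C * ‖(f * e) S.Om‖ ^ 2) : ‖(f * e) η‖ ^ 2 ≤ max C 0 * ‖f S.Om‖ ^ 2 := by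
  have h1 : ‖(f * e) S.Om‖ ≤ ‖f S.Om‖ := by
    rw [(st_A_comm S hf.1 he.1).eq, vn_mul_apply]
    calc ‖e (f S.Om)‖ ≤ ‖e‖ * ‖f S.Om‖ := e.le_opNorm _
      _ ≤ 1 * ‖f S.Om‖ := by gcongr; exact vn_proj_norm_le he.2
      _ = ‖f S.Om‖ := one_mul _
  calc ‖(f * e) η‖ ^ 2 ≤ C * ‖(f * e) S.Om‖ ^ 2 := h
    _ ≤ max C 0 * ‖(f * e) S.Om‖ ^ 2 := by gcongr; exact le_max_left _ _
    _ ≤ max C 0 * ‖f S.Om‖ ^ 2 := by
        have := le_max_right C 0
        gcongr

/-- RN exhaustion: every groupoid normaliser is a strong limit of cuts with bounded RN. -/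
theorem st_RN_exhaust {v : H →L[ℂ] H} (hv : S.IsGN v) (ξ : H) {ε : ℝ} (hε : 0 < ε) :
    ∃ e, S.IsProjA e ∧ S.IsGNb (e * v) ∧ ‖(v - e * v) ξ‖ < ε := by
  obtain ⟨δ₁, hδ₁, hD₁⟩ := st_mult_vec S (v ξ) 1 (η := ε / 2) (by positivity)
  obtain ⟨δ₂, hδ₂, hD₂⟩ := st_mult_vec S ξ 1 (η := ε / (2 * (‖v‖ + 1))) (by positivity)
  obtain ⟨e₁, C₁, he₁, hs₁, hdom₁⟩ := st_hahn S (v S.Om) hδ₁
  obtain ⟨e₂, C₂, he₂, hs₂, hdom₂⟩ := st_hahn S (star v S.Om) hδ₂
  have hp₂ : S.IsProjA (v * e₂ * star v) := st_GN_conj_proj S hv he₂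
  set p₂ := v * e₂ * star v with hp₂def
  have he : S.IsProjA (e₁ * p₂) := rn_proj_mul S he₁ hp₂
  set e := e₁ * p₂ with hedef
  have he₁' : S.IsProjA (star v * e₁ * v) := by
    have := st_GN_conj_proj S (st_GN_star S hv) he₁
    rwa [star_star] at this
  set e₁' := star v * e₁ * v with he₁'def
  have hGN : S.IsGN (e * v) := st_GN_cut_left S hv he
  have hsrc := hv.src
  -- `v* e = e₁' e₂ v*`
  have hstar : star (e * v) = (e₁' * e₂) * star v := by
    rw [star_mul, he.2.isSelfAdjoint.star_eq, hedef, ← mul_assoc, rn_star_mul_A S hv he₁.1, ← he₁'def,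
      hp₂def]
    calc e₁' * star v * (v * e₂ * star v) = e₁' * ((star v * v) * e₂) * star v := by
          simp only [mul_assoc]
      _ = e₁' * (e₂ * (star v * v)) * star v := by rw [(st_A_comm S hsrc he₂.1).eq]
      _ = e₁' * e₂ * (star v * v * star v) := by simp only [mul_assoc]
      _ = e₁' * e₂ * star v := by rw [rn_star_pisom S hv]
  have hp₂v : p₂ * v = v * e₂ := by
    rw [hp₂def]
    calc v * e₂ * star v * v = v * (e₂ * (star v * v)) := by simp only [mul_assoc]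
      _ = v * ((star v * v) * e₂) := by rw [(st_A_comm S he₂.1 hsrc).eq]
      _ = (v * star v * v) * e₂ := by simp only [mul_assoc]
      _ = v * e₂ := by rw [hv.pisom]
  refine ⟨e, he, ⟨hGN, ?_, ?_⟩, ?_⟩
  · obtain ⟨k, hk, -⟩ := st_RN_of_le S hGN (max C₁ 0) (fun f hf => by
      have h1 : f ((e * v) S.Om) = (f * e) (v S.Om) := rfl
      rw [h1]
      refine rn_dom_aux S he hf C₁ _ (hdom₁ _ (rn_proj_mul S hf he) ?_)
      rw [hedef, mul_assoc, mul_assoc, (st_A_comm S hp₂.1 he₁.1).eq, ← mul_assoc e₁,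
        he₁.2.isIdempotentElem.eq])
    exact ⟨k, hk⟩
  · obtain ⟨k, hk, -⟩ := st_RN_of_le S (st_GN_star S hGN) (max C₂ 0) (fun f hf => by
      have h1 : f (star (e * v) S.Om) = (f * (e₁' * e₂)) (star v S.Om) := by rw [hstar]; rfl
      rw [h1]
      refine rn_dom_aux S (rn_proj_mul S he₁' he₂) hf C₂ _
        (hdom₂ _ (rn_proj_mul S hf (rn_proj_mul S he₁' he₂)) ?_)
      rw [mul_assoc, mul_assoc, he₂.2.isIdempotentElem.eq])
    exact ⟨k, hk⟩
  · have hdec : v - e * v = (1 - e₁) * v + e₁ * (v * (1 - e₂)) := by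
      rw [hedef, mul_assoc, hp₂v]
      noncomm_ring
    have h1 : ‖(1 - e₁) (v ξ)‖ < ε / 2 :=
      hD₁ _ (st_A_le_M S (sub_mem (one_mem _) he₁.1)) (vn_proj_norm_le he₁.2.one_sub) hs₁
    have h2 : ‖(1 - e₂) ξ‖ < ε / (2 * (‖v‖ + 1)) :=
      hD₂ _ (st_A_le_M S (sub_mem (one_mem _) he₂.1)) (vn_proj_norm_le he₂.2.one_sub) hs₂
    have h3 : ‖e₁ (v ((1 - e₂) ξ))‖ ≤ ε / 2 := by
      calc ‖e₁ (v ((1 - e₂) ξ))‖ ≤ ‖e₁‖ * ‖v ((1 - e₂) ξ)‖ := e₁.le_opNorm _
        _ ≤ 1 * (‖v‖ * ‖(1 - e₂) ξ‖) := by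
            gcongr
            · exact vn_proj_norm_le he₁.2
            · exact v.le_opNorm _
        _ ≤ 1 * ((‖v‖ + 1) * (ε / (2 * (‖v‖ + 1)))) := by
            gcongr
            · linarith
        _ = ε / 2 := by field_simp
    have h4 : (v - e * v) ξ = (1 - e₁) (v ξ) + e₁ (v ((1 - e₂) ξ)) := by rw [hdec]; rfl
    rw [h4]
    linarith [norm_add_le ((1 - e₁) (v ξ)) (e₁ (v ((1 - e₂) ξ)))]

/-- for a symmetric unitary normaliser `k (u k u) = 1` -/
theorem st_sym_RN_inv {u k : H →L[ℂ] H} (hu : S.IsSym u) (hk : S.IsRN u k) : k * (u * k * u) = 1 := by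
  have hG := st_sym_GN S hu
  have h1 := st_RN_mul S hG hG hk hk
  rw [hu.2.2.1, hu.2.1.star_eq] at h1
  have h2 : S.IsRN 1 1 := ⟨one_mem _, zero_le_one, fun w _ => by simp⟩
  exact st_RN_unique S h1 h2

/-! ### right multiplication by normalisers -/

theorem st_rbdd_GNb {v k : H →L[ℂ] H} (hv : S.IsGN v) (hk : S.IsRN v k) :
    S.IsRBdd v ∧ ‖S.rmul v‖ ^ 2 ≤ ‖k‖ := by
  have key : ∀ x ∈ S.M, ‖x (v S.Om)‖ ≤ Real.sqrt ‖k‖ * ‖x S.Om‖ := by
    intro x hx
    have hxx : star x * x ∈ S.M := mul_mem (star_mem hx) hx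
    have h1 : S.phi (star (x * v) * (x * v)) = S.phi ((star x * x) * k) := by
      rw [← st_phi_central S hk.1 hxx, ← hk.2.2 _ hxx, star_mul]
      simp only [mul_assoc]
    have h2 := (st_phi_mul_A_nonneg S hxx (star_mul_self_nonneg x) hk.1 hk.2.1).2.2
    rw [← h1, st_phi_star_mul_self, st_phi_star_mul_self] at h2
    simp only [Complex.ofReal_re] at h2
    have h3 : (x * v) S.Om = x (v S.Om) := rfl
    rw [h3] at h2
    have h4 : ‖x (v S.Om)‖ ^ 2 ≤ (Real.sqrt ‖k‖ * ‖x S.Om‖) ^ 2 := by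
      rw [mul_pow, Real.sq_sqrt (norm_nonneg _)]
      exact h2
    exact le_of_sq_le_sq h4 (by positivity) |> fun h => h
  obtain ⟨h1, h2⟩ := st_rbdd_of_le S _ key
  refine ⟨h1, ?_⟩
  rw [max_eq_left (Real.sqrt_nonneg _)] at h2
  calc ‖S.rmul v‖ ^ 2 ≤ (Real.sqrt ‖k‖) ^ 2 := by gcongr
    _ = ‖k‖ := Real.sq_sqrt (norm_nonneg _)

/-- `phi (z v) = phi (k v z)` -/
theorem st_phi_mul_GN {v k z : H →L[ℂ] H} (hv : S.IsGN v) (hk : S.IsRN v k) (hz : z ∈ S.M) :
    S.phi (z * v) = S.phi (k * v * z) := by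
  have hvM := hv.mem
  calc S.phi (z * v) = S.phi ((z * v) * (star v * v)) := by
        rw [mul_assoc z, ← mul_assoc v, hv.pisom]
    _ = S.phi ((star v * v) * (z * v)) := (st_phi_central S hv.src (mul_mem hz hvM)).symm
    _ = S.phi (star v * (v * z) * v) := by simp only [mul_assoc]
    _ = S.phi (k * (v * z)) := hk.2.2 _ (mul_mem hvM hz)
    _ = S.phi (k * v * z) := by rw [mul_assoc]

theorem st_rmul_GNb_star {v k : H →L[ℂ] H} (hv : S.IsGNb v) (hk : S.IsRN v k) :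
    S.IsRBdd (star v * k) ∧ star (S.rmul v) = S.rmul (star v * k) := by
  have hG := hv.1
  have hvM := hG.mem
  have hR := (st_rbdd_GNb S hG hk).1
  have hphi : ∀ z ∈ S.M, S.phi (star v * z) = S.phi (z * (star v * k)) := by
    intro z hz
    have hzv : z * star v ∈ S.M := mul_mem hz (star_mem hvM)
    calc S.phi (star v * z) = S.phi ((star v * v) * (star v * z)) := by
          rw [← mul_assoc, rn_star_pisom S hG]
      _ = S.phi ((star v * z) * (star v * v)) :=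
          st_phi_central S hG.src (mul_mem (star_mem hvM) hz)
      _ = S.phi (star v * (z * star v) * v) := by simp only [mul_assoc]
      _ = S.phi (k * (z * star v)) := hk.2.2 _ hzv
      _ = S.phi ((z * star v) * k) := st_phi_central S hk.1 hzv
      _ = S.phi (z * (star v * k)) := by rw [mul_assoc]
  have claim : ∀ x ∈ S.M, (star (S.rmul v)) (x S.Om) = x ((star v * k) S.Om) := by
    intro x hx
    refine (st_dense_orbit S).induction
      (P := fun η => ⟪η, star (S.rmul v) (x S.Om)⟫_ℂ = ⟪η, x ((star v * k) S.Om)⟫_ℂ) ?_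
      (isClosed_eq (by fun_prop) (by fun_prop)) |> fun h => ext_inner_left ℂ h
    rintro _ ⟨y, hy, rfl⟩
    rw [vn_inner_star, st_rmul_spec S hR hy]
    have e1 : ⟪y (v S.Om), x S.Om⟫_ℂ = S.phi (star v * (star y * x)) := by
      rw [← mul_assoc, ← star_mul, st_phi_star_mul]; rfl
    have e2 : ⟪y S.Om, x ((star v * k) S.Om)⟫_ℂ = S.phi ((star y * x) * (star v * k)) := by
      rw [mul_assoc, st_phi_star_mul]; rfl
    rw [e1, e2, hphi _ (mul_mem (star_mem hy) hx)]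
  exact ⟨⟨_, claim⟩, (st_rmul_eq S claim).symm⟩

end Claimed.Agent.R302
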