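/-
Row 302, package ST, file NormThree (part 3 of the Norm chain): groupoid normalisers, covariance of `E_A`, fixed part, Radon-Nikodym elements, right multiplications
by normalisers, three-set lemma, symmetric unitary normalisers, `Nalg` is a `*`-algebra.
LEAF ST-NormThree (helper275).
LEAVES: ST-Norm-alg (closure properties, covariance, fixed part, D4), ST-Norm-RN (RN existence + exhaustion),
        ST-Norm-three (three-set lemma + symmetric unitaries + Nalg algebra), ST-Norm-rmul.

Proof plans.
* covariance `EA (v z v*) = v EA z v*`:  `psi w := phi (v w v*) = ⟪v* Om, w v* Om⟫` is `A`-central, so `psi = psi ∘ EA` (`st_central_factor`);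
  `phi (v z v* a) = psi (z a')`, `a' = v* a v`, `= psi (EA z a') = phi (v EA z v* a)`; conclude with `st_EA_eq`.
* fixed part: `b := EA v`, `f :=` support projection of `b` in `A`.  `b (v* a v) = EA (v v* a v) = EA (a v) = a b`, hence `f (v* a v - a) = 0`, hence `v f` commutes
  with `A`, `v f ∈ A`, `b = b f = EA (v f) = v f`.  Replace `f` by `f v*v`.
* (D4): `∑ (v e v*) z (v e v*) = v (P.pinch (v* z v)) v*`, strong pinching limit at the vector `v* Om`, covariance.
* RN existence (`st_RN_of_le`): `psi a := phi (v* a v) ≤ C phi a` on `A₊`.  For `t ≥ 0` let `e_t :=` sup of all projections `e ∈ A` such that `psi e' ≤ t phi e'` for all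
  projections `e' ≤ e` of `A` (hereditary + closed under orthogonal sums: complete additivity of vector functionals).  Below `1 - e_t`: `psi ≥ t phi`
  (maximal orthogonal family of `e''` with `psi e'' > t phi e''`).  `k :=` norm limit of `∑ t_i (e_{t_{i+1}} - e_{t_i})`.  Then `psi a = phi (k a)` on `A`, and on `M` by
  `st_central_factor` for `ξ = v Om`.      (Alternative: Riesz on `closure (A Om)` + clipping of approximants.)
* exhaustion: with the same `e_t` for `psi` (no domination assumed): `phi (v v* - e_t) ≤ psi 1 / t`.  Do it for `v` and `v*` and intersect.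
* `st_rbdd_GNb`: `‖x v Om‖² = phi (v* x* x v) = phi (k x* x) ≤ ‖k‖ ‖x Om‖²`.
  adjoint: `phi (z v) = phi (v* v z v) = phi (k v z)`.
* three-set lemma: see the comment at `st_three`.
-/
import Claimed.Agent.R302.ST.NormRN

set_option autoImplicit false

namespace Claimed.Agent.R302

open scoped InnerProductSpace

variable {H : Type*} [NormedAddCommGroup H] [InnerProductSpace ℂ H] [CompleteSpace H]
variable (S : StData H)

/-! ### `A` as a commutative ring, conjugation by a normaliser -/

/-- `A` is commutative: a `CommRing` structure on the subtype (local use, for `linear_combination`). -/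
noncomputable abbrev st_commRingA : CommRing S.A :=
  { (inferInstance : Ring S.A) with mul_comm := fun a b => Subtype.ext (st_A_comm S a.2 b.2).eq }

theorem st_isProjA_iff (E : S.A) : S.IsProjA E.1 ↔ IsStarProjection E :=
  ⟨fun h => ⟨Subtype.ext h.2.isIdempotentElem.eq, Subtype.ext h.2.isSelfAdjoint.star_eq⟩,
    fun h => ⟨E.2, ⟨congrArg Subtype.val h.isIdempotentElem.eq,
      congrArg Subtype.val h.isSelfAdjoint.star_eq⟩⟩⟩

theorem st_commA (a b : S.A) : Commute a b := Subtype.ext (st_A_comm S a.2 b.2).eq

/-- conjugation by a normaliser as a map on `A` -/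
noncomputable def st_conj {v : H →L[ℂ] H} (hv : S.IsGN v) (a : S.A) : S.A :=
  ⟨v * a * star v, hv.conj a a.2⟩

section Conj

variable {S}
variable {v : H →L[ℂ] H} (hv : S.IsGN v)

theorem st_conj_mul (a b : S.A) : st_conj S hv (a * b) = st_conj S hv a * st_conj S hv b :=
  Subtype.ext (st_GN_conj_mul S hv a.2 b.2)

theorem st_conj_sub (a b : S.A) : st_conj S hv (a - b) = st_conj S hv a - st_conj S hv b :=
  Subtype.ext (by simp [st_conj, mul_sub, sub_mul])

theorem st_conj_add (a b : S.A) : st_conj S hv (a + b) = st_conj S hv a + st_conj S hv b :=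
  Subtype.ext (by simp [st_conj, mul_add, add_mul])

theorem st_conj_zero : st_conj S hv 0 = 0 := Subtype.ext (by simp [st_conj])

theorem st_conj_isProj {E : S.A} (hE : IsStarProjection E) : IsStarProjection (st_conj S hv E) :=
  (st_isProjA_iff S _).1 (st_GN_conj_proj S hv ((st_isProjA_iff S E).2 hE))

/-- `θ(θ'(a)) = v v* a` -/
theorem st_conj_conj_star (a : S.A) :
    st_conj S hv (st_conj S (st_GN_star S hv) a) = ⟨v * star v, hv.rng⟩ * a := by
  apply Subtype.ext
  show v * (star v * a * star (star v)) * star v = v * star v * a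
  rw [star_star]
  have hq := (st_GN_rng_proj S hv).2.isIdempotentElem.eq
  calc v * (star v * a * v) * star v = (v * star v) * (a * (v * star v)) := by simp only [mul_assoc]
    _ = (v * star v) * ((v * star v) * a) := by rw [(st_A_comm S a.2 hv.rng).eq]
    _ = v * star v * a := by rw [← mul_assoc, hq]

/-- `θ(a) v v* = θ(a)` -/
theorem st_conj_mul_rng (a : S.A) :
    st_conj S hv a * ⟨v * star v, hv.rng⟩ = st_conj S hv a := by
  apply Subtype.ext
  show v * a * star v * (v * star v) = v * a * star v
  have h : star v * (v * star v) = star v := by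
    have := congrArg star hv.pisom
    simpa [mul_assoc] using this
  rw [mul_assoc, h]

end Conj

/-! ### three-set lemma and symmetric unitaries -/

/-- Key sublemma: a normaliser without fixed part moves a nonzero subprojection of every nonzero projection off itself.
Proof: for `e' ≤ e` put `g = e' (1 - v e' v*)`; `g (v g v*) = 0`.  If all these `g` vanish then `e (v e' v*) = e'` for all `e' ≤ e`,
so `e v` commutes with all projections of `A`, `e v ∈ A`, `v e = e v`, and `e ≤ f = 0` by `st_fix`. -/
theorem st_move {v e : H →L[ℂ] H} (hv : S.IsGN v) (h0 : S.EA v = 0) (he : S.IsProjA e) (hne : e ≠ 0)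
    (hle : e * (star v * v) = e) :
    ∃ g, S.IsProjA g ∧ g ≠ 0 ∧ g * e = g ∧ g * (v * g * star v) = 0 := by
  by_contra hcon
  push Not at hcon
  let _ := st_commRingA S
  set E : S.A := ⟨e, he.1⟩ with hEdef
  have hE : IsStarProjection E := (st_isProjA_iff S E).1 he
  have hEE : E * E = E := hE.isIdempotentElem.eq
  have key : ∀ G : S.A, IsStarProjection G → G * E = G → G * st_conj S hv G = 0 → G = 0 := by
    intro G hG h1 h2
    by_contra hG0
    exact hcon G.1 ((st_isProjA_iff S G).2 hG) (fun h => hG0 (Subtype.ext h))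
      (congrArg Subtype.val h1) (congrArg Subtype.val h2)
  -- Step 1
  have s1 : ∀ E' : S.A, IsStarProjection E' → E' * E = E' → E' * st_conj S hv E' = E' := by
    intro E' hE' h1
    have hT : st_conj S hv E' * st_conj S hv E' = st_conj S hv E' :=
      (st_conj_isProj hv hE').isIdempotentElem.eq
    have hG : IsStarProjection (E' * (1 - st_conj S hv E')) :=
      hE'.mul (st_conj_isProj hv hE').one_sub (st_commA S _ _)
    have := key _ hG (by linear_combination (1 - st_conj S hv E') * h1) (by
      rw [st_conj_mul]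
      linear_combination (-E' * st_conj S hv (1 - st_conj S hv E')) * hT)
    linear_combination -this
  -- Step 2
  have s2 : ∀ E' : S.A, IsStarProjection E' → E' * E = E' → E * st_conj S hv E' = E' := by
    intro E' hE' h1
    have hE'E' : E' * E' = E' := hE'.isIdempotentElem.eq
    have hD : IsStarProjection (E - E') := hE'.sub_of_mul_eq_left hE h1
    have a1 := s1 E' hE' h1
    have a2 := s1 (E - E') hD (by linear_combination hEE - h1)
    have a3 : st_conj S hv (E - E') * st_conj S hv E' = 0 := by
      rw [← st_conj_mul, show (E - E') * E' = 0 by linear_combination h1 - hE'E', st_conj_zero]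
    linear_combination a1 + (E - E') * a3 - st_conj S hv E' * a2
  -- Step 3
  have s3 : ∀ R : S.A, IsStarProjection R → E * st_conj S hv R = R * E := by
    intro R hR
    have hsplit : st_conj S hv R = st_conj S hv (R * E) + st_conj S hv (R * (1 - E)) := by
      rw [← st_conj_add]
      congr 1
      ring
    have b1 := s2 (R * E) (hR.mul hE (st_commA S _ _)) (by linear_combination R * hEE)
    have b2 := s1 E hE hEE
    have b3 : st_conj S hv E * st_conj S hv (R * (1 - E)) = 0 := by
      rw [← st_conj_mul, show E * (R * (1 - E)) = 0 by linear_combination (-R) * hEE, st_conj_zero]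
    linear_combination E * hsplit + b1 + E * b3 - st_conj S hv (R * (1 - E)) * b2
  -- Step 4: `e v ∈ A`
  have hevM : e * v ∈ S.M := mul_mem (st_A_le_M S he.1) hv.mem
  have hc : e * v ∈ S.A := by
    refine st_mem_A_of_comm_proj S hevM fun r hr => ?_
    have h3 := congrArg Subtype.val (s3 ⟨r, hr.1⟩ ((st_isProjA_iff S ⟨r, hr.1⟩).1 hr))
    have h3' : e * (v * r * star v) = r * e := h3
    show e * v * r = r * (e * v)
    rw [mul_assoc, st_GN_intertwine' S hv hr.1, ← mul_assoc, h3', mul_assoc]
  -- Step 5: `v e = e v`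
  have heq : e * (v * star v) = e := by
    have b2 := s1 E hE hEE
    have b4 := st_conj_mul_rng hv E
    have : E * ⟨v * star v, hv.rng⟩ = E := by
      linear_combination E * b4 - (⟨v * star v, hv.rng⟩ - 1) * b2
    exact congrArg Subtype.val this
  have hnorm : star v * e * v = e := by
    have h1 : star (e * v) * (e * v) = (e * v) * star (e * v) := (st_A_comm S (star_mem hc) hc).eq
    rw [star_mul, he.2.isSelfAdjoint.star_eq] at h1
    calc star v * e * v = star v * (e * e) * v := by rw [he.2.isIdempotentElem.eq]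
      _ = star v * e * (e * v) := by simp only [mul_assoc]
      _ = e * v * (star v * e) := h1
      _ = e * (v * star v) * e := by simp only [mul_assoc]
      _ = e := by rw [heq, he.2.isIdempotentElem.eq]
  have hve : v * e = e * v := by
    rw [st_GN_intertwine S hv he.1, hnorm]
  -- Step 6
  obtain ⟨f, hf, hfp, -, hEAv, hfmax⟩ := st_fix S hv
  have hvf : v * f = 0 := by rw [← hEAv, h0]
  have hf0 : f = 0 := by
    rw [← hfp, (st_A_comm S hf.1 hv.src).eq, mul_assoc, hvf, mul_zero]
  have := hfmax e he hle (by rw [hve]; exact hc)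
  rw [hf0, mul_zero] at this
  exact hne this.symm

/-- The set of "moved" projections used in the three-set lemma has a maximal element. -/
theorem st_three_zorn {v : H →L[ℂ] H} (hv : S.IsGN v) :
    ∃ m, Maximal (· ∈ {e : H →L[ℂ] H | S.IsProjA e ∧ e * (star v * v) = e ∧
      e * (v * e * star v) = 0}) m := by
  let _ := st_commRingA S
  refine zorn_le₀ _ fun c hcZ hchain => ?_
  have hp : ∀ k : c, IsStarProjection (k : H →L[ℂ] H) := fun k => (hcZ k.2).1.2
  have hA : ∀ k : c, (k : H →L[ℂ] H) ∈ S.A := fun k => (hcZ k.2).1.1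
  set ub := vn_projSup (fun k : c => (k : H →L[ℂ] H)) with hub
  have hubP : IsStarProjection ub := vn_projSup_isStarProjection _
  have hubA : ub ∈ S.A := vn_projSup_mem (vn_masaVN S.M S.A S.masa) hp hA
  have hsrc := st_GN_src_proj S hv
  refine ⟨ub, ⟨⟨hubA, hubP⟩, ?_, ?_⟩, fun z hz => vn_le_projSup hp ⟨z, hz⟩⟩
  · refine (hubP.le_iff_mul_eq_left hsrc.2).1 ((vn_projSup_le_iff hp hsrc.2).2 fun k => ?_)
    exact ((hp k).le_iff_mul_eq_left hsrc.2).2 (hcZ k.2).2.1
  · -- pairwise
    have hij : ∀ i j : c, (i : H →L[ℂ] H) * (v * j * star v) = 0 := by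
      intro i j
      set Ei : S.A := ⟨i, hA i⟩
      set Ej : S.A := ⟨j, hA j⟩
      have hi : Ei * st_conj S hv Ei = 0 := Subtype.ext (hcZ i.2).2.2
      have hj : Ej * st_conj S hv Ej = 0 := Subtype.ext (hcZ j.2).2.2
      have goal : Ei * st_conj S hv Ej = 0 := by
        rcases hchain.total i.2 j.2 with h | h
        · have h1 : Ei * Ej = Ei := Subtype.ext (((hp i).le_iff_mul_eq_left (hp j)).1 h)
          linear_combination Ei * hj - st_conj S hv Ej * h1
        · have h1 : Ej * Ei = Ej := Subtype.ext (((hp j).le_iff_mul_eq_left (hp i)).1 h)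
          have h2 : st_conj S hv Ej * st_conj S hv Ei = st_conj S hv Ej := by
            rw [← st_conj_mul, h1]
          linear_combination st_conj S hv Ej * hi - Ei * h2
      exact congrArg Subtype.val goal
    have h1 : ∀ j : c, ub * (v * j * star v) = 0 := by
      intro j
      have hθ : v * j * star v ∈ S.A := hv.conj _ (hA j)
      rw [(st_A_comm S hubA hθ).eq, hub, vn_mul_projSup_eq_zero_iff]
      intro i
      rw [(st_A_comm S hθ (hA i)).eq]
      exact hij i j
    have h2 : (ub * v) * ub = 0 := by
      rw [hub, vn_mul_projSup_eq_zero_iff]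
      intro j
      rw [← hub]
      have := congrArg (· * v) (h1 j)
      simp only [zero_mul] at this
      calc ub * v * j = ub * v * (j * (star v * v)) := by rw [(hcZ j.2).2.1]
        _ = ub * (v * j * star v) * v := by simp only [mul_assoc]
        _ = 0 := this
    calc ub * (v * ub * star v) = (ub * v * ub) * star v := by simp only [mul_assoc]
      _ = 0 := by rw [h2, zero_mul]

/-- Three-set lemma.  Zorn: `e₁` maximal among the projections `e ≤ v*v` of `A` with `e (v e v*) = 0` (chains: sup, normality of `e ↦ v e v*`).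
By `st_move` and maximality `(v*v - e₁)(1 - v e₁ v*)(1 - v* e₁ v) = 0`.  `e₂ := (v*v - e₁) (v e₁ v*)`, `e₃ := (v*v - e₁)(1 - v e₁ v*) ≤ v* e₁ v`. -/
theorem st_three {v : H →L[ℂ] H} (hv : S.IsGN v) (h0 : S.EA v = 0) :
    ∃ e : Fin 3 → H →L[ℂ] H, (∀ i, S.IsProjA (e i)) ∧ ∑ i, e i = star v * v ∧
      (∀ i j, i ≠ j → e i * e j = 0) ∧ ∀ i, e i * (v * e i * star v) = 0 := by
  let _ := st_commRingA S
  obtain ⟨e₁, ⟨he₁, he₁p, he₁θ⟩, hmax⟩ := st_three_zorn S hv
  set E : S.A := ⟨e₁, he₁.1⟩ with hEdef
  set P : S.A := ⟨star v * v, hv.src⟩ with hPdef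
  set Q : S.A := ⟨v * star v, hv.rng⟩ with hQdef
  set T : S.A := st_conj S hv E with hT
  set T' : S.A := st_conj S (st_GN_star S hv) E with hT'
  have hE : IsStarProjection E := (st_isProjA_iff S E).1 he₁
  have hP : IsStarProjection P := (st_isProjA_iff S P).1 (st_GN_src_proj S hv)
  have hTp : IsStarProjection T := st_conj_isProj hv hE
  have hT'p : IsStarProjection T' := st_conj_isProj (st_GN_star S hv) hE
  have hEE : E * E = E := hE.isIdempotentElem.eq
  have hPP : P * P = P := hP.isIdempotentElem.eq
  have hTT : T * T = T := hTp.isIdempotentElem.eq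
  have hEP : E * P = E := Subtype.ext he₁p
  have hET : E * T = 0 := Subtype.ext he₁θ
  have hPE : IsStarProjection (P - E) := hE.sub_of_mul_eq_left hP hEP
  have hE3 : IsStarProjection ((P - E) * (1 - T)) := hPE.mul hTp.one_sub (st_commA S _ _)
  have hE2 : IsStarProjection ((P - E) * T) := hPE.mul hTp (st_commA S _ _)
  have hR : IsStarProjection ((P - E) * (1 - T) * (1 - T')) := hE3.mul hT'p.one_sub (st_commA S _ _)
  -- maximality
  have hR0 : (P - E) * (1 - T) * (1 - T') = 0 := by
    by_contra hne
    obtain ⟨g, hg, hg0, hgr, hgθ⟩ := st_move S hv h0 ((st_isProjA_iff S _).2 hR)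
      (fun h => hne (Subtype.ext h))
      (congrArg Subtype.val (show (P - E) * (1 - T) * (1 - T') * P = (P - E) * (1 - T) * (1 - T') by
        linear_combination (1 - T) * (1 - T') * hPP - (1 - T) * (1 - T') * hEP))
    set G : S.A := ⟨g, hg.1⟩ with hGdef
    have hG : IsStarProjection G := (st_isProjA_iff S G).1 hg
    have hGR : G * ((P - E) * (1 - T) * (1 - T')) = G := Subtype.ext hgr
    have hGθ : G * st_conj S hv G = 0 := Subtype.ext hgθ
    have hEG : E * G = 0 := by
      linear_combination (-E) * hGR + G * (1 - T) * (1 - T') * hEP - G * (1 - T) * (1 - T') * hEE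
    have hGP : G * P = G := by
      linear_combination (1 - P) * hGR + G * (1 - T) * (1 - T') * hPP
        - G * (1 - T) * (1 - T') * hEP
    have hGT : G * T = 0 := by
      linear_combination (-T) * hGR - G * (P - E) * (1 - T') * hTT
    have hT'T' : T' * T' = T' := hT'p.isIdempotentElem.eq
    have hGT' : G * T' = 0 := by
      linear_combination (-T') * hGR - G * (P - E) * (1 - T) * hT'T'
    have hθGE : st_conj S hv G * E = 0 := by
      have h1 : st_conj S hv G * st_conj S hv T' = 0 := by
        rw [← st_conj_mul, hGT', st_conj_zero]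
      rw [hT', st_conj_conj_star] at h1
      have h2 := st_conj_mul_rng hv G
      linear_combination h1 - E * h2
    have hmem : e₁ + g ∈ {e : H →L[ℂ] H | S.IsProjA e ∧ e * (star v * v) = e ∧
        e * (v * e * star v) = 0} := by
      refine ⟨(st_isProjA_iff S (E + G)).2 (hE.add hG hEG), ?_, ?_⟩
      · exact congrArg Subtype.val (show (E + G) * P = E + G by linear_combination hEP + hGP)
      · refine congrArg Subtype.val (show (E + G) * st_conj S hv (E + G) = 0 from ?_)
        rw [st_conj_add]
        linear_combination hET + hθGE + hGT + hGθ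
    have hle : e₁ + g ≤ e₁ := hmax hmem (le_add_of_nonneg_right hg.2.nonneg)
    have hg' : g ≤ 0 := by simpa using hle
    exact hg0 (le_antisymm hg' hg.2.nonneg)
  -- the three sets
  let Ev : Fin 3 → S.A := ![E, (P - E) * T, (P - E) * (1 - T)]
  refine ⟨fun i => (Ev i).1, ?_, ?_, ?_, ?_⟩
  · intro i
    refine (st_isProjA_iff S _).2 ?_
    fin_cases i
    · exact hE
    · exact hE2
    · exact hE3
  · rw [Fin.sum_univ_three]
    exact congrArg Subtype.val (show E + (P - E) * T + (P - E) * (1 - T) = P by ring)
  · have h12 : E * ((P - E) * T) = 0 := by linear_combination (P - E) * hET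
    have h13 : E * ((P - E) * (1 - T)) = 0 := by linear_combination (1 - T) * hEP - (1 - T) * hEE
    have h23 : ((P - E) * T) * ((P - E) * (1 - T)) = 0 := by
      linear_combination (-(P - E) * (P - E)) * hTT
    intro i j hij
    refine congrArg Subtype.val (show Ev i * Ev j = 0 from ?_)
    fin_cases i <;> fin_cases j
    · exact absurd rfl hij
    · exact h12
    · exact h13
    · show ((P - E) * T) * E = 0
      linear_combination h12
    · exact absurd rfl hij
    · exact h23
    · show ((P - E) * (1 - T)) * E = 0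
      linear_combination h13
    · show ((P - E) * (1 - T)) * ((P - E) * T) = 0
      linear_combination h23
    · exact absurd rfl hij
  · intro i
    refine congrArg Subtype.val (show Ev i * st_conj S hv (Ev i) = 0 from ?_)
    fin_cases i
    · exact hET
    · show ((P - E) * T) * st_conj S hv ((P - E) * T) = 0
      have h1 : T * st_conj S hv (P - E) = 0 := by
        rw [hT, ← st_conj_mul, show E * (P - E) = 0 by linear_combination hEP - hEE, st_conj_zero]
      rw [st_conj_mul]
      linear_combination (P - E) * st_conj S hv T * h1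
    · show ((P - E) * (1 - T)) * st_conj S hv ((P - E) * (1 - T)) = 0
      have h1 : (P - E) * (1 - T) = (P - E) * (1 - T) * T' := by linear_combination hR0
      have h2 : st_conj S hv ((P - E) * (1 - T)) = st_conj S hv ((P - E) * (1 - T)) * (Q * E) := by
        conv_lhs => rw [h1, st_conj_mul, hT', st_conj_conj_star]
      have h13 : E * ((P - E) * (1 - T)) = 0 := by linear_combination (1 - T) * hEP - (1 - T) * hEE
      rw [h2]
      linear_combination st_conj S hv ((P - E) * (1 - T)) * Q * h13

/-- Packaged for REAL: fixed part + three moved parts of an arbitrary groupoid normaliser (apply `st_fix`, then `st_three` to `v (v*v - f)`). -/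
theorem st_fix_three {v : H →L[ℂ] H} (hv : S.IsGN v) :
    ∃ (f : H →L[ℂ] H) (e : Fin 3 → H →L[ℂ] H), S.IsProjA f ∧ (∀ i, S.IsProjA (e i)) ∧ f + ∑ i, e i = star v * v ∧
      (∀ i, f * e i = 0) ∧ (∀ i j, i ≠ j → e i * e j = 0) ∧ v * f ∈ S.A ∧ S.EA v = v * f ∧
      ∀ i, e i * (v * e i * star v) = 0 := by
  obtain ⟨f, hf, hfp, hvfA, hEAv, -⟩ := st_fix S hv
  have hp := st_GN_src_proj S hv
  set p := star v * v with hpdef
  set d := p - f with hd
  have hdP : S.IsProjA d := ⟨sub_mem hp.1 hf.1, hf.2.sub_of_mul_eq_left hp.2 hfp⟩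
  have hff : f * f = f := hf.2.isIdempotentElem.eq
  have hfd : f * d = 0 := by rw [hd, mul_sub, hfp, hff, sub_self]
  have hpd : p * d = d := by
    rw [hd, mul_sub, hp.2.isIdempotentElem.eq, (st_A_comm S hp.1 hf.1).eq, hfp]
  have hw : S.IsGN (v * d) := st_GN_cut_right S hv hdP
  have hEAw : S.EA (v * d) = 0 := by
    rw [st_EA_mul_right S hdP.1 hv.mem, hEAv, mul_assoc, hfd, mul_zero]
  obtain ⟨e, he, hsum, horth, hmove⟩ := st_three S hw hEAw
  have hww : star (v * d) * (v * d) = d := by
    rw [star_mul, hdP.2.isSelfAdjoint.star_eq]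
    calc d * star v * (v * d) = d * (p * d) := by simp only [hpdef, mul_assoc]
      _ = d := by rw [hpd, hdP.2.isIdempotentElem.eq]
  rw [hww] at hsum
  have hde : ∀ i, d * e i = e i := by
    intro i
    rw [← hsum, Finset.sum_mul, Finset.sum_eq_single_of_mem i (Finset.mem_univ i)
      (fun j _ hne => horth j i hne)]
    exact (he i).2.isIdempotentElem.eq
  have hed : ∀ i, e i * d = e i := fun i => by rw [(st_A_comm S (he i).1 hdP.1).eq, hde i]
  refine ⟨f, e, hf, he, ?_, ?_, horth, hvfA, hEAv, ?_⟩
  · rw [hsum, hd]; abel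
  · intro i
    rw [← hde i, ← mul_assoc, hfd, zero_mul]
  · intro i
    have h := hmove i
    rw [star_mul, hdP.2.isSelfAdjoint.star_eq] at h
    calc e i * (v * e i * star v) = e i * (v * (d * e i * d) * star v) := by
          rw [hde i, hed i]
      _ = e i * (v * d * e i * (d * star v)) := by simp only [mul_assoc]
      _ = 0 := h

/-- `u = v + v* + (1 - v*v - vv*)` for `v*v ⊥ vv*`; RN element `k_v + k_{v*} + (1 - v*v - vv*)`. -/
theorem st_sym_of_orth {v : H →L[ℂ] H} (hv : S.IsGNb v) (h : (star v * v) * (v * star v) = 0) :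
    S.IsSym (v + star v + (1 - star v * v - v * star v)) ∧
      v = (v * star v) * (v + star v + (1 - star v * v - v * star v)) := by
  obtain ⟨hG, ⟨kv, hkv⟩, ⟨kv', hkv'⟩⟩ := hv
  have hp := st_GN_src_proj S hG
  have hq := st_GN_rng_proj S hG
  set p := star v * v with hpdef
  set q := v * star v with hqdef
  set r := 1 - p - q with hr
  have hpq : p * q = 0 := h
  have hqp : q * p = 0 := by rw [(st_A_comm S hq.1 hp.1).eq, hpq]
  have hpp : p * p = p := hp.2.isIdempotentElem.eq
  have hqq : q * q = q := hq.2.isIdempotentElem.eq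
  have hvp : v * p = v := by rw [hpdef, ← mul_assoc]; exact hG.pisom
  have hqv : q * v = v := hG.pisom
  have hpv' : p * star v = star v := by
    have := congrArg star hvp
    rwa [star_mul, hp.2.isSelfAdjoint.star_eq] at this
  have hv'q : star v * q = star v := by
    have := congrArg star hqv
    rwa [star_mul, hq.2.isSelfAdjoint.star_eq] at this
  have hpv : p * v = 0 := by rw [← hqv, ← mul_assoc, hpq, zero_mul]
  have hvq : v * q = 0 := by rw [← hvp, mul_assoc, hpq, mul_zero]
  have hqv' : q * star v = 0 := by rw [← hpv', ← mul_assoc, hqp, zero_mul]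
  have hv'p : star v * p = 0 := by rw [← hv'q, mul_assoc, hqp, mul_zero]
  have hrA : r ∈ S.A := sub_mem (sub_mem (one_mem _) hp.1) hq.1
  have hrP : IsStarProjection r := by
    have : r = 1 - (p + q) := by rw [hr]; abel
    rw [this]
    exact (hp.2.add hq.2 hpq).one_sub
  have hrr : r * r = r := hrP.isIdempotentElem.eq
  have hrv : r * v = 0 := by rw [hr, sub_mul, sub_mul, one_mul, hpv, hqv]; abel
  have hvr : v * r = 0 := by rw [hr, mul_sub, mul_sub, mul_one, hvp, hvq]; abel
  have hrv' : r * star v = 0 := by rw [hr, sub_mul, sub_mul, one_mul, hpv', hqv']; abel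
  have hv'r : star v * r = 0 := by rw [hr, mul_sub, mul_sub, mul_one, hv'p, hv'q]; abel
  have hpr : p * r = 0 := by rw [hr, mul_sub, mul_sub, mul_one, hpp, hpq]; abel
  have hqr : q * r = 0 := by rw [hr, mul_sub, mul_sub, mul_one, hqp, hqq]; abel
  have hvv : v * v = 0 := by
    calc v * v = (v * p) * v := by rw [hvp]
      _ = 0 := by rw [mul_assoc, hpv, mul_zero]
  have hv'v' : star v * star v = 0 := by
    calc star v * star v = (star v * q) * star v := by rw [hv'q]
      _ = 0 := by rw [mul_assoc, hqv', mul_zero]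
  set u := v + star v + r with hu
  have huM : u ∈ S.M := add_mem (add_mem hG.mem (star_mem hG.mem)) (st_A_le_M S hrA)
  have hus : star u = u := by
    rw [hu, star_add, star_add, star_star, hrP.isSelfAdjoint.star_eq]; abel
  have hexp : ∀ w : H →L[ℂ] H, u * w * u = v * w * v + v * w * star v + v * w * r +
      (star v * w * v + star v * w * star v + star v * w * r) +
      (r * w * v + r * w * star v + r * w * r) := by
    intro w
    rw [hu]
    simp only [add_mul, mul_add]
    abel
  refine ⟨⟨huM, hus, ?_, ?_, kv + kv' + r, ?_, ?_, ?_⟩, ?_⟩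
  · have := hexp 1
    simp only [mul_one] at this
    rw [this, hvv, hvr, hv'v', hv'r, hrv, hrv', hrr, ← hpdef, ← hqdef, hr]
    abel
  · intro a ha
    have c1 : ∀ x y : H →L[ℂ] H, ∀ b ∈ S.A, x * b = x → b * y = 0 → x * a * y = 0 := by
      intro x y b hb hxb hby
      rw [← hxb, mul_assoc x, (st_A_comm S hb ha).eq, mul_assoc, mul_assoc, hby, mul_zero, mul_zero]
    rw [hexp a, c1 v v p hp.1 hvp hpv, c1 v r p hp.1 hvp hpr, c1 (star v) (star v) q hq.1 hv'q hqv',
      c1 (star v) r q hq.1 hv'q hqr, c1 r v r hrA hrr hrv, c1 r (star v) r hrA hrr hrv']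
    simp only [zero_add, add_zero]
    exact add_mem (add_mem (hG.conj a ha) (hG.conj' a ha)) (mul_mem (mul_mem hrA ha) hrA)
  · exact add_mem (add_mem hkv.1 hkv'.1) hrA
  · exact add_nonneg (add_nonneg hkv.2.1 hkv'.2.1) hrP.nonneg
  · intro w hw
    have c2 : ∀ x y : H →L[ℂ] H, x ∈ S.M → y ∈ S.M → ∀ b ∈ S.A, y * b = y → b * x = 0 →
        S.phi (x * w * y) = 0 := by
      intro x y hx hy b hb hyb hbx
      rw [← hyb, ← mul_assoc, ← st_phi_central S hb (mul_mem (mul_mem hx hw) hy), ← mul_assoc,
        ← mul_assoc, hbx, zero_mul, zero_mul]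
      simp [StData.phi]
    have hvM := hG.mem
    have hv'M : star v ∈ S.M := star_mem hG.mem
    have hrM := st_A_le_M S hrA
    have d1 : S.phi (star v * w * v) = S.phi (kv * w) := hkv.2.2 w hw
    have d2 : S.phi (v * w * star v) = S.phi (kv' * w) := by
      have := hkv'.2.2 w hw
      rwa [star_star] at this
    have d3 : S.phi (r * w * r) = S.phi (r * w) := by
      rw [← st_phi_central S hrA (mul_mem hrM hw), ← mul_assoc, hrr]
    rw [hus, hexp w]
    simp only [st_phi_add, add_mul]
    rw [c2 v v hvM hvM p hp.1 hvp hpv, c2 v r hvM hrM r hrA hrr hrv,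
      c2 (star v) (star v) hv'M hv'M q hq.1 hv'q hqv', c2 (star v) r hv'M hrM r hrA hrr hrv',
      c2 r v hrM hvM p hp.1 hvp hpr, c2 r (star v) hrM hv'M q hq.1 hv'q hqr, d1, d2, d3]
    ring
  · rw [hu, mul_add, mul_add, hqv, hqv', hqr]
    simp

end Claimed.Agent.R302
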