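/-
Row 302, package ST, file Norm (part 4 of the Norm chain: the algebra Nalg): groupoid normalisers, covariance of `E_A`, fixed part, Radon-Nikodym elements, right multiplications
by normalisers, three-set lemma, symmetric unitary normalisers, `Nalg` is a `*`-algebra.
LEAVES: ST-Norm-alg (closure properties, covariance, fixed part, D4), ST-Norm-RN (RN existence + exhaustion),
        ST-Norm-three (three-set lemma + symmetric unitaries + Nalg algebra), ST-Norm-rmul.
LEAF ST-Nalg (helper62): this file is SORRY-FREE (modulo its imports NormAlg / NormRN / NormThree).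
Extra exports: `st_Nalg_gen`, `st_sym_mul_A`, `st_rbdd_zero`, `st_rbdd_sym`, `st_rmul_zero`.

Proof plans.
* covariance `EA (v z v*) = v EA z v*`:  `psi w := phi (v w v*) = ⟪v* Om, w v* Om⟫` is `A`-central, so `psi = psi ∘ EA` (`st_central_factor`);
  `phi (v z v* a) = psi (z a')`, `a' = v* a v`, `= psi (EA z a') = phi (v EA z v* a)`; conclude with `st_EA_eq`.
* fixed part: `b := EA v`, `f :=` support projection of `b` in `A`.  `b (v* a v) = EA (v v* a v) = EA (a v) = a b`, hence `f (v* a v - a) = 0`, hence `v f` commutes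
  with `A`, `v f ∈ A`, `b = b f = EA (v f) = v f`.  Replace `f` by `f v*v`.
* (D4): `∑ (v e v*) z (v e v*) = v (P.pinch (v* z v)) v*`, strong pinching limit at the vector `v* Om`, covariance.
* RN existence (`st_RN_of_le`): `psi a := phi (v* a v) ≤ C phi a` on `A₊`.  For `t ≥ 0` let `e_t :=` sup of all projections `e ∈ A` such that `psi e' ≤ t phi e'` for all
  projections `e' ≤ e` of `A` (hereditary + closed under orthogonal sums: complete additivity of vector functionals).  Below `1 - e_t`: `psi ≥ t phi`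
  (maximal orthogonal family of `e''` with `psi e'' > t phi e''`).  `k :=` norm limit of `∑ t_i (e_{t_{i+1}} - e_{t_i})`.  Then `psi a = phi (k a)` on `A`, and on `M` by
  `st_central_factor` for `ξ = v Om`.      (Alternative: Riesz on `closure (A Om)` + clipping of approximants.)
* exhaustion: with the same `e_t` for `psi` (no domination assumed): `phi (v v* - e_t) ≤ psi 1 / t`.  Do it for `v` and `v*` and intersect.
* `st_rbdd_GNb`: `‖x v Om‖² = phi (v* x* x v) = phi (k x* x) ≤ ‖k‖ ‖x Om‖²`.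
  adjoint: `phi (z v) = phi (v* v z v) = phi (k v z)`.
* three-set lemma: see the comment at `st_three`.
-/
import Claimed.Agent.R302.ST.NormThree

set_option autoImplicit false

namespace Claimed.Agent.R302

open scoped InnerProductSpace

variable {H : Type*} [NormedAddCommGroup H] [InnerProductSpace ℂ H] [CompleteSpace H]
variable (S : StData H)

/-! ### the algebra `Nalg` -/

theorem st_Nalg_gen {a u : H →L[ℂ] H} (ha : a ∈ S.A) (hu : S.IsSym u) : a * u ∈ S.Nalg :=
  Submodule.subset_span ⟨a, ha, u, hu, rfl⟩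

theorem st_Nalg_le_M {n : H →L[ℂ] H} (hn : n ∈ S.Nalg) : n ∈ S.M := by
  induction hn using Submodule.span_induction with
  | mem x hx =>
    obtain ⟨a, ha, u, hu, rfl⟩ := hx
    exact mul_mem (st_A_le_M S ha) hu.1
  | zero => exact zero_mem _
  | add x y _ _ hx hy => exact add_mem hx hy
  | smul c x _ hx => exact S.M.smul_mem hx c

theorem st_A_le_Nalg {a : H →L[ℂ] H} (ha : a ∈ S.A) : a ∈ S.Nalg := by
  simpa using st_Nalg_gen S ha (st_sym_one S)

theorem st_Nalg_A_mul {a n : H →L[ℂ] H} (ha : a ∈ S.A) (hn : n ∈ S.Nalg) : a * n ∈ S.Nalg := by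
  induction hn using Submodule.span_induction with
  | mem x hx =>
    obtain ⟨a', ha', u, hu, rfl⟩ := hx
    rw [← mul_assoc]
    exact st_Nalg_gen S (mul_mem ha ha') hu
  | zero => rw [mul_zero]; exact zero_mem _
  | add x y _ _ hx hy => rw [mul_add]; exact add_mem hx hy
  | smul c x _ hx => rw [mul_smul_comm]; exact S.Nalg.smul_mem c hx

theorem st_sym_mul_A (a : H →L[ℂ] H) {u : H →L[ℂ] H} (hu : S.IsSym u) : u * a = (u * a * u) * u := by
  rw [mul_assoc (u * a), hu.2.2.1, mul_one]

theorem st_Nalg_mul_A {a n : H →L[ℂ] H} (ha : a ∈ S.A) (hn : n ∈ S.Nalg) : n * a ∈ S.Nalg := by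
  induction hn using Submodule.span_induction with
  | mem x hx =>
    obtain ⟨a', ha', u, hu, rfl⟩ := hx
    rw [mul_assoc, st_sym_mul_A S a hu, ← mul_assoc]
    exact st_Nalg_gen S (mul_mem ha' (hu.2.2.2.1 a ha)) hu
  | zero => rw [zero_mul]; exact zero_mem _
  | add x y _ _ hx hy => rw [add_mul]; exact add_mem hx hy
  | smul c x _ hx => rw [smul_mul_assoc]; exact S.Nalg.smul_mem c hx

theorem st_Nalg_star {n : H →L[ℂ] H} (hn : n ∈ S.Nalg) : star n ∈ S.Nalg := by
  induction hn using Submodule.span_induction with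
  | mem x hx =>
    obtain ⟨a', ha', u, hu, rfl⟩ := hx
    rw [star_mul, hu.2.1.star_eq, st_sym_mul_A S (star a') hu]
    exact st_Nalg_gen S (hu.2.2.2.1 _ (star_mem ha')) hu
  | zero => rw [star_zero]; exact zero_mem _
  | add x y _ _ hx hy => rw [star_add]; exact add_mem hx hy
  | smul c x _ hx => rw [star_smul]; exact S.Nalg.smul_mem _ hx

theorem st_GNb_mem_Nalg {v : H →L[ℂ] H} (hv : S.IsGNb v) : v ∈ S.Nalg := by
  obtain ⟨f, e, hf, he, hsum, hfe, hee, hvf, -, hmove⟩ := st_fix_three S hv.1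
  have hle : ∀ i, e i * (star v * v) = e i := by
    intro i
    rw [← hsum, mul_add, (st_A_comm S (he i).1 hf.1).eq, hfe i, zero_add, Finset.mul_sum,
      Finset.sum_eq_single_of_mem i (Finset.mem_univ i) (fun j _ hj => hee i j hj.symm),
      (he i).2.isIdempotentElem.eq]
  have hv1 : v = v * f + ∑ i, v * e i := by
    rw [← Finset.mul_sum, ← mul_add, hsum, ← mul_assoc, hv.1.pisom]
  rw [hv1]
  refine add_mem (st_A_le_Nalg S hvf) (sum_mem fun i _ => ?_)
  have hg : S.IsGNb (v * e i) := st_GNb_cut_right S hv (he i)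
  have hes : star (e i) = e i := (he i).2.isSelfAdjoint.star_eq
  have hsrc : star (v * e i) * (v * e i) = e i := by
    rw [star_mul, hes, mul_assoc, ← mul_assoc (star v), ← mul_assoc (e i), hle i,
      (he i).2.isIdempotentElem.eq]
  have hrng : (v * e i) * star (v * e i) = v * e i * star v := by
    rw [star_mul, hes, mul_assoc v, ← mul_assoc (e i), (he i).2.isIdempotentElem.eq, mul_assoc]
  have ho : (star (v * e i) * (v * e i)) * ((v * e i) * star (v * e i)) = 0 := by
    rw [hsrc, hrng, hmove i]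
  obtain ⟨hs, heq⟩ := st_sym_of_orth S hg ho
  rw [heq]
  exact st_Nalg_gen S hg.1.rng hs

theorem st_Nalg_mul {n m : H →L[ℂ] H} (hn : n ∈ S.Nalg) (hm : m ∈ S.Nalg) : n * m ∈ S.Nalg := by
  induction hn using Submodule.span_induction with
  | mem x hx =>
    obtain ⟨a, ha, u, hu, rfl⟩ := hx
    induction hm using Submodule.span_induction with
    | mem y hy =>
      obtain ⟨a', ha', u', hu', rfl⟩ := hy
      have e1 : a * u * (a' * u') = (a * (u * a' * u)) * (u * u') := by
        have e2 : (a * (u * a' * u)) * (u * u') = a * u * a' * (u * u) * u' := by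
          simp only [mul_assoc]
        rw [e2, hu.2.2.1, mul_one]
        simp only [mul_assoc]
      rw [e1]
      exact st_Nalg_A_mul S (mul_mem ha (hu.2.2.2.1 a' ha'))
        (st_GNb_mem_Nalg S (st_GNb_mul S (st_sym_GNb S hu) (st_sym_GNb S hu')))
    | zero => rw [mul_zero]; exact zero_mem _
    | add x y _ _ hx hy => rw [mul_add]; exact add_mem hx hy
    | smul c x _ hx => rw [mul_smul_comm]; exact S.Nalg.smul_mem c hx
  | zero => rw [zero_mul]; exact zero_mem _
  | add x y _ _ hx hy => rw [add_mul]; exact add_mem hx hy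
  | smul c x _ hx => rw [smul_mul_assoc]; exact S.Nalg.smul_mem c hx

/-- explicit form of the elements of `Nalg` -/
theorem st_Nalg_repr {n : H →L[ℂ] H} (hn : n ∈ S.Nalg) :
    ∃ (D : ℕ) (a u : Fin D → H →L[ℂ] H), (∀ k, a k ∈ S.A) ∧ (∀ k, S.IsSym (u k)) ∧ n = ∑ k, a k * u k := by
  induction hn using Submodule.span_induction with
  | mem x hx =>
    obtain ⟨a, ha, u, hu, rfl⟩ := hx
    exact ⟨1, fun _ => a, fun _ => u, fun _ => ha, fun _ => hu, by simp⟩
  | zero => exact ⟨0, Fin.elim0, Fin.elim0, fun k => k.elim0, fun k => k.elim0, by simp⟩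
  | add x y _ _ hx hy =>
    obtain ⟨D, a, u, ha, hu, rfl⟩ := hx
    obtain ⟨D', a', u', ha', hu', rfl⟩ := hy
    refine ⟨D + D', Fin.append a a', Fin.append u u', ?_, ?_, ?_⟩
    · intro k
      refine Fin.addCases (fun i => ?_) (fun i => ?_) k
      · rw [Fin.append_left]; exact ha i
      · rw [Fin.append_right]; exact ha' i
    · intro k
      refine Fin.addCases (fun i => ?_) (fun i => ?_) k
      · rw [Fin.append_left]; exact hu i
      · rw [Fin.append_right]; exact hu' i
    · rw [Fin.sum_univ_add]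
      simp only [Fin.append_left, Fin.append_right]
  | smul c x _ hx =>
    obtain ⟨D, a, u, ha, hu, rfl⟩ := hx
    refine ⟨D, fun k => c • a k, u, fun k => S.A.smul_mem (ha k) c, hu, ?_⟩
    rw [Finset.smul_sum]
    exact Finset.sum_congr rfl fun k _ => (smul_mul_assoc _ _ _).symm

theorem st_EA_Nalg {n : H →L[ℂ] H} (hn : n ∈ S.Nalg) : n - S.EA n ∈ S.Nalg :=
  sub_mem hn (st_A_le_Nalg S (st_EA_mem S (st_Nalg_le_M S hn)))

theorem st_rbdd_zero : S.IsRBdd 0 := ⟨0, fun x _ => by simp⟩

theorem st_rbdd_sym {u : H →L[ℂ] H} (hu : S.IsSym u) : S.IsRBdd u := by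
  obtain ⟨k, hk⟩ := hu.2.2.2.2
  exact (st_rbdd_GNb S (st_sym_GN S hu) hk).1

theorem st_rbdd_Nalg {n : H →L[ℂ] H} (hn : n ∈ S.Nalg) : S.IsRBdd n := by
  induction hn using Submodule.span_induction with
  | mem x hx =>
    obtain ⟨a, ha, u, hu, rfl⟩ := hx
    exact (st_rbdd_mul S (st_rbdd_sym S hu) (st_rbdd_A S ha) (st_A_le_M S ha)).1
  | zero => exact st_rbdd_zero S
  | add x y _ _ hx hy => exact (st_rbdd_add S hx hy).1
  | smul c x _ hx => exact (st_rbdd_smul S c hx).1

theorem st_rmul_zero : S.rmul 0 = 0 := st_rmul_eq S fun x _ => by simp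

theorem st_rmul_Nalg_star {n : H →L[ℂ] H} (hn : n ∈ S.Nalg) :
    ∃ n' ∈ S.Nalg, star (S.rmul n) = S.rmul n' := by
  induction hn using Submodule.span_induction with
  | mem x hx =>
    obtain ⟨a, ha, u, hu, rfl⟩ := hx
    obtain ⟨k, hk⟩ := hu.2.2.2.2
    obtain ⟨hb, hs⟩ := st_rmul_GNb_star S (st_sym_GNb S hu) hk
    have hsa : star a ∈ S.A := star_mem ha
    have hukM : star u * k ∈ S.M := mul_mem (star_mem hu.1) (st_A_le_M S hk.1)
    refine ⟨(star u * k) * star a, ?_, ?_⟩
    · rw [hu.2.1.star_eq]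
      refine st_Nalg_mul_A S hsa (st_Nalg_mul_A S hk.1 ?_)
      simpa using st_Nalg_gen S (one_mem S.A) hu
    · rw [(st_rbdd_mul S (st_rbdd_sym S hu) (st_rbdd_A S ha) (st_A_le_M S ha)).2, star_mul, hs,
        ← st_rmul_A_star S ha, (st_rbdd_mul S (st_rbdd_A S hsa) hb hukM).2]
  | zero => exact ⟨0, zero_mem _, by rw [st_rmul_zero, star_zero]⟩
  | add x y hx hy hx' hy' =>
    obtain ⟨x', hx1, hx2⟩ := hx'
    obtain ⟨y', hy1, hy2⟩ := hy'
    refine ⟨x' + y', add_mem hx1 hy1, ?_⟩
    rw [(st_rbdd_add S (st_rbdd_Nalg S hx) (st_rbdd_Nalg S hy)).2, star_add, hx2, hy2,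
      (st_rbdd_add S (st_rbdd_Nalg S hx1) (st_rbdd_Nalg S hy1)).2]
  | smul c x hx hx' =>
    obtain ⟨x', hx1, hx2⟩ := hx'
    refine ⟨star c • x', S.Nalg.smul_mem _ hx1, ?_⟩
    rw [(st_rbdd_smul S c (st_rbdd_Nalg S hx)).2, star_smul, hx2,
      (st_rbdd_smul S (star c) (st_rbdd_Nalg S hx1)).2]

/-- What (AK) step A7 consumes: orthogonality to `Nalg` implies orthogonality to all `v a`, `v` ANY groupoid normaliser. -/
theorem st_perp_GN {y v a : H →L[ℂ] H} (hy : y ∈ S.Mo) (hv : S.IsGN v) (ha : a ∈ S.A) :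
    S.phi (star (v * a) * y) = 0 := by
  rw [← norm_eq_zero]
  refine le_antisymm (le_of_forall_pos_le_add fun ε hε => ?_) (norm_nonneg _)
  obtain ⟨e, he, hg, hlt⟩ := st_RN_exhaust S hv (a S.Om) (ε := ε / (‖y S.Om‖ + 1)) (by positivity)
  have h0 : S.phi (star (e * v * a) * y) = 0 :=
    hy.2 _ (st_Nalg_mul_A S ha (st_GNb_mem_Nalg S hg))
  have e1 : S.phi (star (v * a) * y) = ⟪(v - e * v) (a S.Om), y S.Om⟫_ℂ := by
    rw [st_phi_star_mul] at h0 ⊢
    have : (v - e * v) (a S.Om) = (v * a) S.Om - (e * v * a) S.Om := rfl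
    rw [this, inner_sub_left, h0, sub_zero]
  rw [e1, zero_add]
  calc ‖⟪(v - e * v) (a S.Om), y S.Om⟫_ℂ‖ ≤ ‖(v - e * v) (a S.Om)‖ * ‖y S.Om‖ := norm_inner_le_norm _ _
    _ ≤ ε / (‖y S.Om‖ + 1) * (‖y S.Om‖ + 1) := by
        apply mul_le_mul hlt.le (by linarith) (norm_nonneg _) (by positivity)
    _ = ε := by field_simp

end Claimed.Agent.R302
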