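/-
Row 302, package ST, file Fourier: finite Fourier projections onto `N_F = ∑_{u ∈ F} u A`, `F` a finite set of symmetric unitary normalisers.
LEAF ST-Fourier.

Facts (z ∈ M, u ∈ Sym):   `(z Om ⊥ u A Om)  ⟺  EA (u z) = 0`;   `EA (z u) = u EA (u z) u`, so the condition `∀ u ∈ F, EA (u z) = 0` is `*`-symmetric;
`N_F` is `*`-closed: `(u a)* = u (u a* u)`.

`st_four_exists` by `Finset.induction_on`:  given the statement for `F` and a new `u`:  for `w ∈ F` let `f_w` be the fixed projection of `w u` (`st_fix`),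
`g := ∏_{w ∈ F} (1 - f_w)`, `u' := u g`.  For `x`: `n₀` from `F`, `x₁ := x - n₀`, `n₁ := u' EA (u'* x₁)`, `n := n₀ + n₁`, `z := x - n`.
  `EA (w n₁) = w u f_w g (..) = 0`, so `EA (w z) = 0`;   `EA (u'* z) = EA (u'* x₁) - g EA (u'* x₁) = 0`;
  `b := EA (u z)`:  `b f_w = EA ((u f_w)* z) = c_w* EA (w z) = 0` where `u f_w = w c_w`, `c_w = w u f_w ∈ A`;  hence `b = b g = EA (u'* z) = 0`.
`st_four_tendsto`: `n Om` is the best approximation of `x Om` (hence of `QN (x Om)`) in `N_F Om`, and `Nalg = ⋃_F N_F`.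
-/
import Claimed.Agent.R302.ST.Norm

set_option autoImplicit false

namespace Claimed.Agent.R302

open scoped InnerProductSpace

variable {H : Type*} [NormedAddCommGroup H] [InnerProductSpace ℂ H] [CompleteSpace H]
variable (S : StData H)

instance st_L2N_complete : CompleteSpace S.L2N :=
  (Submodule.isClosed_topologicalClosure _).completeSpace_coe

/-- The orthogonal projection `Q` onto `L²(N)`. -/
noncomputable def StData.QN : H →L[ℂ] H := S.L2N.starProjection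

/-- `N_F = ∑_{u ∈ F} u A`. -/
def StData.NF (F : Finset (H →L[ℂ] H)) : Submodule ℂ (H →L[ℂ] H) :=
  Submodule.span ℂ {n | ∃ u ∈ F, ∃ a ∈ S.A, n = u * a}

/-! ### elementary facts on symmetric normalisers -/

theorem st_f_sym_mem {u : H →L[ℂ] H} (hu : S.IsSym u) : u ∈ S.M := hu.1
theorem st_f_sym_star {u : H →L[ℂ] H} (hu : S.IsSym u) : star u = u := hu.2.1.star_eq
theorem st_f_sym_sq {u : H →L[ℂ] H} (hu : S.IsSym u) : u * u = 1 := hu.2.2.1
theorem st_f_sym_conj {u a : H →L[ℂ] H} (hu : S.IsSym u) (ha : a ∈ S.A) : u * a * u ∈ S.A := hu.2.2.2.1 a ha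

/-- `u a = (u a u) u` -/
theorem st_f_sym_swap {u : H →L[ℂ] H} (hu : S.IsSym u) (a : H →L[ℂ] H) : u * a = (u * a * u) * u := by
  rw [mul_assoc (u * a), st_f_sym_sq S hu, mul_one]

/-- `a u = u (u a u)` -/
theorem st_f_sym_swap' {u : H →L[ℂ] H} (hu : S.IsSym u) (a : H →L[ℂ] H) : a * u = u * (u * a * u) := by
  rw [← mul_assoc, ← mul_assoc, st_f_sym_sq S hu, one_mul]

theorem st_NF_gen {F : Finset (H →L[ℂ] H)} {u a : H →L[ℂ] H} (hu : u ∈ F) (ha : a ∈ S.A) : u * a ∈ S.NF F :=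
  Submodule.subset_span ⟨u, hu, a, ha, rfl⟩

theorem st_NF_le_Nalg {F : Finset (H →L[ℂ] H)} (hF : ∀ u ∈ F, S.IsSym u) {n : H →L[ℂ] H} (hn : n ∈ S.NF F) :
    n ∈ S.Nalg := by
  refine (Submodule.span_le.2 ?_) hn
  rintro _ ⟨u, hu, a, ha, rfl⟩
  exact Submodule.subset_span ⟨u * a * u, st_f_sym_conj S (hF u hu) ha, u, hF u hu, st_f_sym_swap S (hF u hu) a⟩

theorem st_NF_mono {F F' : Finset (H →L[ℂ] H)} (h : F ⊆ F') {n : H →L[ℂ] H} (hn : n ∈ S.NF F) : n ∈ S.NF F' := by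
  refine (Submodule.span_mono ?_) hn
  rintro _ ⟨u, hu, a, ha, rfl⟩
  exact ⟨u, h hu, a, ha, rfl⟩

theorem st_NF_star {F : Finset (H →L[ℂ] H)} (hF : ∀ u ∈ F, S.IsSym u) {n : H →L[ℂ] H} (hn : n ∈ S.NF F) :
    star n ∈ S.NF F := by
  induction hn using Submodule.span_induction with
  | mem x hx =>
    obtain ⟨u, hu, a, ha, rfl⟩ := hx
    rw [star_mul, st_f_sym_star S (hF u hu), st_f_sym_swap' S (hF u hu)]
    exact st_NF_gen S hu (st_f_sym_conj S (hF u hu) (star_mem ha))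
  | zero => rw [star_zero]; exact (S.NF F).zero_mem
  | add x y _ _ hx hy => rw [star_add]; exact (S.NF F).add_mem hx hy
  | smul c x _ hx => rw [star_smul]; exact (S.NF F).smul_mem _ hx

theorem st_NF_le_M {F : Finset (H →L[ℂ] H)} (hF : ∀ u ∈ F, S.IsSym u) {n : H →L[ℂ] H} (hn : n ∈ S.NF F) :
    n ∈ S.M := st_Nalg_le_M S (st_NF_le_Nalg S hF hn)

theorem st_Nalg_mem_NF {n : H →L[ℂ] H} (hn : n ∈ S.Nalg) :
    ∃ F : Finset (H →L[ℂ] H), (∀ u ∈ F, S.IsSym u) ∧ n ∈ S.NF F := by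
  classical
  induction hn using Submodule.span_induction with
  | mem x hx =>
    obtain ⟨a, ha, u, hu, rfl⟩ := hx
    refine ⟨{u}, fun w hw => by rw [Finset.mem_singleton.1 hw]; exact hu, ?_⟩
    rw [st_f_sym_swap' S hu]
    exact st_NF_gen S (Finset.mem_singleton_self u) (st_f_sym_conj S hu ha)
  | zero => exact ⟨∅, fun u hu => absurd hu (Finset.notMem_empty u), (S.NF ∅).zero_mem⟩
  | add x y _ _ hx hy =>
    obtain ⟨F, hF, hxF⟩ := hx
    obtain ⟨G, hG, hyG⟩ := hy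
    refine ⟨F ∪ G, fun u hu => ?_, ?_⟩
    · rcases Finset.mem_union.1 hu with h | h
      · exact hF u h
      · exact hG u h
    · exact (S.NF _).add_mem (st_NF_mono S Finset.subset_union_left hxF)
        (st_NF_mono S Finset.subset_union_right hyG)
  | smul c x _ hx =>
    obtain ⟨F, hF, hxF⟩ := hx
    exact ⟨F, hF, (S.NF F).smul_mem _ hxF⟩

/-- orthogonality criterion -/
theorem st_perp_iff {u z : H →L[ℂ] H} (hu : S.IsSym u) (hz : z ∈ S.M) :
    (∀ a ∈ S.A, ⟪(u * a) S.Om, z S.Om⟫_ℂ = 0) ↔ S.EA (u * z) = 0 := by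
  have huz : u * z ∈ S.M := S.M.mul_mem hu.1 hz
  have key : ∀ a ∈ S.A, ⟪(u * a) S.Om, z S.Om⟫_ℂ = S.phi ((u * z) * star a) := by
    intro a ha
    rw [← st_phi_star_mul, star_mul, st_f_sym_star S hu, mul_assoc, st_phi_central S (star_mem ha) huz]
  constructor
  · intro h
    refine st_EA_eq S huz S.A.zero_mem (fun a ha => ?_)
    have := h (star a) (star_mem ha)
    rw [key _ (star_mem ha), star_star] at this
    rw [this, zero_mul]
    simp [StData.phi]
  · intro h a ha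
    rw [key a ha, ← st_EA_spec S huz (star_mem ha), h, zero_mul]
    simp [StData.phi]

theorem st_perp_star {u z : H →L[ℂ] H} (hu : S.IsSym u) (hz : z ∈ S.M) (h : S.EA (u * z) = 0) :
    S.EA (u * star z) = 0 := by
  have hGN := st_sym_GN S hu
  have huz : u * z ∈ S.M := S.M.mul_mem hu.1 hz
  have e1 : z * u = u * (u * z) * star u := by
    rw [st_f_sym_star S hu, ← mul_assoc, st_f_sym_sq S hu, one_mul]
  have e2 : S.EA (z * u) = 0 := by
    rw [e1, st_EA_conj S hGN huz, h, mul_zero, zero_mul]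
  have e3 : u * star z = star (z * u) := by rw [star_mul, st_f_sym_star S hu]
  rw [e3, st_EA_star S (S.M.mul_mem hz hu.1), e2, star_zero]

/-! ### existence -/

theorem st_f_projA_one : S.IsProjA 1 := ⟨S.A.one_mem, IsStarProjection.one _⟩

theorem st_f_projA_compl {e : H →L[ℂ] H} (he : S.IsProjA e) : S.IsProjA (1 - e) :=
  ⟨S.A.sub_mem S.A.one_mem he.1, he.2.one_sub⟩

theorem st_f_projA_mul {e f : H →L[ℂ] H} (he : S.IsProjA e) (hf : S.IsProjA f) : S.IsProjA (e * f) :=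
  ⟨S.A.mul_mem he.1 hf.1, he.2.mul hf.2 (st_A_comm S he.1 hf.1)⟩

/-- the complement of the supremum of finitely many projections of `A` -/
theorem st_f_compl_sup (F : Finset (H →L[ℂ] H)) (f : (H →L[ℂ] H) → H →L[ℂ] H) (hf : ∀ w ∈ F, S.IsProjA (f w)) :
    ∃ g, S.IsProjA g ∧ (∀ w ∈ F, g * f w = 0) ∧ ∀ b : H →L[ℂ] H, (∀ w ∈ F, b * f w = 0) → b * g = b := by
  classical
  induction F using Finset.induction_on with
  | empty => exact ⟨1, st_f_projA_one S, fun w hw => absurd hw (Finset.notMem_empty w), fun b _ => mul_one b⟩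
  | insert w F hw ih =>
    obtain ⟨g, hg, hg0, hgb⟩ := ih (fun v hv => hf v (Finset.mem_insert_of_mem hv))
    have hfw := hf w (Finset.mem_insert_self w F)
    refine ⟨g * (1 - f w), st_f_projA_mul S hg (st_f_projA_compl S hfw), ?_, ?_⟩
    · intro v hv
      rcases Finset.mem_insert.1 hv with rfl | hv
      · rw [mul_assoc, sub_mul, one_mul, hfw.2.isIdempotentElem.eq, sub_self, mul_zero]
      · have hfv := hf v (Finset.mem_insert_of_mem hv)
        have hc : (1 - f w) * f v = f v * (1 - f w) :=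
          (st_A_comm S (st_f_projA_compl S hfw).1 hfv.1).eq
        rw [mul_assoc, hc, ← mul_assoc, hg0 v hv, zero_mul]
    · intro b hb
      rw [← mul_assoc, hgb b (fun v hv => hb v (Finset.mem_insert_of_mem hv)), mul_sub, mul_one,
        hb w (Finset.mem_insert_self w F), sub_zero]

/-- Fourier projection onto `N_F`. -/
theorem st_four_exists (F : Finset (H →L[ℂ] H)) (hF : ∀ u ∈ F, S.IsSym u) {x : H →L[ℂ] H} (hx : x ∈ S.M) :
    ∃ n ∈ S.NF F, ∀ u ∈ F, S.EA (u * (x - n)) = 0 := by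
  classical
  induction F using Finset.induction_on generalizing x with
  | empty => exact ⟨0, (S.NF ∅).zero_mem, fun u hu => absurd hu (Finset.notMem_empty u)⟩
  | insert u F hu ih =>
    have hFs : ∀ w ∈ F, S.IsSym w := fun w hw => hF w (Finset.mem_insert_of_mem hw)
    have hus : S.IsSym u := hF u (Finset.mem_insert_self u F)
    have huu := st_f_sym_sq S hus
    -- fixed projections of `w u`
    have hfix : ∀ w ∈ F, ∃ f, S.IsProjA f ∧ (w * u) * f ∈ S.A ∧ S.EA (w * u) = (w * u) * f := by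
      intro w hw
      obtain ⟨f, h1, -, h3, h4, -⟩ := st_fix S (st_GN_mul S (st_sym_GN S (hFs w hw)) (st_sym_GN S hus))
      exact ⟨f, h1, h3, h4⟩
    choose! f hf1 hf2 hf3 using hfix
    obtain ⟨g, hg, hg0, hgb⟩ := st_f_compl_sup S F f hf1
    have hgA := hg.1
    have hgg : g * g = g := hg.2.isIdempotentElem.eq
    have hgs : star g = g := hg.2.isSelfAdjoint.star_eq
    obtain ⟨n₀, hn₀, h₀⟩ := ih hFs hx
    have hn₀M : n₀ ∈ S.M := st_NF_le_M S hFs hn₀
    set x₁ : H →L[ℂ] H := x - n₀ with hx₁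
    have hx₁M : x₁ ∈ S.M := S.M.sub_mem hx hn₀M
    have hgux : g * u * x₁ ∈ S.M := S.M.mul_mem (S.M.mul_mem (st_A_le_M S hgA) hus.1) hx₁M
    set c : H →L[ℂ] H := S.EA (g * u * x₁) with hc
    have hcA : c ∈ S.A := st_EA_mem S hgux
    have hgc : g * c = c := by
      rw [hc, ← st_EA_mul_left S hgA hgux, ← mul_assoc, ← mul_assoc, hgg]
    set n₁ : H →L[ℂ] H := u * (g * c) with hn₁
    have hn₁M : n₁ ∈ S.M := S.M.mul_mem hus.1 (st_A_le_M S (S.A.mul_mem hgA hcA))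
    have hz : x - (n₀ + n₁) = x₁ - n₁ := by rw [hx₁]; abel
    have hzM : x₁ - n₁ ∈ S.M := S.M.sub_mem hx₁M hn₁M
    -- (a)
    have ha : ∀ w ∈ F, S.EA (w * (x₁ - n₁)) = 0 := by
      intro w hw
      have hwM := (hFs w hw).1
      rw [mul_sub, st_EA_sub S (S.M.mul_mem hwM hx₁M) (S.M.mul_mem hwM hn₁M), h₀ w hw, zero_sub, neg_eq_zero]
      have e : w * n₁ = (w * u) * (g * c) := by rw [hn₁, mul_assoc]
      rw [e, st_EA_mul_right S (S.A.mul_mem hgA hcA) (S.M.mul_mem hwM hus.1), hf3 w hw]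
      have e2 : f w * g = 0 := by
        rw [(st_A_comm S (hf1 w hw).1 hgA).eq]; exact hg0 w hw
      rw [mul_assoc (w * u), ← mul_assoc (f w), e2, zero_mul, mul_zero]
    refine ⟨n₀ + n₁, (S.NF _).add_mem (st_NF_mono S (Finset.subset_insert u F) hn₀)
      (st_NF_gen S (Finset.mem_insert_self u F) (S.A.mul_mem hgA hcA)), ?_⟩
    intro v hv
    rw [hz]
    rcases Finset.mem_insert.1 hv with rfl | hv
    · -- (b), (c)
      have huzM : v * (x₁ - n₁) ∈ S.M := S.M.mul_mem hus.1 hzM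
      set b : H →L[ℂ] H := S.EA (v * (x₁ - n₁)) with hb
      have hbA : b ∈ S.A := st_EA_mem S huzM
      have hbf : ∀ w ∈ F, b * f w = 0 := by
        intro w hw
        have hwM := (hFs w hw).1
        have hww := st_f_sym_sq S (hFs w hw)
        have hfA := (hf1 w hw).1
        have hfs : star (f w) = f w := (hf1 w hw).2.isSelfAdjoint.star_eq
        -- `f w * v = star (w v f w) * w`
        have e1 : f w * v = star ((w * v) * f w) * w := by
          rw [star_mul, star_mul, hfs, st_f_sym_star S hus, st_f_sym_star S (hFs w hw), mul_assoc, mul_assoc, hww,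
            mul_one]
        rw [(st_A_comm S hbA hfA).eq, hb, ← st_EA_mul_left S hfA huzM, ← mul_assoc, e1, mul_assoc,
          st_EA_mul_left S (star_mem (hf2 w hw)) (S.M.mul_mem hwM hzM), ha w hw, mul_zero]
      have h1 : b * g = b := hgb b hbf
      have h2 : b * g = 0 := by
        rw [(st_A_comm S hbA hgA).eq, hb, ← st_EA_mul_left S hgA huzM, ← mul_assoc, mul_sub,
          st_EA_sub S hgux (S.M.mul_mem (S.M.mul_mem (st_A_le_M S hgA) hus.1) hn₁M)]
        have e : g * v * n₁ = g * c := by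
          rw [hn₁, mul_assoc g v, ← mul_assoc v v, huu, one_mul, ← mul_assoc, hgg]
        rw [e, hgc, st_EA_of_mem S hcA, ← hc, sub_self]
      rw [← h1, h2]
    · exact ha v hv

/-! ### uniqueness, self-adjointness, best approximation -/

/-- if `EA (u d) = 0` for all `u ∈ F` then `d Om ⊥ N_F Om` -/
theorem st_f_perp_NF {F : Finset (H →L[ℂ] H)} (hF : ∀ u ∈ F, S.IsSym u) {d : H →L[ℂ] H} (hd : d ∈ S.M)
    (h : ∀ u ∈ F, S.EA (u * d) = 0) {m : H →L[ℂ] H} (hm : m ∈ S.NF F) : ⟪m S.Om, d S.Om⟫_ℂ = 0 := by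
  induction hm using Submodule.span_induction with
  | mem x hx =>
    obtain ⟨u, hu, a, ha, rfl⟩ := hx
    exact (st_perp_iff S (hF u hu) hd).2 (h u hu) a ha
  | zero => simp
  | add x y _ _ hx hy => rw [add_apply, inner_add_left, hx, hy, add_zero]
  | smul c x _ hx => rw [smul_apply, inner_smul_left, hx, mul_zero]

theorem st_four_unique {F : Finset (H →L[ℂ] H)} (hF : ∀ u ∈ F, S.IsSym u) {x n n' : H →L[ℂ] H} (hx : x ∈ S.M)
    (hn : n ∈ S.NF F) (hn' : n' ∈ S.NF F) (h : ∀ u ∈ F, S.EA (u * (x - n)) = 0)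
    (h' : ∀ u ∈ F, S.EA (u * (x - n')) = 0) : n = n' := by
  have hnM := st_NF_le_M S hF hn
  have hn'M := st_NF_le_M S hF hn'
  have hd : n - n' ∈ S.NF F := (S.NF F).sub_mem hn hn'
  have hdM : n - n' ∈ S.M := S.M.sub_mem hnM hn'M
  have h0 : ∀ u ∈ F, S.EA (u * (n - n')) = 0 := by
    intro u hu
    have huM := (hF u hu).1
    have e : u * (n - n') = u * (x - n') - u * (x - n) := by rw [← mul_sub]; congr 1; abel
    rw [e, st_EA_sub S (S.M.mul_mem huM (S.M.sub_mem hx hn'M)) (S.M.mul_mem huM (S.M.sub_mem hx hnM)), h u hu,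
      h' u hu, sub_zero]
  have h1 := st_f_perp_NF S hF hdM h0 hd
  have h2 : (n - n') S.Om = 0 := inner_self_eq_zero.1 h1
  exact sub_eq_zero.1 (S.sep _ hdM h2)

/-- for self-adjoint `x` the Fourier projection is self-adjoint -/
theorem st_four_sa {F : Finset (H →L[ℂ] H)} (hF : ∀ u ∈ F, S.IsSym u) {x n : H →L[ℂ] H} (hx : x ∈ S.M)
    (hsa : IsSelfAdjoint x) (hn : n ∈ S.NF F) (h : ∀ u ∈ F, S.EA (u * (x - n)) = 0) : IsSelfAdjoint n := by
  have hnM := st_NF_le_M S hF hn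
  refine st_four_unique S hF hx (st_NF_star S hF hn) hn (fun u hu => ?_) h
  have := st_perp_star S (hF u hu) (S.M.sub_mem hx hnM) (h u hu)
  rwa [star_sub, hsa.star_eq] at this

theorem st_f_Nalg_Om_mem {n : H →L[ℂ] H} (hn : n ∈ S.Nalg) : n S.Om ∈ S.L2N :=
  Submodule.le_topologicalClosure _ (Submodule.mem_map_of_mem hn)

/-- best approximation -/
theorem st_four_best {F : Finset (H →L[ℂ] H)} (hF : ∀ u ∈ F, S.IsSym u) {x n m : H →L[ℂ] H} (hx : x ∈ S.M)
    (hn : n ∈ S.NF F) (h : ∀ u ∈ F, S.EA (u * (x - n)) = 0) (hm : m ∈ S.NF F) :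
    ‖S.QN (x S.Om) - n S.Om‖ ≤ ‖S.QN (x S.Om) - m S.Om‖ := by
  have hnM := st_NF_le_M S hF hn
  have hd : n - m ∈ S.NF F := (S.NF F).sub_mem hn hm
  have h1 : ⟪(n - m) S.Om, (x - n) S.Om⟫_ℂ = 0 := st_f_perp_NF S hF (S.M.sub_mem hx hnM) h hd
  have h2 : ⟪x S.Om - S.QN (x S.Om), (n - m) S.Om⟫_ℂ = 0 :=
    Submodule.starProjection_inner_eq_zero _ _ (st_f_Nalg_Om_mem S (st_NF_le_Nalg S hF hd))
  have h3 : ⟪S.QN (x S.Om) - n S.Om, (n - m) S.Om⟫_ℂ = 0 := by
    have e : S.QN (x S.Om) - n S.Om = (x - n) S.Om - (x S.Om - S.QN (x S.Om)) := by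
      rw [sub_apply]; abel
    rw [e, inner_sub_left, h2, sub_zero, ← inner_conj_symm, h1, map_zero]
  have e : S.QN (x S.Om) - m S.Om = (S.QN (x S.Om) - n S.Om) + (n - m) S.Om := by
    rw [sub_apply]; abel
  have h4 := norm_add_sq_eq_norm_sq_add_norm_sq_of_inner_eq_zero _ _ h3
  rw [← e] at h4
  nlinarith [norm_nonneg (S.QN (x S.Om) - n S.Om), norm_nonneg (S.QN (x S.Om) - m S.Om),
    mul_self_nonneg ‖(n - m) S.Om‖]

/-- convergence of the Fourier projections along the net of finite sets of symmetric normalisers -/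
theorem st_four_tendsto {x : H →L[ℂ] H} (hx : x ∈ S.M) {ε : ℝ} (hε : 0 < ε) :
    ∃ F₀ : Finset (H →L[ℂ] H), (∀ u ∈ F₀, S.IsSym u) ∧
      ∀ F : Finset (H →L[ℂ] H), F₀ ⊆ F → (∀ u ∈ F, S.IsSym u) →
        ∀ n ∈ S.NF F, (∀ u ∈ F, S.EA (u * (x - n)) = 0) → ‖S.QN (x S.Om) - n S.Om‖ < ε := by
  have hmem : S.QN (x S.Om) ∈ (S.L2N : Set H) := Submodule.starProjection_apply_mem _ _
  unfold StData.L2N at hmem
  rw [Submodule.topologicalClosure_coe] at hmem
  obtain ⟨ζ, hζ, hd⟩ := Metric.mem_closure_iff.1 hmem ε hε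
  obtain ⟨m, hm, rfl⟩ := Submodule.mem_map.1 hζ
  obtain ⟨F₀, hF₀, hmF⟩ := st_Nalg_mem_NF S hm
  refine ⟨F₀, hF₀, fun F hsub hF n hn h => ?_⟩
  refine lt_of_le_of_lt (st_four_best S hF hx hn h (st_NF_mono S hsub hmF)) ?_
  rw [dist_eq_norm] at hd
  exact hd

/-- Packaged.  For `x = x* ∈ M` there is a SEQUENCE of SELF-ADJOINT elements of `Nalg` converging to `Q x Om` on `Om` (no norm bound!). -/
theorem st_four_seq {x : H →L[ℂ] H} (hx : x ∈ S.M) (hsa : IsSelfAdjoint x) :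
    ∃ n : ℕ → H →L[ℂ] H, (∀ i, n i ∈ S.Nalg) ∧ (∀ i, IsSelfAdjoint (n i)) ∧
      Filter.Tendsto (fun i => n i S.Om) Filter.atTop (nhds (S.QN (x S.Om))) := by
  have h : ∀ i : ℕ, ∃ n, n ∈ S.Nalg ∧ IsSelfAdjoint n ∧ ‖S.QN (x S.Om) - n S.Om‖ < 1 / ((i : ℝ) + 1) := by
    intro i
    obtain ⟨F₀, hF₀, hF⟩ := st_four_tendsto S hx (ε := 1 / ((i : ℝ) + 1)) (by positivity)
    obtain ⟨n, hn, h⟩ := st_four_exists S F₀ hF₀ hx
    exact ⟨n, st_NF_le_Nalg S hF₀ hn, st_four_sa S hF₀ hx hsa hn h, hF F₀ (Finset.Subset.refl _) hF₀ n hn h⟩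
  choose n h1 h2 h3 using h
  refine ⟨n, h1, h2, ?_⟩
  rw [tendsto_iff_norm_sub_tendsto_zero]
  refine squeeze_zero (fun _ => norm_nonneg _) (fun i => ?_) tendsto_one_div_add_atTop_nhds_zero_nat
  rw [norm_sub_rev]
  exact (h3 i).le

end Claimed.Agent.R302
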