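/-
Row 302, package ST, file ENQ (the projection Q, structure of NN and Mo): the conditional expectation `E_N` WITHOUT Takesaki's theorem / modular theory / commutation theorem, bounded approximation of `N`
by `Nalg` (D6), the bimodule `Mo`, and the FINAL EXPORT `st_decomp`.
LEAVES: ST-EN-abs (abstract operator lemmas `st_res_conv`, `st_cfc_agree`, `st_ghat_*`), ST-EN-L2N (the projection `Q`), ST-EN-main (`st_EN_sa`), ST-EN-prop (properties, `st_decomp`).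

Proof of `st_EN_sa` (x = x* ∈ M; by scaling `‖x‖ ≤ 1/2`; `c := ‖x‖`; `g t := t/(1+t²)`; `T := Q x Q`).
 1. `n_i ∈ Nalg` self-adjoint with `n_i Om → Q x Om` (`st_four_seq`).  For `m ∈ Nalg`:  `n_i m Om = rmul m (n_i Om) → rmul m (Q x Om) = Q (rmul m) x Om = Q x m Om = T (m Om)`.
    So `n_i → T` pointwise on the dense subset `Nalg Om` of `K := L2N`; `T` is bounded self-adjoint, `T K ⊆ K`.
 2. `st_res_conv`:  `g(n_i) ξ → g(T) ξ` for `ξ ∈ K`  (resolvent identity `(n_i - i)⁻¹ - (T - i)⁻¹ = (n_i - i)⁻¹ (T - n_i) (T - i)⁻¹`, `‖(n_i - i)⁻¹‖ ≤ 1`,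
    `(T - i)⁻¹ K ⊆ K`, `(T-i)(Nalg Om)` dense in `K`;  `g = ((t-i)⁻¹ + (t+i)⁻¹)/2`).
 3. `g(n_i) ∈ M`, `‖g(n_i)‖ ≤ 1/2`, convergent on `Om ∈ K`: `st_strong_lim` gives `Y ∈ M`, `g(n_i) → Y` strongly, `Y = Y*`, `Y ξ = g(T) ξ` on `K`.
 4. `ghat c` continuous, `|ghat c| ≤ c`, `ghat c (g t) = t` for `|t| ≤ c ≤ 1/2`.   `b := cfc (ghat c) Y ∈ M`, `‖b‖ ≤ c`,
    `b ξ = cfc (ghat c) (g(T)) ξ = T ξ` on `K` (`st_cfc_agree`, `cfc_comp`, `spectrum T ⊆ [-c,c]`).  So `b K ⊆ K`, `b Om = Q x Om`, `b ∈ NN`.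
 5. `b_i := cfc (ghat c ∘ g) n_i`, `‖b_i‖ ≤ c`, `b_i → b` strongly (cfc is strongly continuous on bounded sets: polynomials + Weierstrass);
    `b_i` is a norm limit of real polynomials in `n_i`, which lie in `Nalg`; rescale to keep the norm `≤ c`.
-/
import Claimed.Agent.R302.ST.Fourier
import Claimed.Agent.R302.ST.ENAbs

set_option autoImplicit false

namespace Claimed.Agent.R302

open scoped InnerProductSpace

variable {H : Type*} [NormedAddCommGroup H] [InnerProductSpace ℂ H] [CompleteSpace H]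
variable (S : StData H)

/-! ### auxiliary -/

theorem st_en_abs_le_of_mem_spectrum (T : H →L[ℂ] H) (t : ℝ) (ht : t ∈ spectrum ℝ T) : |t| ≤ ‖T‖ := by
  have h := spectrum.norm_le_norm_mul_of_mem ht
  have h1 : ‖(1 : H →L[ℂ] H)‖ ≤ 1 := ContinuousLinearMap.norm_id_le
  calc |t| = ‖t‖ := (Real.norm_eq_abs t).symm
    _ ≤ ‖T‖ * ‖(1 : H →L[ℂ] H)‖ := h
    _ ≤ ‖T‖ * 1 := by gcongr
    _ = ‖T‖ := mul_one _

omit [CompleteSpace H] in
theorem st_q_mul_apply (a b : H →L[ℂ] H) (ξ : H) : (a * b) ξ = a (b ξ) := rfl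

theorem st_q_L2N_closed : IsClosed (S.L2N : Set H) := Submodule.isClosed_topologicalClosure _

theorem st_q_L2N_coe : (S.L2N : Set H) = closure {ζ | ∃ n ∈ S.Nalg, ζ = n S.Om} := by
  unfold StData.L2N
  rw [Submodule.topologicalClosure_coe]
  congr 1
  ext ζ
  simp only [Submodule.map_coe, Set.mem_image, SetLike.mem_coe, Set.mem_ofPred_eq]
  constructor
  · rintro ⟨n, hn, rfl⟩; exact ⟨n, hn, rfl⟩
  · rintro ⟨n, hn, rfl⟩; exact ⟨n, hn, rfl⟩

/-! ### the projection `Q` -/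

theorem st_Nalg_Om_mem {n : H →L[ℂ] H} (hn : n ∈ S.Nalg) : n S.Om ∈ S.L2N := by
  have : n S.Om ∈ (S.L2N : Set H) := by
    rw [st_q_L2N_coe]; exact subset_closure ⟨n, hn, rfl⟩
  exact this

theorem st_Om_mem_L2N : S.Om ∈ S.L2N := by
  have := st_Nalg_Om_mem S (st_A_le_Nalg S S.A.one_mem)
  simpa using this

theorem st_Nalg_Om_dense {ξ : H} (hξ : ξ ∈ S.L2N) {ε : ℝ} (hε : 0 < ε) : ∃ n ∈ S.Nalg, ‖ξ - n S.Om‖ < ε := by
  have h : ξ ∈ closure {ζ | ∃ n ∈ S.Nalg, ζ = n S.Om} := by rw [← st_q_L2N_coe]; exact hξ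
  obtain ⟨ζ, ⟨n, hn, rfl⟩, hd⟩ := Metric.mem_closure_iff.1 h ε hε
  exact ⟨n, hn, by rwa [dist_eq_norm] at hd⟩

/-- a bounded operator mapping `Nalg Om` into `L²(N)` leaves `L²(N)` invariant -/
theorem st_q_invariant (T : H →L[ℂ] H) (h : ∀ n ∈ S.Nalg, T (n S.Om) ∈ S.L2N) {ξ : H} (hξ : ξ ∈ S.L2N) :
    T ξ ∈ S.L2N := by
  have h1 : ξ ∈ closure {ζ | ∃ n ∈ S.Nalg, ζ = n S.Om} := by rw [← st_q_L2N_coe]; exact hξ
  have h2 : T ξ ∈ closure (S.L2N : Set H) :=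
    map_mem_closure T.continuous h1 (by rintro ζ ⟨n, hn, rfl⟩; exact h n hn)
  rwa [(st_q_L2N_closed S).closure_eq] at h2

theorem st_Nalg_L2N {n : H →L[ℂ] H} (hn : n ∈ S.Nalg) {ξ : H} (hξ : ξ ∈ S.L2N) : n ξ ∈ S.L2N :=
  st_q_invariant S n (fun _ hm => st_Nalg_Om_mem S (st_Nalg_mul S hn hm)) hξ

theorem st_rmul_L2N {n : H →L[ℂ] H} (hn : n ∈ S.Nalg) {ξ : H} (hξ : ξ ∈ S.L2N) : S.rmul n ξ ∈ S.L2N := by
  refine st_q_invariant S (S.rmul n) (fun m hm => ?_) hξ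
  rw [st_rmul_spec S (st_rbdd_Nalg S hn) (st_Nalg_le_M S hm)]
  exact st_Nalg_Om_mem S (st_Nalg_mul S hm hn)

theorem st_QN_proj : IsStarProjection S.QN := isStarProjection_starProjection

theorem st_QN_mem (ξ : H) : S.QN ξ ∈ S.L2N := Submodule.starProjection_apply_mem _ _

theorem st_QN_of_mem {ξ : H} (hξ : ξ ∈ S.L2N) : S.QN ξ = ξ := Submodule.starProjection_eq_self_iff.2 hξ

/-- `Q` commutes with every operator which, together with its adjoint, leaves `L²(N)` invariant. -/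
theorem st_q_commute {T : H →L[ℂ] H} (h : ∀ ξ ∈ S.L2N, T ξ ∈ S.L2N) (h' : ∀ ξ ∈ S.L2N, star T ξ ∈ S.L2N) :
    Commute S.QN T := by
  have hQ : star S.QN = S.QN := (st_QN_proj S).isSelfAdjoint.star_eq
  have e1 : S.QN * T * S.QN = T * S.QN := by
    ext ξ
    simp only [st_q_mul_apply]
    exact st_QN_of_mem S (h _ (st_QN_mem S ξ))
  have e2 : S.QN * star T * S.QN = star T * S.QN := by
    ext ξ
    simp only [st_q_mul_apply]
    exact st_QN_of_mem S (h' _ (st_QN_mem S ξ))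
  have e3 : S.QN * T * S.QN = S.QN * T := by
    have := congrArg star e2
    simpa [star_mul, hQ, mul_assoc] using this
  show S.QN * T = T * S.QN
  rw [← e3, e1]

theorem st_QN_comm_Nalg {n : H →L[ℂ] H} (hn : n ∈ S.Nalg) : Commute S.QN n :=
  st_q_commute S (fun _ hξ => st_Nalg_L2N S hn hξ) (fun _ hξ => st_Nalg_L2N S (st_Nalg_star S hn) hξ)

theorem st_QN_comm_rmul {n : H →L[ℂ] H} (hn : n ∈ S.Nalg) : Commute S.QN (S.rmul n) := by
  obtain ⟨n', hn', h⟩ := st_rmul_Nalg_star S hn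
  exact st_q_commute S (fun _ hξ => st_rmul_L2N S hn hξ) (fun _ hξ => by rw [h]; exact st_rmul_L2N S hn' hξ)

theorem st_NN_iff {b : H →L[ℂ] H} : b ∈ S.NN ↔ b ∈ S.M ∧ Commute S.QN b := by
  constructor
  · rintro ⟨hM, h, h'⟩
    exact ⟨hM, st_q_commute S h h'⟩
  · rintro ⟨hM, hc⟩
    have hQ : star S.QN = S.QN := (st_QN_proj S).isSelfAdjoint.star_eq
    have hc' : Commute S.QN (star b) := by
      have := hc.star_star
      rwa [hQ] at this
    refine ⟨hM, fun ξ hξ => ?_, fun ξ hξ => ?_⟩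
    · have : b ξ = S.QN (b ξ) := by
        have e := congrArg (fun T : H →L[ℂ] H => T ξ) hc.eq
        simp only [st_q_mul_apply, st_QN_of_mem S hξ] at e
        exact e.symm
      rw [this]; exact st_QN_mem S _
    · have : star b ξ = S.QN (star b ξ) := by
        have e := congrArg (fun T : H →L[ℂ] H => T ξ) hc'.eq
        simp only [st_q_mul_apply, st_QN_of_mem S hξ] at e
        exact e.symm
      rw [this]; exact st_QN_mem S _

theorem st_Mo_iff {w : H →L[ℂ] H} : w ∈ S.Mo ↔ w ∈ S.M ∧ S.QN (w S.Om) = 0 := by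
  have key : S.QN (w S.Om) = 0 ↔ ∀ n ∈ S.Nalg, S.phi (star n * w) = 0 := by
    unfold StData.QN
    rw [Submodule.starProjection_apply_eq_zero_iff]
    unfold StData.L2N
    rw [Submodule.orthogonal_closure, Submodule.mem_orthogonal]
    constructor
    · intro h n hn
      rw [st_phi_star_mul]
      exact h _ (Submodule.mem_map_of_mem hn)
    · intro h u hu
      obtain ⟨n, hn, rfl⟩ := Submodule.mem_map.1 hu
      have := h n hn
      rw [st_phi_star_mul] at this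
      exact this
  constructor
  · rintro ⟨hM, h⟩; exact ⟨hM, key.2 h⟩
  · rintro ⟨hM, h⟩; exact ⟨hM, key.1 h⟩

/-- `w ∈ Mo ⟹ Q w Q = 0` -/
theorem st_Mo_QwQ {w : H →L[ℂ] H} (hw : w ∈ S.Mo) : S.QN * w * S.QN = 0 := by
  obtain ⟨hM, h0⟩ := (st_Mo_iff S).1 hw
  have h1 : ∀ ζ ∈ (S.L2N : Set H), (S.QN * w) ζ = 0 := by
    rw [st_q_L2N_coe]
    intro ζ hζ
    have hcl : IsClosed {ζ : H | (S.QN * w) ζ = 0} := isClosed_eq (S.QN * w).continuous continuous_const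
    refine closure_minimal ?_ hcl hζ
    rintro _ ⟨m, hm, rfl⟩
    show S.QN (w (m S.Om)) = 0
    rw [← st_rmul_spec S (st_rbdd_Nalg S hm) hM]
    have e := congrArg (fun T : H →L[ℂ] H => T (w S.Om)) (st_QN_comm_rmul S hm).eq
    simp only [st_q_mul_apply] at e
    rw [e, h0, map_zero]
  ext ξ
  exact h1 _ (st_QN_mem S ξ)

theorem st_Nalg_le_NN {n : H →L[ℂ] H} (hn : n ∈ S.Nalg) : n ∈ S.NN :=
  ⟨st_Nalg_le_M S hn, fun _ hξ => st_Nalg_L2N S hn hξ, fun _ hξ => st_Nalg_L2N S (st_Nalg_star S hn) hξ⟩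

/-- every groupoid normaliser (no RN bound) maps `Om` into `L²(N)`: `e_j v ∈ GNb ⊆ Nalg`, `e_j v Om → v Om` (`st_RN_exhaust`). -/
theorem st_GN_Om_mem {v : H →L[ℂ] H} (hv : S.IsGN v) : v S.Om ∈ S.L2N := by
  have h : v S.Om ∈ closure (S.L2N : Set H) := by
    rw [Metric.mem_closure_iff]
    intro ε hε
    obtain ⟨e, -, hb, hlt⟩ := st_RN_exhaust S hv S.Om hε
    refine ⟨(e * v) S.Om, st_Nalg_Om_mem S (st_GNb_mem_Nalg S hb), ?_⟩
    rw [dist_eq_norm, ← sub_apply]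
    exact hlt
  rwa [(st_q_L2N_closed S).closure_eq] at h

theorem st_q_GN_invariant {v : H →L[ℂ] H} (hv : S.IsGN v) {ξ : H} (hξ : ξ ∈ S.L2N) : v ξ ∈ S.L2N := by
  refine st_q_invariant S v (fun n hn => ?_) hξ
  obtain ⟨D, a, u, ha, hu, rfl⟩ := st_Nalg_repr S hn
  have : v ((∑ k, a k * u k) S.Om) = ∑ k, (v * a k * star v) ((v * u k) S.Om) := by
    rw [sum_apply, map_sum]
    refine Finset.sum_congr rfl (fun k _ => ?_)
    have e := st_GN_intertwine' S hv (ha k)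
    calc v ((a k * u k) S.Om) = (v * a k) (u k S.Om) := rfl
      _ = ((v * a k * star v) * v) (u k S.Om) := by rw [← e]
      _ = (v * a k * star v) ((v * u k) S.Om) := rfl
  rw [this]
  refine S.L2N.sum_mem (fun k _ => ?_)
  exact st_Nalg_L2N S (st_A_le_Nalg S (hv.conj _ (ha k))) (st_GN_Om_mem S (st_GN_mul S hv (st_sym_GN S (hu k))))

/-- every groupoid normaliser lies in `N`: `v (a u) Om = (v a v*) (v u) Om`, `v u` is a groupoid normaliser. -/
theorem st_GN_mem_NN {v : H →L[ℂ] H} (hv : S.IsGN v) : v ∈ S.NN :=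
  ⟨hv.mem, fun _ hξ => st_q_GN_invariant S hv hξ, fun _ hξ => st_q_GN_invariant S (st_GN_star S hv) hξ⟩

/-! ### algebraic structure of `NN` and `Mo` -/

theorem st_NN_add {b c : H →L[ℂ] H} (hb : b ∈ S.NN) (hc : c ∈ S.NN) : b + c ∈ S.NN := by
  refine ⟨S.M.add_mem hb.1 hc.1, fun ξ hξ => ?_, fun ξ hξ => ?_⟩
  · rw [add_apply]; exact S.L2N.add_mem (hb.2.1 ξ hξ) (hc.2.1 ξ hξ)
  · rw [star_add, add_apply]; exact S.L2N.add_mem (hb.2.2 ξ hξ) (hc.2.2 ξ hξ)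

theorem st_NN_smul (t : ℂ) {b : H →L[ℂ] H} (hb : b ∈ S.NN) : t • b ∈ S.NN := by
  refine ⟨S.M.smul_mem hb.1 t, fun ξ hξ => ?_, fun ξ hξ => ?_⟩
  · rw [smul_apply]; exact S.L2N.smul_mem _ (hb.2.1 ξ hξ)
  · rw [star_smul, smul_apply]; exact S.L2N.smul_mem _ (hb.2.2 ξ hξ)

theorem st_NN_mul {b c : H →L[ℂ] H} (hb : b ∈ S.NN) (hc : c ∈ S.NN) : b * c ∈ S.NN := by
  refine ⟨S.M.mul_mem hb.1 hc.1, fun ξ hξ => ?_, fun ξ hξ => ?_⟩
  · exact hb.2.1 _ (hc.2.1 ξ hξ)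
  · rw [star_mul]; exact hc.2.2 _ (hb.2.2 ξ hξ)

theorem st_NN_star {b : H →L[ℂ] H} (hb : b ∈ S.NN) : star b ∈ S.NN :=
  ⟨star_mem hb.1, hb.2.2, by rw [star_star]; exact hb.2.1⟩

theorem st_Mo_add {v w : H →L[ℂ] H} (hv : v ∈ S.Mo) (hw : w ∈ S.Mo) : v + w ∈ S.Mo := by
  refine ⟨S.M.add_mem hv.1 hw.1, fun n hn => ?_⟩
  rw [mul_add, st_phi_add, hv.2 n hn, hw.2 n hn, add_zero]

theorem st_Mo_smul (t : ℂ) {w : H →L[ℂ] H} (hw : w ∈ S.Mo) : t • w ∈ S.Mo := by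
  refine ⟨S.M.smul_mem hw.1 t, fun n hn => ?_⟩
  rw [mul_smul_comm, st_phi_smul, hw.2 n hn, mul_zero]

theorem st_Mo_star {w : H →L[ℂ] H} (hw : w ∈ S.Mo) : star w ∈ S.Mo := by
  rw [st_Mo_iff]
  refine ⟨star_mem hw.1, ?_⟩
  have hQ : star S.QN = S.QN := (st_QN_proj S).isSelfAdjoint.star_eq
  have h := congrArg star (st_Mo_QwQ S hw)
  rw [star_mul, star_mul, hQ, star_zero, ← mul_assoc] at h
  have e := congrArg (fun T : H →L[ℂ] H => T S.Om) h
  simp only [st_q_mul_apply, st_QN_of_mem S (st_Om_mem_L2N S)] at e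
  simpa using e

theorem st_Mo_bimod {b c w : H →L[ℂ] H} (hb : b ∈ S.NN) (hc : c ∈ S.NN) (hw : w ∈ S.Mo) : b * w * c ∈ S.Mo := by
  rw [st_Mo_iff]
  refine ⟨S.M.mul_mem (S.M.mul_mem hb.1 hw.1) hc.1, ?_⟩
  have hcb := ((st_NN_iff S).1 hb).2
  have hcOm : c S.Om ∈ S.L2N := hc.2.1 _ (st_Om_mem_L2N S)
  have e1 : S.QN (w (c S.Om)) = 0 := by
    have e := congrArg (fun T : H →L[ℂ] H => T (c S.Om)) (st_Mo_QwQ S hw)
    simp only [st_q_mul_apply, st_QN_of_mem S hcOm] at e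
    simpa using e
  have e2 := congrArg (fun T : H →L[ℂ] H => T (w (c S.Om))) hcb.eq
  simp only [st_q_mul_apply] at e2
  show S.QN (b (w (c S.Om))) = 0
  rw [e2, e1, map_zero]

theorem st_NN_inter_Mo {b : H →L[ℂ] H} (hb : b ∈ S.NN) (hb' : b ∈ S.Mo) : b = 0 := by
  have h := ((st_Mo_iff S).1 hb').2
  rw [st_QN_of_mem S (hb.2.1 _ (st_Om_mem_L2N S))] at h
  exact S.sep b hb.1 h

theorem st_EA_Mo {w : H →L[ℂ] H} (hw : w ∈ S.Mo) : S.EA w = 0 := by
  refine st_EA_eq S hw.1 S.A.zero_mem (fun a ha => ?_)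
  rw [zero_mul, ← st_phi_central S ha hw.1]
  have := hw.2 (star a) (st_A_le_Nalg S (star_mem ha))
  rw [star_star] at this
  rw [this]
  simp [StData.phi]

/-! ### the restriction to `L²(N)` is isometric -/

theorem st_q_norm_pos {c : H →L[ℂ] H} (hc : c ∈ S.NN) (h0 : 0 ≤ c) : ‖c‖ ≤ ‖S.QN * c * S.QN‖ := by
  set c' : H →L[ℂ] H := S.QN * c * S.QN with hc'
  set t0 : ℝ := ‖c'‖ with ht0
  have hQ : star S.QN = S.QN := (st_QN_proj S).isSelfAdjoint.star_eq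
  have hcsa : IsSelfAdjoint c := IsSelfAdjoint.of_nonneg h0
  have hc'sa : IsSelfAdjoint c' := by
    rw [IsSelfAdjoint, hc', star_mul, star_mul, hQ, hcsa.star_eq, mul_assoc]
  have hK' : ∀ ξ ∈ S.L2N, c' ξ ∈ S.L2N := fun ξ _ => st_QN_mem S _
  have hag : ∀ ξ ∈ S.L2N, c ξ = c' ξ := fun ξ hξ => by
    show c ξ = S.QN (c (S.QN ξ))
    rw [st_QN_of_mem S hξ, st_QN_of_mem S (hc.2.1 ξ hξ)]
  set f : ℝ → ℝ := fun t => max (t - t0) 0 with hf
  have hfc : Continuous f := by fun_prop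
  have h1 := (st_cfc_agree c c' hcsa hc'sa S.L2N (st_q_L2N_closed S) hK' hag f hfc S.Om (st_Om_mem_L2N S)).1
  have h2 : cfc f c' = 0 := by
    have : Set.EqOn f (fun _ => (0 : ℝ)) (spectrum ℝ c') := fun t ht => by
      have := st_en_abs_le_of_mem_spectrum c' t ht
      have h3 : t ≤ t0 := (le_abs_self t).trans this
      simp only [hf]
      exact max_eq_right (by linarith)
    rw [cfc_congr this, cfc_const_zero]
  rw [h2] at h1
  have h3 : cfc f c = 0 := S.sep _ (st_cfc_mem S.M hc.1 hcsa f) (by simpa using h1)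
  have h4 : ∀ t ∈ spectrum ℝ c, ‖id t‖ ≤ t0 := by
    intro t ht
    have hmem : f t ∈ spectrum ℝ (cfc f c) := by
      rw [cfc_map_spectrum f c hcsa hfc.continuousOn]
      exact ⟨t, ht, rfl⟩
    rw [h3] at hmem
    have h5 := st_en_abs_le_of_mem_spectrum (0 : H →L[ℂ] H) _ hmem
    rw [norm_zero] at h5
    have h6 : f t = 0 := abs_nonpos_iff.1 h5
    have h7 : t - t0 ≤ 0 := by
      have := le_max_left (t - t0) 0
      simp only [hf] at h6
      linarith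
    have h8 : 0 ≤ t := spectrum_nonneg_of_nonneg h0 ht
    rw [id, Real.norm_eq_abs, abs_of_nonneg h8]; linarith
  have h5 := norm_cfc_le (f := id) (a := c) (norm_nonneg c') h4
  rwa [cfc_id ℝ c hcsa] at h5

/-- The restriction `N → B(L²(N))` is isometric. -/
theorem st_NN_norm {b : H →L[ℂ] H} (hb : b ∈ S.NN) : ‖b‖ = ‖S.QN * b * S.QN‖ := by
  have hQ : star S.QN = S.QN := (st_QN_proj S).isSelfAdjoint.star_eq
  have hQQ : S.QN * S.QN = S.QN := (st_QN_proj S).isIdempotentElem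
  have hQn : ‖S.QN‖ ≤ 1 := Submodule.starProjection_norm_le _
  refine le_antisymm ?_ ?_
  · have hc : star b * b ∈ S.NN := st_NN_mul S (st_NN_star S hb) hb
    have h1 := st_q_norm_pos S hc (star_mul_self_nonneg b)
    have hcb := ((st_NN_iff S).1 hb).2
    have e : S.QN * (star b * b) * S.QN = star (S.QN * b * S.QN) * (S.QN * b * S.QN) := by
      rw [star_mul, star_mul, hQ]
      have e1 : S.QN * b * S.QN = b * S.QN := by rw [hcb.eq, mul_assoc, hQQ]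
      symm
      calc S.QN * (star b * S.QN) * (S.QN * b * S.QN) = S.QN * (star b * S.QN) * (b * S.QN) := by rw [e1]
        _ = S.QN * star b * (S.QN * b) * S.QN := by simp only [mul_assoc]
        _ = S.QN * star b * (b * S.QN) * S.QN := by rw [hcb.eq]
        _ = S.QN * star b * b * (S.QN * S.QN) := by simp only [mul_assoc]
        _ = S.QN * star b * b * S.QN := by rw [hQQ]
        _ = S.QN * (star b * b) * S.QN := by simp only [mul_assoc]
    rw [e, CStarRing.norm_star_mul_self, CStarRing.norm_star_mul_self] at h1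
    exact (mul_self_le_mul_self_iff (norm_nonneg _) (norm_nonneg _)).2 h1
  · calc ‖S.QN * b * S.QN‖ ≤ ‖S.QN * b‖ * ‖S.QN‖ := norm_mul_le _ _
      _ ≤ (‖S.QN‖ * ‖b‖) * ‖S.QN‖ := by gcongr; exact norm_mul_le _ _
      _ ≤ (1 * ‖b‖) * 1 := by gcongr
      _ = ‖b‖ := by ring

end Claimed.Agent.R302
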