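/-
Row 302, package ST, file EN: the conditional expectation `E_N` WITHOUT Takesaki's theorem / modular theory / commutation theorem, bounded approximation of `N`
by `Nalg` (D6), the bimodule `Mo`, and the FINAL EXPORT `st_decomp`.
LEAVES: ST-EN-abs (abstract operator lemmas `st_res_conv`, `st_cfc_agree`, `st_ghat_*`), ST-EN-L2N (the projection `Q`), ST-EN-main (`st_EN_sa`), ST-EN-prop (properties, `st_decomp`).

Proof of `st_EN_sa` (x = x* ∈ M; by scaling `‖x‖ ≤ 1/2`; `c := ‖x‖`; `g t := t/(1+t²)`; `T := Q x Q`).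
 1. `n_i ∈ Nalg` self-adjoint with `n_i Om → Q x Om` (`st_four_seq`).  For `m ∈ Nalg`:  `n_i m Om = rmul m (n_i Om) → rmul m (Q x Om) = Q (rmul m) x Om = Q x m Om = T (m Om)`.
    So `n_i → T` pointwise on the dense subset `Nalg Om` of `K := L2N`; `T` is bounded self-adjoint, `T K ⊆ K`.
 2. `st_res_conv`:  `g(n_i) ξ → g(T) ξ` for `ξ ∈ K`  (resolvent identity `(n_i - i)⁻¹ - (T - i)⁻¹ = (n_i - i)⁻¹ (T - n_i) (T - i)⁻¹`, `‖(n_i - i)⁻¹‖ ≤ 1`,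
    `(T - i)⁻¹ K ⊆ K`, `(T-i)(Nalg Om)` dense in `K`;  `g = ((t-i)⁻¹ + (t+i)⁻¹)/2`).
 3. `g(n_i) ∈ M`, `‖g(n_i)‖ ≤ 1/2`, convergent on `Om ∈ K`: `st_strong_lim` gives `Y ∈ M`, `g(n_i) → Y` strongly, `Y = Y*`, `Y ξ = g(T) ξ` on `K`.
 4. `ghat c` continuous, `|ghat c| ≤ c`, `ghat c (g t) = t` for `|t| ≤ c ≤ 1/2`.   `b := cfc (ghat c) Y ∈ M`, `‖b‖ ≤ c`,
    `b ξ = cfc (ghat c) (g(T)) ξ = T ξ` on `K` (`st_cfc_agree`, `cfc_comp`, `spectrum T ⊆ [-c,c]`).  So `b K ⊆ K`, `b Om = Q x Om`, `b ∈ NN`.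
 5. `b_i := cfc (ghat c ∘ g) n_i`, `‖b_i‖ ≤ c`, `b_i → b` strongly (cfc is strongly continuous on bounded sets: polynomials + Weierstrass);
    `b_i` is a norm limit of real polynomials in `n_i`, which lie in `Nalg`; rescale to keep the norm `≤ c`.
-/
import Claimed.Agent.R302.ST.ENQ
import Claimed.Agent.R302.ST.ENAbs

set_option autoImplicit false

namespace Claimed.Agent.R302

open scoped InnerProductSpace

variable {H : Type*} [NormedAddCommGroup H] [InnerProductSpace ℂ H] [CompleteSpace H]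
variable (S : StData H)

/-! ### auxiliary lemmas -/

/-- a strong limit of self-adjoint operators is self-adjoint -/
theorem st_en_sa_of_tendsto {ι : Type*} (l : Filter ι) [l.NeBot] (T : ι → H →L[ℂ] H) (Y : H →L[ℂ] H)
    (hT : ∀ i, IsSelfAdjoint (T i)) (h : ∀ ξ, Filter.Tendsto (fun i => T i ξ) l (nhds (Y ξ))) :
    IsSelfAdjoint Y := by
  rw [ContinuousLinearMap.isSelfAdjoint_iff_isSymmetric]
  intro ξ ζ
  have h1 : Filter.Tendsto (fun i => ⟪T i ξ, ζ⟫_ℂ) l (nhds ⟪Y ξ, ζ⟫_ℂ) :=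
    (h ξ).inner tendsto_const_nhds
  have h2 : Filter.Tendsto (fun i => ⟪ξ, T i ζ⟫_ℂ) l (nhds ⟪ξ, Y ζ⟫_ℂ) :=
    tendsto_const_nhds.inner (h ζ)
  have h3 : (fun i => ⟪T i ξ, ζ⟫_ℂ) = fun i => ⟪ξ, T i ζ⟫_ℂ := by
    funext i
    exact (ContinuousLinearMap.isSelfAdjoint_iff_isSymmetric.1 (hT i)) ξ ζ
  rw [h3] at h1
  exact tendsto_nhds_unique h1 h2

/-- `Nalg` as a subalgebra -/
def StData.NalgSub : Subalgebra ℂ (H →L[ℂ] H) where
  carrier := S.Nalg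
  mul_mem' := fun ha hb => st_Nalg_mul S ha hb
  add_mem' := fun ha hb => S.Nalg.add_mem ha hb
  algebraMap_mem' := fun r => st_A_le_Nalg S (S.A.algebraMap_mem r)

theorem st_en_QN_sa : IsSelfAdjoint S.QN := (st_QN_proj S).isSelfAdjoint

theorem st_en_QN_norm_le : ‖S.QN‖ ≤ 1 := by
  unfold StData.QN
  exact Submodule.starProjection_norm_le _

theorem st_en_T_sa {x : H →L[ℂ] H} (hsa : IsSelfAdjoint x) : IsSelfAdjoint (S.QN * x * S.QN) := by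
  have hQ := st_en_QN_sa S
  rw [IsSelfAdjoint, star_mul, star_mul, hQ.star_eq, hsa.star_eq, mul_assoc]

theorem st_en_T_norm_le (x : H →L[ℂ] H) : ‖S.QN * x * S.QN‖ ≤ ‖x‖ := by
  have hQ := st_en_QN_norm_le S
  calc ‖S.QN * x * S.QN‖ ≤ ‖S.QN * x‖ * ‖S.QN‖ := norm_mul_le _ _
    _ ≤ (‖S.QN‖ * ‖x‖) * ‖S.QN‖ := by gcongr; exact norm_mul_le _ _
    _ ≤ (1 * ‖x‖) * 1 := by gcongr
    _ = ‖x‖ := by ring

/-- pointwise convergence of the Fourier approximants on `Nalg Om` -/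
theorem st_en_pointwise {x : H →L[ℂ] H} (hx : x ∈ S.M) (n : ℕ → H →L[ℂ] H) (hn : ∀ i, n i ∈ S.Nalg)
    (hlim : Filter.Tendsto (fun i => n i S.Om) Filter.atTop (nhds (S.QN (x S.Om))))
    {m : H →L[ℂ] H} (hm : m ∈ S.Nalg) :
    Filter.Tendsto (fun i => n i (m S.Om)) Filter.atTop (nhds ((S.QN * x * S.QN) (m S.Om))) := by
  have hb := st_rbdd_Nalg S hm
  have h1 : ∀ i, n i (m S.Om) = S.rmul m (n i S.Om) := fun i =>
    (st_rmul_spec S hb (st_Nalg_le_M S (hn i))).symm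
  have h2 : (S.QN * x * S.QN) (m S.Om) = S.rmul m (S.QN (x S.Om)) := by
    have hc := st_QN_comm_rmul S hm
    have e1 : S.QN (m S.Om) = m S.Om := st_QN_of_mem S (st_Nalg_Om_mem S hm)
    have e2 : S.rmul m (S.QN (x S.Om)) = S.QN (S.rmul m (x S.Om)) := by
      have := congrArg (fun T : H →L[ℂ] H => T (x S.Om)) hc.eq
      simpa using this.symm
    rw [e2, st_rmul_spec S hb hx]
    simp [e1]
  simp_rw [h1]
  rw [h2]
  exact ((S.rmul m).continuous.tendsto _).comp hlim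


/-- core of `st_EN_sa`: the case `‖x‖ ≤ 1`. -/
theorem st_en_core {x : H →L[ℂ] H} (hx : x ∈ S.M) (hsa : IsSelfAdjoint x) (h1 : ‖x‖ ≤ 1) :
    ∃ b ∈ S.NN, IsSelfAdjoint b ∧ ‖b‖ ≤ ‖x‖ ∧ b S.Om = S.QN (x S.Om) ∧
      ∀ δ : ℝ, 0 < δ → ∃ n ∈ S.Nalg, IsSelfAdjoint n ∧ ‖n‖ ≤ ‖x‖ ∧ ‖(b - n) S.Om‖ < δ := by
  obtain ⟨n, hnN, hnsa, hnlim⟩ := st_four_seq S hx hsa
  set c : ℝ := ‖x‖ with hc
  have hc0 : 0 ≤ c := norm_nonneg _
  set T : H →L[ℂ] H := S.QN * x * S.QN with hT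
  have hTsa : IsSelfAdjoint T := st_en_T_sa S hsa
  have hTn : ‖T‖ ≤ c := st_en_T_norm_le S x
  have hKc : IsClosed (S.L2N : Set H) := Submodule.isClosed_topologicalClosure _
  have hTK : ∀ ξ ∈ S.L2N, T ξ ∈ S.L2N := fun ξ _ => by
    show S.QN (x (S.QN ξ)) ∈ S.L2N
    exact st_QN_mem S _
  -- step 2: strong resolvent convergence on K
  have hres := st_res_conv Filter.atTop n T hnsa hTsa S.L2N hKc hTK
    {ζ | ∃ m ∈ S.Nalg, ζ = m S.Om}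
    (by rintro ζ ⟨m, hm, rfl⟩; exact st_Nalg_Om_mem S hm)
    (by
      intro ξ hξ ε hε
      obtain ⟨m, hm, h⟩ := st_Nalg_Om_dense S hξ hε
      exact ⟨m S.Om, ⟨m, hm, rfl⟩, h⟩)
    (by rintro ζ ⟨m, hm, rfl⟩; exact st_en_pointwise S hx n hnN hnlim hm)
  -- step 3: the strong limit Y
  have hgM : ∀ i, cfc stG (n i) ∈ S.M := fun i => st_cfc_mem S.M (st_Nalg_le_M S (hnN i)) (hnsa i) stG
  have hgn : ∀ a : H →L[ℂ] H, ‖cfc stG a‖ ≤ 1 / 2 := fun a =>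
    norm_cfc_le (by norm_num) (fun t _ => by rw [Real.norm_eq_abs]; exact st_G_abs_le t)
  obtain ⟨Y, hYM, hYn, hYOm, hYlim⟩ := st_strong_lim S Filter.atTop (fun i => cfc stG (n i)) (1 / 2) hgM
    (fun i => hgn _) (cfc stG T S.Om) (hres S.Om (st_Om_mem_L2N S))
  have hYsa : IsSelfAdjoint Y :=
    st_en_sa_of_tendsto Filter.atTop (fun i => cfc stG (n i)) Y (fun i => IsSelfAdjoint.cfc) hYlim
  have hYK : ∀ ξ ∈ S.L2N, Y ξ = cfc stG T ξ := fun ξ hξ => tendsto_nhds_unique (hYlim ξ) (hres ξ hξ)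
  -- step 4: b
  have hgTK : ∀ ξ ∈ S.L2N, cfc stG T ξ ∈ S.L2N := fun ξ hξ =>
    (st_cfc_agree T T hTsa hTsa S.L2N hKc hTK (fun _ _ => rfl) stG st_G_continuous ξ hξ).2
  have hagree := st_cfc_agree Y (cfc stG T) hYsa IsSelfAdjoint.cfc S.L2N hKc hgTK hYK (stGhat c)
    (st_Ghat_continuous c)
  have hcomp : cfc (stGhat c) (cfc stG T) = T := by
    rw [← cfc_comp (stGhat c) stG T hTsa (st_Ghat_continuous c).continuousOn st_G_continuous.continuousOn]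
    have : Set.EqOn (stGhat c ∘ stG) id (spectrum ℝ T) := fun t ht =>
      st_Ghat_G h1 ((st_en_abs_le_of_mem_spectrum T t ht).trans hTn)
    rw [cfc_congr this, cfc_id ℝ T hTsa]
  set b : H →L[ℂ] H := cfc (stGhat c) Y with hb
  have hbsa : IsSelfAdjoint b := IsSelfAdjoint.cfc
  have hbM : b ∈ S.M := st_cfc_mem S.M hYM hYsa _
  have hbK : ∀ ξ ∈ S.L2N, b ξ = T ξ := fun ξ hξ => by rw [(hagree ξ hξ).1, hcomp]
  have hbn : ‖b‖ ≤ c := norm_cfc_le hc0 (fun t _ => by rw [Real.norm_eq_abs]; exact st_Ghat_abs_le hc0 t)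
  have hbNN : b ∈ S.NN := by
    refine ⟨hbM, fun ξ hξ => ?_, fun ξ hξ => ?_⟩
    · rw [hbK ξ hξ]; exact hTK ξ hξ
    · rw [hbsa.star_eq, hbK ξ hξ]; exact hTK ξ hξ
  have hbOm : b S.Om = S.QN (x S.Om) := by
    rw [hbK _ (st_Om_mem_L2N S)]
    simp [hT, st_QN_of_mem S (st_Om_mem_L2N S)]
  refine ⟨b, hbNN, hbsa, hbn, hbOm, ?_⟩
  -- step 5: approximants
  intro δ hδ
  have hstrong := st_cfc_strong Filter.atTop (fun i => cfc stG (n i)) Y (1 / 2) (fun i => IsSelfAdjoint.cfc) hYsa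
    (fun i => hgn _) hYlim (stGhat c) (st_Ghat_continuous c) S.Om
  have hev : ∀ᶠ i in Filter.atTop, ‖cfc (stGhat c) (cfc stG (n i)) S.Om - b S.Om‖ < δ / 2 := by
    have := (Metric.tendsto_nhds.1 hstrong) (δ / 2) (by positivity)
    simpa [dist_eq_norm] using this
  obtain ⟨i, hi⟩ := hev.exists
  -- choose ε
  set ε : ℝ := δ / (4 * (‖S.Om‖ + 1)) with hε
  have hε0 : 0 < ε := by positivity
  have hbi : cfc (stGhat c) (cfc stG (n i)) = cfc (stGhat c ∘ stG) (n i) :=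
    (cfc_comp (stGhat c) stG (n i) (hnsa i) (st_Ghat_continuous c).continuousOn
      st_G_continuous.continuousOn).symm
  obtain ⟨m, hmN, hmsa, hm⟩ := st_cfc_approx S.NalgSub (n := n i) (hnN i) (hnsa i) (stGhat c ∘ stG)
    ((st_Ghat_continuous c).comp st_G_continuous) hε0
  set bi : H →L[ℂ] H := cfc (stGhat c ∘ stG) (n i) with hbi'
  have hbin : ‖bi‖ ≤ c :=
    norm_cfc_le hc0 (fun t _ => by rw [Real.norm_eq_abs]; exact st_Ghat_abs_le hc0 _)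
  have hmn : ‖m‖ ≤ c + ε := by
    have : ‖m‖ ≤ ‖bi‖ + ‖bi - m‖ := by
      have := norm_sub_le bi (bi - m)
      simpa using this
    linarith
  set s : ℝ := c / (c + ε) with hs
  have hcε : 0 < c + ε := by positivity
  have hs0 : 0 ≤ s := by positivity
  have hs1 : s ≤ 1 := by rw [hs, div_le_one hcε]; linarith
  refine ⟨(s : ℂ) • m, S.Nalg.smul_mem _ hmN, ?_, ?_, ?_⟩
  · rw [IsSelfAdjoint, star_smul, hmsa.star_eq]; simp
  · rw [norm_smul, Complex.norm_real, Real.norm_eq_abs, abs_of_nonneg hs0]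
    calc s * ‖m‖ ≤ s * (c + ε) := by gcongr
      _ = c := by rw [hs]; field_simp
  · have e1 : ‖m - (s : ℂ) • m‖ ≤ ε := by
      have : m - (s : ℂ) • m = ((1 - s : ℝ) : ℂ) • m := by
        push_cast; rw [sub_smul, one_smul]
      rw [this, norm_smul, Complex.norm_real, Real.norm_eq_abs, abs_of_nonneg (by linarith)]
      calc (1 - s) * ‖m‖ ≤ (1 - s) * (c + ε) := by
            have : 0 ≤ 1 - s := by linarith
            gcongr
        _ = ε := by rw [hs]; field_simp; ring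
    have e2 : ‖bi - (s : ℂ) • m‖ ≤ 2 * ε := by
      have : bi - (s : ℂ) • m = (bi - m) + (m - (s : ℂ) • m) := by abel
      rw [this]
      calc ‖(bi - m) + (m - (s : ℂ) • m)‖ ≤ ‖bi - m‖ + ‖m - (s : ℂ) • m‖ := norm_add_le _ _
        _ ≤ 2 * ε := by linarith
    have e3 : ‖(bi - (s : ℂ) • m) S.Om‖ < δ / 2 := by
      calc ‖(bi - (s : ℂ) • m) S.Om‖ ≤ ‖bi - (s : ℂ) • m‖ * ‖S.Om‖ := ContinuousLinearMap.le_opNorm _ _
        _ ≤ 2 * ε * ‖S.Om‖ := by gcongr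
        _ < 2 * ε * (‖S.Om‖ + 1) := by
            have : 0 < 2 * ε := by positivity
            nlinarith
        _ = δ / 2 := by rw [hε]; field_simp; ring
    have e4 : (b - (s : ℂ) • m) S.Om = -(bi S.Om - b S.Om) + (bi - (s : ℂ) • m) S.Om := by
      simp only [sub_apply]; abel
    rw [e4]
    rw [hbi] at hi
    calc ‖-(bi S.Om - b S.Om) + (bi - (s : ℂ) • m) S.Om‖
        ≤ ‖-(bi S.Om - b S.Om)‖ + ‖(bi - (s : ℂ) • m) S.Om‖ := norm_add_le _ _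
      _ < δ / 2 + δ / 2 := by rw [norm_neg]; linarith
      _ = δ := by ring


/-! ### the main theorem -/

/-- `E_N` on self-adjoint elements, with bounded self-adjoint approximants in `Nalg`. -/
theorem st_EN_sa {x : H →L[ℂ] H} (hx : x ∈ S.M) (hsa : IsSelfAdjoint x) :
    ∃ b ∈ S.NN, IsSelfAdjoint b ∧ ‖b‖ ≤ ‖x‖ ∧ b S.Om = S.QN (x S.Om) ∧
      ∀ δ : ℝ, 0 < δ → ∃ n ∈ S.Nalg, IsSelfAdjoint n ∧ ‖n‖ ≤ ‖x‖ ∧ ‖(b - n) S.Om‖ < δ := by
  by_cases h1 : ‖x‖ ≤ 1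
  · exact st_en_core S hx hsa h1
  · rw [not_le] at h1
    set L : ℝ := ‖x‖ with hL
    have hL0 : 0 < L := by linarith
    have hLc : (L : ℂ) ≠ 0 := by exact_mod_cast hL0.ne'
    set x' : H →L[ℂ] H := ((L⁻¹ : ℝ) : ℂ) • x with hx'
    have hx'M : x' ∈ S.M := S.M.smul_mem hx _
    have hx'sa : IsSelfAdjoint x' := by
      rw [IsSelfAdjoint, hx', star_smul, hsa.star_eq]; simp
    have hx'n : ‖x'‖ = 1 := by
      rw [hx', norm_smul, Complex.norm_real, Real.norm_eq_abs, abs_of_pos (inv_pos.2 hL0), ← hL]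
      field_simp
    have hxx' : x = (L : ℂ) • x' := by
      rw [hx', smul_smul]; push_cast; rw [mul_inv_cancel₀ hLc, one_smul]
    obtain ⟨b', hb'N, hb'sa, hb'n, hb'Om, happ⟩ := st_en_core S hx'M hx'sa hx'n.le
    refine ⟨(L : ℂ) • b', st_NN_smul S _ hb'N, ?_, ?_, ?_, ?_⟩
    · rw [IsSelfAdjoint, star_smul, hb'sa.star_eq]; simp
    · rw [norm_smul, Complex.norm_real, Real.norm_eq_abs, abs_of_pos hL0]
      calc L * ‖b'‖ ≤ L * 1 := by rw [hx'n] at hb'n; gcongr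
        _ = L := mul_one _
    · rw [smul_apply, hb'Om]
      conv_rhs => rw [hxx', smul_apply, map_smul]
    · intro δ hδ
      obtain ⟨n', hn'N, hn'sa, hn'n, hn'⟩ := happ (δ / L) (by positivity)
      refine ⟨(L : ℂ) • n', S.Nalg.smul_mem _ hn'N, ?_, ?_, ?_⟩
      · rw [IsSelfAdjoint, star_smul, hn'sa.star_eq]; simp
      · rw [norm_smul, Complex.norm_real, Real.norm_eq_abs, abs_of_pos hL0]
        calc L * ‖n'‖ ≤ L * 1 := by rw [hx'n] at hn'n; gcongr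
          _ = L := mul_one _
      · rw [← smul_sub, smul_apply, norm_smul, Complex.norm_real, Real.norm_eq_abs,
          abs_of_pos hL0]
        calc L * ‖(b' - n') S.Om‖ < L * (δ / L) := by gcongr
          _ = δ := by field_simp

theorem st_en_zero_mem_Mo : (0 : H →L[ℂ] H) ∈ S.Mo := by
  refine ⟨S.M.zero_mem, fun n _ => ?_⟩
  simp [StData.phi]

theorem st_en_Mo_sub {v w : H →L[ℂ] H} (hv : v ∈ S.Mo) (hw : w ∈ S.Mo) : v - w ∈ S.Mo := by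
  have := st_Mo_add S hv (st_Mo_smul S (-1) hw)
  simpa [sub_eq_add_neg] using this

theorem st_en_NN_sub {v w : H →L[ℂ] H} (hv : v ∈ S.NN) (hw : w ∈ S.NN) : v - w ∈ S.NN := by
  have := st_NN_add S hv (st_NN_smul S (-1) hw)
  simpa [sub_eq_add_neg] using this

theorem st_en_NN_Om_mem {b : H →L[ℂ] H} (hb : b ∈ S.NN) : b S.Om ∈ S.L2N := hb.2.1 _ (st_Om_mem_L2N S)

/-- criterion: `b ∈ NN`, `b Om = Q x Om` implies `x - b ∈ Mo`. -/
theorem st_en_sub_mem_Mo {x b : H →L[ℂ] H} (hx : x ∈ S.M) (hb : b ∈ S.NN) (h : b S.Om = S.QN (x S.Om)) :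
    x - b ∈ S.Mo := by
  rw [st_Mo_iff]
  refine ⟨S.M.sub_mem hx hb.1, ?_⟩
  rw [sub_apply, map_sub, h, st_QN_of_mem S (st_QN_mem S _), sub_self]

theorem st_en_re_im (x : H →L[ℂ] H) :
    x = (1 / 2 : ℂ) • (x + star x) + Complex.I • ((-Complex.I / 2 : ℂ) • (x - star x)) := by
  rw [smul_smul]
  have : Complex.I * (-Complex.I / 2) = 1 / 2 := by
    have := Complex.I_mul_I
    linear_combination (-1 / 2 : ℂ) * this
  rw [this, ← smul_add]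
  have : x + star x + (x - star x) = (2 : ℂ) • x := by rw [two_smul]; abel
  rw [this, smul_smul]; norm_num

theorem st_en_re_sa (x : H →L[ℂ] H) : IsSelfAdjoint ((1 / 2 : ℂ) • (x + star x)) := by
  rw [IsSelfAdjoint, star_smul, star_add, star_star, add_comm (star x) x]
  congr 1
  simp

theorem st_en_im_sa (x : H →L[ℂ] H) : IsSelfAdjoint ((-Complex.I / 2 : ℂ) • (x - star x)) := by
  rw [IsSelfAdjoint, star_smul, star_sub, star_star]
  have : star (-Complex.I / 2 : ℂ) = Complex.I / 2 := by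
    simp [Complex.conj_I]
  rw [this, ← neg_sub x (star x), smul_neg, ← neg_smul]
  congr 1
  ring

theorem st_en_re_norm (x : H →L[ℂ] H) : ‖(1 / 2 : ℂ) • (x + star x)‖ ≤ ‖x‖ := by
  rw [norm_smul]
  have : ‖x + star x‖ ≤ ‖x‖ + ‖x‖ := by
    calc ‖x + star x‖ ≤ ‖x‖ + ‖star x‖ := norm_add_le _ _
      _ = ‖x‖ + ‖x‖ := by rw [norm_star]
  have h2 : ‖(1 / 2 : ℂ)‖ = 1 / 2 := by simp
  rw [h2]; linarith

theorem st_en_im_norm (x : H →L[ℂ] H) : ‖(-Complex.I / 2 : ℂ) • (x - star x)‖ ≤ ‖x‖ := by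
  rw [norm_smul]
  have : ‖x - star x‖ ≤ ‖x‖ + ‖x‖ := by
    calc ‖x - star x‖ ≤ ‖x‖ + ‖star x‖ := norm_sub_le _ _
      _ = ‖x‖ + ‖x‖ := by rw [norm_star]
  have h2 : ‖(-Complex.I / 2 : ℂ)‖ = 1 / 2 := by simp
  rw [h2]; linarith

theorem st_en_cartesian (x : H →L[ℂ] H) :
    ∃ x1 x2 : H →L[ℂ] H, IsSelfAdjoint x1 ∧ IsSelfAdjoint x2 ∧ x = x1 + Complex.I • x2 ∧
      star x = x1 - Complex.I • x2 ∧ ‖x1‖ ≤ ‖x‖ ∧ ‖x2‖ ≤ ‖x‖ ∧
      x1 = (1 / 2 : ℂ) • (x + star x) ∧ x2 = (-Complex.I / 2 : ℂ) • (x - star x) := by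
  obtain ⟨x1, h1⟩ : ∃ x1, x1 = (1 / 2 : ℂ) • (x + star x) := ⟨_, rfl⟩
  obtain ⟨x2, h2⟩ : ∃ x2, x2 = (-Complex.I / 2 : ℂ) • (x - star x) := ⟨_, rfl⟩
  have s1 : IsSelfAdjoint x1 := h1 ▸ st_en_re_sa x
  have s2 : IsSelfAdjoint x2 := h2 ▸ st_en_im_sa x
  have e : x = x1 + Complex.I • x2 := by rw [h1, h2]; exact st_en_re_im x
  refine ⟨x1, x2, s1, s2, e, ?_, h1 ▸ st_en_re_norm x, h2 ▸ st_en_im_norm x, h1, h2⟩
  conv_lhs => rw [e]
  rw [star_add, star_smul, s1.star_eq, s2.star_eq, Complex.star_def, Complex.conj_I, neg_smul, sub_eq_add_neg]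

theorem st_EN_exists {x : H →L[ℂ] H} (hx : x ∈ S.M) : ∃ b, b ∈ S.NN ∧ x - b ∈ S.Mo := by
  have hxs : star x ∈ S.M := star_mem hx
  obtain ⟨x1, x2, s1, s2, e, -, -, -, d1, d2⟩ := st_en_cartesian x
  have m1 : x1 ∈ S.M := d1 ▸ S.M.smul_mem (S.M.add_mem hx hxs) (1 / 2 : ℂ)
  have m2 : x2 ∈ S.M := d2 ▸ S.M.smul_mem (S.M.sub_mem hx hxs) (-Complex.I / 2 : ℂ)
  obtain ⟨b1, hb1, -, -, h1, -⟩ := st_EN_sa S m1 s1
  obtain ⟨b2, hb2, -, -, h2, -⟩ := st_EN_sa S m2 s2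
  have hb : b1 + Complex.I • b2 ∈ S.NN := st_NN_add S hb1 (st_NN_smul S _ hb2)
  refine ⟨b1 + Complex.I • b2, hb, st_en_sub_mem_Mo S hx hb ?_⟩
  conv_rhs => rw [e]
  rw [add_apply, smul_apply, h1, h2, add_apply, map_add, smul_apply, map_smul]

theorem st_EN_mem {x : H →L[ℂ] H} (hx : x ∈ S.M) : S.EN x ∈ S.NN := by
  unfold StData.EN
  rw [dif_pos (st_EN_exists S hx)]
  exact (Classical.choose_spec (st_EN_exists S hx)).1

theorem st_EN_sub_mem {x : H →L[ℂ] H} (hx : x ∈ S.M) : x - S.EN x ∈ S.Mo := by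
  unfold StData.EN
  rw [dif_pos (st_EN_exists S hx)]
  exact (Classical.choose_spec (st_EN_exists S hx)).2

theorem st_EN_eq {x b : H →L[ℂ] H} (hx : x ∈ S.M) (hb : b ∈ S.NN) (h : x - b ∈ S.Mo) : S.EN x = b := by
  have h1 : S.EN x - b ∈ S.NN := st_en_NN_sub S (st_EN_mem S hx) hb
  have h2 : S.EN x - b ∈ S.Mo := by
    have := st_en_Mo_sub S h (st_EN_sub_mem S hx)
    have e : x - b - (x - S.EN x) = S.EN x - b := by abel
    rwa [e] at this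
  exact sub_eq_zero.1 (st_NN_inter_Mo S h1 h2)

theorem st_EN_Om {x : H →L[ℂ] H} (hx : x ∈ S.M) : S.EN x S.Om = S.QN (x S.Om) := by
  have h := ((st_Mo_iff S).1 (st_EN_sub_mem S hx)).2
  rw [sub_apply, map_sub, st_QN_of_mem S (st_en_NN_Om_mem S (st_EN_mem S hx)), sub_eq_zero] at h
  exact h.symm

theorem st_EN_add {x y : H →L[ℂ] H} (hx : x ∈ S.M) (hy : y ∈ S.M) : S.EN (x + y) = S.EN x + S.EN y := by
  refine st_EN_eq S (S.M.add_mem hx hy) (st_NN_add S (st_EN_mem S hx) (st_EN_mem S hy)) ?_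
  have := st_Mo_add S (st_EN_sub_mem S hx) (st_EN_sub_mem S hy)
  have e : x - S.EN x + (y - S.EN y) = x + y - (S.EN x + S.EN y) := by abel
  rwa [e] at this

theorem st_EN_smul (t : ℂ) {x : H →L[ℂ] H} (hx : x ∈ S.M) : S.EN (t • x) = t • S.EN x := by
  refine st_EN_eq S (S.M.smul_mem hx t) (st_NN_smul S t (st_EN_mem S hx)) ?_
  have := st_Mo_smul S t (st_EN_sub_mem S hx)
  rwa [smul_sub] at this

theorem st_EN_star {x : H →L[ℂ] H} (hx : x ∈ S.M) : S.EN (star x) = star (S.EN x) := by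
  refine st_EN_eq S (star_mem hx) (st_NN_star S (st_EN_mem S hx)) ?_
  have := st_Mo_star S (st_EN_sub_mem S hx)
  rwa [star_sub] at this

theorem st_EN_of_mem {b : H →L[ℂ] H} (hb : b ∈ S.NN) : S.EN b = b := by
  refine st_EN_eq S hb.1 hb ?_
  rw [sub_self]; exact st_en_zero_mem_Mo S

theorem st_EN_bimod {b c x : H →L[ℂ] H} (hb : b ∈ S.NN) (hc : c ∈ S.NN) (hx : x ∈ S.M) :
    S.EN (b * x * c) = b * S.EN x * c := by
  refine st_EN_eq S (S.M.mul_mem (S.M.mul_mem hb.1 hx) hc.1)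
    (st_NN_mul S (st_NN_mul S hb (st_EN_mem S hx)) hc) ?_
  have := st_Mo_bimod S hb hc (st_EN_sub_mem S hx)
  rwa [mul_sub, sub_mul] at this

theorem st_EN_norm_sa {x : H →L[ℂ] H} (hx : x ∈ S.M) (hsa : IsSelfAdjoint x) : ‖S.EN x‖ ≤ ‖x‖ := by
  obtain ⟨b, hb, -, hn, hOm, -⟩ := st_EN_sa S hx hsa
  rw [st_EN_eq S hx hb (st_en_sub_mem_Mo S hx hb hOm)]
  exact hn

/-- from `st_NN_norm`: `Q (EN x) Q = Q x Q`. -/
theorem st_EN_norm {x : H →L[ℂ] H} (hx : x ∈ S.M) : ‖S.EN x‖ ≤ ‖x‖ := by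
  rw [st_NN_norm S (st_EN_mem S hx)]
  have h := st_Mo_QwQ S (st_EN_sub_mem S hx)
  rw [mul_sub, sub_mul, sub_eq_zero] at h
  rw [← h]
  exact st_en_T_norm_le S x

theorem st_phi_EN {x : H →L[ℂ] H} (hx : x ∈ S.M) : S.phi (S.EN x) = S.phi x := by
  unfold StData.phi
  rw [st_EN_Om S hx]
  have hQ := st_en_QN_sa S
  have h1 : ⟪S.Om, S.QN (x S.Om)⟫_ℂ = ⟪S.QN S.Om, x S.Om⟫_ℂ :=
    ((ContinuousLinearMap.isSelfAdjoint_iff_isSymmetric.1 hQ) S.Om (x S.Om)).symm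
  rw [h1, st_QN_of_mem S (st_Om_mem_L2N S)]

theorem st_EA_EN {x : H →L[ℂ] H} (hx : x ∈ S.M) : S.EA (S.EN x) = S.EA x := by
  have h := st_EA_Mo S (st_EN_sub_mem S hx)
  rw [st_EA_sub S hx (st_EN_mem S hx).1, sub_eq_zero] at h
  exact h.symm

/-- (D6) bounded strong-* approximation of `N` by `Nalg`. -/
theorem st_NN_approx_sa {b : H →L[ℂ] H} (hb : b ∈ S.NN) (hsa : IsSelfAdjoint b) {δ : ℝ} (hδ : 0 < δ) :
    ∃ n ∈ S.Nalg, IsSelfAdjoint n ∧ ‖n‖ ≤ ‖b‖ ∧ ‖(b - n) S.Om‖ < δ := by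
  obtain ⟨b', hb', -, -, hOm, happ⟩ := st_EN_sa S hb.1 hsa
  have e : b' = b := by
    have h1 : (b' - b) S.Om = 0 := by
      rw [sub_apply, hOm, st_QN_of_mem S (st_en_NN_Om_mem S hb), sub_self]
    exact sub_eq_zero.1 (S.sep _ (S.M.sub_mem hb'.1 hb.1) h1)
  subst e
  exact happ δ hδ

theorem st_NN_approx {b : H →L[ℂ] H} (hb : b ∈ S.NN) {δ : ℝ} (hδ : 0 < δ) :
    ∃ n ∈ S.Nalg, ‖n‖ ≤ 2 * ‖b‖ ∧ ‖(b - n) S.Om‖ < δ ∧ ‖(star b - star n) S.Om‖ < δ := by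
  have hbs := st_NN_star S hb
  obtain ⟨b1, b2, hb1sa, hb2sa, hbe, hbse, nb1, nb2, d1, d2⟩ := st_en_cartesian b
  have hb1N : b1 ∈ S.NN := d1 ▸ st_NN_smul S _ (st_NN_add S hb hbs)
  have hb2N : b2 ∈ S.NN := d2 ▸ st_NN_smul S _ (st_en_NN_sub S hb hbs)
  obtain ⟨n1, hn1, hn1sa, hn1n, h1⟩ := st_NN_approx_sa S hb1N hb1sa (half_pos hδ)
  obtain ⟨n2, hn2, hn2sa, hn2n, h2⟩ := st_NN_approx_sa S hb2N hb2sa (half_pos hδ)
  refine ⟨n1 + Complex.I • n2, S.Nalg.add_mem hn1 (S.Nalg.smul_mem _ hn2), ?_, ?_, ?_⟩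
  · calc ‖n1 + Complex.I • n2‖ ≤ ‖n1‖ + ‖Complex.I • n2‖ := norm_add_le _ _
      _ = ‖n1‖ + ‖n2‖ := by rw [norm_smul]; simp
      _ ≤ ‖b‖ + ‖b‖ := add_le_add (hn1n.trans nb1) (hn2n.trans nb2)
      _ = 2 * ‖b‖ := by ring
  · have e : (b - (n1 + Complex.I • n2)) S.Om = (b1 - n1) S.Om + Complex.I • ((b2 - n2) S.Om) := by
      conv_lhs => rw [hbe]
      simp only [sub_apply, add_apply, smul_apply, smul_sub]
      abel
    rw [e]
    calc ‖(b1 - n1) S.Om + Complex.I • ((b2 - n2) S.Om)‖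
        ≤ ‖(b1 - n1) S.Om‖ + ‖Complex.I • ((b2 - n2) S.Om)‖ := norm_add_le _ _
      _ = ‖(b1 - n1) S.Om‖ + ‖(b2 - n2) S.Om‖ := by rw [norm_smul]; simp
      _ < δ / 2 + δ / 2 := add_lt_add h1 h2
      _ = δ := by ring
  · have e : (star b - star (n1 + Complex.I • n2)) S.Om = (b1 - n1) S.Om - Complex.I • ((b2 - n2) S.Om) := by
      rw [hbse, star_add, star_smul, hn1sa.star_eq, hn2sa.star_eq, Complex.star_def, Complex.conj_I]
      simp only [sub_apply, add_apply, smul_apply, smul_sub, neg_smul, neg_apply]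
      abel
    rw [e]
    calc ‖(b1 - n1) S.Om - Complex.I • ((b2 - n2) S.Om)‖
        ≤ ‖(b1 - n1) S.Om‖ + ‖Complex.I • ((b2 - n2) S.Om)‖ := norm_sub_le _ _
      _ = ‖(b1 - n1) S.Om‖ + ‖(b2 - n2) S.Om‖ := by rw [norm_smul]; simp
      _ < δ / 2 + δ / 2 := add_lt_add h1 h2
      _ = δ := by ring

/-- FINAL EXPORT of package ST: the normaliser decomposition of a self-adjoint contraction. -/
theorem st_decomp {x : H →L[ℂ] H} (hx : x ∈ S.M) (hsa : IsSelfAdjoint x) (hn : ‖x‖ ≤ 1) :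
    ∃ y w : H →L[ℂ] H, x - S.EA x = y + w ∧ y ∈ S.NN ∧ IsSelfAdjoint y ∧ ‖y‖ ≤ 2 ∧ S.EA y = 0 ∧
      w ∈ S.Mo ∧ IsSelfAdjoint w ∧ ‖w‖ ≤ 2 ∧
      ∀ δ : ℝ, 0 < δ → ∃ (D : ℕ) (a u : Fin D → H →L[ℂ] H), (∀ k, a k ∈ S.A) ∧ (∀ k, S.IsSym (u k)) ∧
        IsSelfAdjoint (∑ k, a k * u k) ∧ ‖∑ k, a k * u k‖ ≤ 2 ∧ S.EA (∑ k, a k * u k) = 0 ∧
        ‖(y - ∑ k, a k * u k) S.Om‖ < δ := by
  have hENN := st_EN_mem S hx
  have hENM : S.EN x ∈ S.M := hENN.1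
  have hEAA := st_EA_mem S hx
  have hEAM : S.EA x ∈ S.M := st_A_le_M S hEAA
  have hENsa : IsSelfAdjoint (S.EN x) := by
    have := st_EN_star S hx
    rw [hsa.star_eq] at this
    exact this.symm
  have hEAsa : IsSelfAdjoint (S.EA x) := by
    have := st_EA_star S hx
    rw [hsa.star_eq] at this
    exact this.symm
  have hENn : ‖S.EN x‖ ≤ 1 := (st_EN_norm S hx).trans hn
  have hEAn : ‖S.EA x‖ ≤ 1 := (st_EA_norm_le S hx).trans hn
  refine ⟨S.EN x - S.EA x, x - S.EN x, by abel, ?_, hENsa.sub hEAsa, ?_, ?_, st_EN_sub_mem S hx,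
    hsa.sub hENsa, ?_, ?_⟩
  · exact st_en_NN_sub S hENN (st_Nalg_le_NN S (st_A_le_Nalg S hEAA))
  · calc ‖S.EN x - S.EA x‖ ≤ ‖S.EN x‖ + ‖S.EA x‖ := norm_sub_le _ _
      _ ≤ 2 := by linarith
  · rw [st_EA_sub S hENM hEAM, st_EA_EN S hx, st_EA_of_mem S hEAA, sub_self]
  · calc ‖x - S.EN x‖ ≤ ‖x‖ + ‖S.EN x‖ := norm_sub_le _ _
      _ ≤ 2 := by linarith
  · intro δ hδ
    obtain ⟨n, hnN, hnsa, hnn, hnδ⟩ := st_NN_approx_sa S hENN hENsa (half_pos hδ)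
    have hnM : n ∈ S.M := st_Nalg_le_M S hnN
    have hEAnA := st_EA_mem S hnM
    have hEAnsa : IsSelfAdjoint (S.EA n) := by
      have := st_EA_star S hnM
      rw [hnsa.star_eq] at this
      exact this.symm
    obtain ⟨D, a, u, ha, hu, hrepr⟩ := st_Nalg_repr S (st_EA_Nalg S hnN)
    refine ⟨D, a, u, ha, hu, ?_, ?_, ?_, ?_⟩
    · rw [← hrepr]; exact hnsa.sub hEAnsa
    · rw [← hrepr]
      calc ‖n - S.EA n‖ ≤ ‖n‖ + ‖S.EA n‖ := norm_sub_le _ _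
        _ ≤ ‖n‖ + ‖n‖ := by gcongr; exact st_EA_norm_le S hnM
        _ ≤ 2 := by linarith
    · rw [← hrepr, st_EA_sub S hnM (st_A_le_M S hEAnA), st_EA_of_mem S hEAnA, sub_self]
    · rw [← hrepr]
      have e1 : S.EA x - S.EA n = S.EA (S.EN x - n) := by
        rw [st_EA_sub S hENM hnM, st_EA_EN S hx]
      have e2 : (S.EN x - S.EA x - (n - S.EA n)) S.Om = (S.EN x - n) S.Om - (S.EA (S.EN x - n)) S.Om := by
        rw [← e1]
        simp only [sub_apply]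
        abel
      rw [e2]
      calc ‖(S.EN x - n) S.Om - (S.EA (S.EN x - n)) S.Om‖
          ≤ ‖(S.EN x - n) S.Om‖ + ‖(S.EA (S.EN x - n)) S.Om‖ := norm_sub_le _ _
        _ ≤ ‖(S.EN x - n) S.Om‖ + ‖(S.EN x - n) S.Om‖ := by
            gcongr; exact st_EA_Om_norm_le S (S.M.sub_mem hENM hnM)
        _ < δ / 2 + δ / 2 := add_lt_add hnδ hnδ
        _ = δ := by ring

end Claimed.Agent.R302
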