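/-
Row 302, package ST, file Hyp: GLUE.  `st_hyp : ∀ S, OpSTHyp S` (the interface consumed by TR / AK, defined in TR/Hyp.lean) from the exports of ST.
Owner helper73.  No sorry in this file.
-/
import Claimed.Agent.R302.ST.EN
import Claimed.Agent.R302.TR.Hyp

set_option autoImplicit false

namespace Claimed.Agent.R302

open scoped InnerProductSpace
open Filter Topology

universe u
variable {H : Type u} [NormedAddCommGroup H] [InnerProductSpace ℂ H] [CompleteSpace H]

instance st_part_directed (S : StData H) : IsDirectedOrder (StPart S) :=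
  ⟨fun P P' => by
    obtain ⟨P'', h, h'⟩ := st_part_sup S P P'
    exact ⟨P'', h, h'⟩⟩

theorem st_normU_GN (S : StData H) {v : H →L[ℂ] H} (hv : S.IsNormU v) : S.IsGN v := by
  obtain ⟨hM, h1, h2, h3, h4⟩ := hv
  refine ⟨hM, ?_, ?_, ?_, h3, h4⟩
  · rw [h2, one_mul]
  · rw [h1]; exact S.A.one_mem
  · rw [h2]; exact S.A.one_mem

theorem st_hyp (S : StData H) : OpSTHyp S where
  comm_dense := by
    rw [Metric.dense_iff]
    intro ξ ε hε
    obtain ⟨c, hc, h⟩ := st_M'_dense S ξ hε
    refine ⟨c S.Om, ?_, c, hc, rfl⟩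
    rw [Metric.mem_ball, dist_comm, dist_eq_norm]
    exact h
  EA_mem := fun x hx => st_EA_mem S hx
  EA_phi := fun x hx a ha => st_EA_spec S hx ha
  EA_nonneg := fun x hx h0 => st_EA_nonneg S hx h0
  EA_norm_le := fun x hx => st_EA_norm_le S hx
  pinch := by
    intro z hz
    rw [Metric.tendsto_nhds]
    intro ε hε
    obtain ⟨P₀, hP₀⟩ := st_pinch_ev S hz S.Om hε
    filter_upwards [Filter.eventually_ge_atTop P₀] with P hP
    rw [dist_zero_right, norm_norm]
    exact hP₀ P hP
  rmul_apply := fun a ha x hx => st_rmul_spec S (st_rbdd_A S ha) hx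
  rmul_mem := fun a ha => st_rmul_mem S (st_rbdd_A S ha)
  rmul_norm_le := fun a ha => st_rmul_A_norm S ha
  Mo_orth_GN := fun y hy v hv a ha => st_perp_GN S hy hv ha
  normU_mem_NN := fun v hv => st_GN_mem_NN S (st_normU_GN S hv)
  A_le_NN := fun a ha => st_Nalg_le_NN S (st_A_le_Nalg S ha)
  Nalg_le_NN := fun n hn => st_Nalg_le_NN S hn
  Mo_star := fun y hy => st_Mo_star S hy
  Mo_mul_left := by
    intro n hn y hy
    have h1 : (1 : H →L[ℂ] H) ∈ S.NN := st_Nalg_le_NN S (st_A_le_Nalg S S.A.one_mem)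
    simpa using st_Mo_bimod S hn h1 hy
  N_mul := fun n hn n' hn' => st_NN_mul S hn hn'
  N_star := fun n hn => st_NN_star S hn
  decomp := by
    intro x hx
    refine ⟨S.EN x, st_EN_mem S hx, st_EN_sub_mem S hx, st_EN_norm S hx, fun hsa => ?_⟩
    have := st_EN_star S hx
    rw [hsa.star_eq] at this
    exact this.symm
  approx := by
    intro n hn ε hε
    by_cases hsa : IsSelfAdjoint n
    · obtain ⟨n', hn', hsa', hnorm, h⟩ := st_NN_approx_sa S hn hsa hε
      refine ⟨n', hn', by linarith [norm_nonneg n], h, ?_, fun _ => ⟨hsa', hnorm⟩⟩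
      rw [hsa.star_eq, hsa'.star_eq]; exact h
    · obtain ⟨n', hn', hnorm, h, h'⟩ := st_NN_approx S hn hε
      exact ⟨n', hn', hnorm, h, h', fun h => absurd h hsa⟩

end Claimed.Agent.R302
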