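/-
Row 302, package ST, file Basic: elementary facts on the standing data `StData`.
LEAF ST-Basic (helper275): SORRY-FREE (uses the VN toolkit: Masa, Cyclic, Spec).

Proof hints.
* `st_M'_dense`: `K := closure (M' Om)`, its orthogonal projection `p` commutes with `M'` (invariant under the `*`-closed set `M'`),
  so `p ∈ M'' = M`; `(1-p) Om = 0`, so `p = 1` by `sep`.
* `st_rbdd_A`: `‖x a Om‖² = phi (a* x* x a) = phi (x* x a a*)` (central); `c := ‖a‖² - a a* ≥ 0` in `A`,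
  `phi (x* x c) = phi (c^(1/2) x* x c^(1/2)) ≥ 0`.
* `st_mult`: `z Om ≈ c' Om` with `c' ∈ M'`: `‖D z Om‖ ≤ ‖D‖ ‖z Om - c' Om‖ + ‖c'‖ ‖D Om‖`.
Extra exports: `st_mem_M'_iff`, `st_sqrt_mem_A`, `st_phi_mul_A_eq`, `st_dense_orbit`, `st_ext_orbit`, `st_rmul_eq`,
`st_norm_le_of_orbit`.
-/
import Claimed.Agent.R302.ST.Defs
import Claimed.Agent.R302.VN.Masa
import Claimed.Agent.R302.VN.Cyclic
import Claimed.Agent.R302.VN.Spec

set_option autoImplicit false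

namespace Claimed.Agent.R302

open scoped InnerProductSpace ComplexOrder

variable {H : Type*} [NormedAddCommGroup H] [InnerProductSpace ℂ H] [CompleteSpace H]
variable (S : StData H)

/-! ### masa algebra -/

theorem st_A_le_M {a : H →L[ℂ] H} (ha : a ∈ S.A) : a ∈ S.M := ((S.masa a).1 ha).1

theorem st_A_comm {a b : H →L[ℂ] H} (ha : a ∈ S.A) (hb : b ∈ S.A) : Commute a b :=
  ((S.masa a).1 ha).2 b hb

theorem st_mem_A_of_comm {y : H →L[ℂ] H} (hy : y ∈ S.M) (h : ∀ a ∈ S.A, Commute y a) : y ∈ S.A :=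
  (S.masa y).2 ⟨hy, h⟩

/-- It is enough to commute with the projections of `A` (step elements are norm dense in `A`). -/
theorem st_mem_A_of_comm_proj {y : H →L[ℂ] H} (hy : y ∈ S.M)
    (h : ∀ e, S.IsProjA e → Commute y e) : y ∈ S.A :=
  vn_masa_mem_of_proj S.M S.A S.masa hy fun e he hp => h e ⟨he, hp⟩

theorem st_mem_M'_iff {c : H →L[ℂ] H} : c ∈ S.M' ↔ c ∈ S.M.commutant := by
  rw [VonNeumannAlgebra.mem_commutant_iff]
  exact ⟨fun h g hg => (h g hg).symm, fun h g hg => (h g hg).symm⟩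

theorem st_mem_M_iff {y : H →L[ℂ] H} : y ∈ S.M ↔ ∀ c ∈ S.M', Commute y c := by
  rw [vn_mem_iff_commute]
  exact ⟨fun h c hc => (h c ((st_mem_M'_iff S).1 hc)).symm,
    fun h c hc => (h c ((st_mem_M'_iff S).2 hc)).symm⟩

theorem st_M'_star {c : H →L[ℂ] H} (hc : c ∈ S.M') : star c ∈ S.M' := by
  rw [st_mem_M'_iff] at hc ⊢
  exact star_mem hc

theorem st_M'_mul {c d : H →L[ℂ] H} (hc : c ∈ S.M') (hd : d ∈ S.M') : c * d ∈ S.M' := by
  rw [st_mem_M'_iff] at hc hd ⊢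
  exact mul_mem hc hd

/-! ### the functional `phi` -/

theorem st_phi_add (x y : H →L[ℂ] H) : S.phi (x + y) = S.phi x + S.phi y := by
  simp [StData.phi]

theorem st_phi_sub (x y : H →L[ℂ] H) : S.phi (x - y) = S.phi x - S.phi y := by
  simp [StData.phi]

theorem st_phi_smul (c : ℂ) (x : H →L[ℂ] H) : S.phi (c • x) = c * S.phi x := by
  simp [StData.phi]

theorem st_phi_sum {ι : Type*} (s : Finset ι) (f : ι → H →L[ℂ] H) :
    S.phi (∑ i ∈ s, f i) = ∑ i ∈ s, S.phi (f i) := by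
  simp [StData.phi]

theorem st_phi_star (x : H →L[ℂ] H) : S.phi (star x) = star (S.phi x) := by
  unfold StData.phi
  rw [vn_inner_star]
  exact (inner_conj_symm _ _).symm

theorem st_phi_star_mul (x y : H →L[ℂ] H) : S.phi (star y * x) = ⟪y S.Om, x S.Om⟫_ℂ := by
  unfold StData.phi
  rw [vn_mul_apply, vn_inner_star]

theorem st_phi_star_mul_self (x : H →L[ℂ] H) : S.phi (star x * x) = ((‖x S.Om‖ ^ 2 : ℝ) : ℂ) := by
  rw [st_phi_star_mul, inner_self_eq_norm_sq_to_K]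
  norm_cast

theorem st_phi_central {a x : H →L[ℂ] H} (ha : a ∈ S.A) (hx : x ∈ S.M) :
    S.phi (a * x) = S.phi (x * a) := S.central a ha x hx

theorem st_phi_norm_le (x : H →L[ℂ] H) : ‖S.phi x‖ ≤ ‖x S.Om‖ * ‖S.Om‖ := by
  unfold StData.phi
  rw [mul_comm]
  exact norm_inner_le_norm _ _

/-- faithfulness -/
theorem st_phi_faithful {x : H →L[ℂ] H} (hx : x ∈ S.M) (h : S.phi (star x * x) = 0) : x = 0 := by
  rw [st_phi_star_mul, inner_self_eq_zero] at h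
  exact S.sep x hx h

theorem st_phi_nonneg {x : H →L[ℂ] H} (hx : 0 ≤ x) : 0 ≤ (S.phi x).re ∧ (S.phi x).im = 0 := by
  have h := vn_nonneg_iff.1 hx S.Om
  rw [Complex.le_def] at h
  exact ⟨by simpa [StData.phi] using h.1, by simpa [StData.phi] using h.2.symm⟩

theorem st_sqrt_mem_A {a : H →L[ℂ] H} (ha : a ∈ S.A) : CFC.sqrt a ∈ S.A :=
  vn_sqrt_mem (vn_masaVN S.M S.A S.masa) ha

theorem st_phi_mul_A_eq {x a : H →L[ℂ] H} (hx : x ∈ S.M) (ha : a ∈ S.A) (ha0 : 0 ≤ a) :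
    S.phi (x * a) = S.phi (CFC.sqrt a * x * CFC.sqrt a) := by
  have hs := st_sqrt_mem_A S ha
  rw [mul_assoc, st_phi_central S hs (mul_mem hx (st_A_le_M S hs)), mul_assoc,
    CFC.sqrt_mul_sqrt_self a ha0]

theorem st_phi_mul_A_nonneg_aux {x a : H →L[ℂ] H} (hx : x ∈ S.M) (hx0 : 0 ≤ x) (ha : a ∈ S.A)
    (ha0 : 0 ≤ a) : 0 ≤ (S.phi (x * a)).re ∧ (S.phi (x * a)).im = 0 := by
  rw [st_phi_mul_A_eq S hx ha ha0]
  apply st_phi_nonneg
  exact conjugate_nonneg_of_nonneg hx0 (CFC.sqrt_nonneg a)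

/-- `0 ≤ phi (x a) ≤ ‖a‖ phi x` for `0 ≤ x ∈ M`, `0 ≤ a ∈ A`. -/
theorem st_phi_mul_A_nonneg {x a : H →L[ℂ] H} (hx : x ∈ S.M) (hx0 : 0 ≤ x) (ha : a ∈ S.A) (ha0 : 0 ≤ a) :
    0 ≤ (S.phi (x * a)).re ∧ (S.phi (x * a)).im = 0 ∧ (S.phi (x * a)).re ≤ ‖a‖ * (S.phi x).re := by
  obtain ⟨h1, h2⟩ := st_phi_mul_A_nonneg_aux S hx hx0 ha ha0
  refine ⟨h1, h2, ?_⟩
  have hc : (‖a‖ : ℂ) • (1 : H →L[ℂ] H) - a ∈ S.A :=
    sub_mem (S.A.smul_mem (one_mem _) _) ha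
  have hc0 : 0 ≤ (‖a‖ : ℂ) • (1 : H →L[ℂ] H) - a := by
    rw [sub_nonneg]
    have := IsSelfAdjoint.le_algebraMap_norm_self (a := a) ha0.isSelfAdjoint
    rw [Algebra.algebraMap_eq_smul_one] at this
    simpa using this
  have h3 := (st_phi_mul_A_nonneg_aux S hx hx0 hc hc0).1
  rw [mul_sub, st_phi_sub, mul_smul_comm, mul_one, st_phi_smul] at h3
  simpa using h3

/-! ### density of `M' Om`, strong convergence from convergence on `Om` -/

theorem st_M'_dense (ξ : H) {ε : ℝ} (hε : 0 < ε) : ∃ c ∈ S.M', ‖ξ - c S.Om‖ < ε := by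
  obtain ⟨c, hc, h⟩ := vn_exists_commutant_approx (M := S.M) (Ω := S.Om) S.sep ξ hε
  exact ⟨c, (st_mem_M'_iff S).2 hc, h⟩

/-- The same for an arbitrary vector. -/
theorem st_mult_vec (ξ : H) (C : ℝ) {η : ℝ} (hη : 0 < η) :
    ∃ δ : ℝ, 0 < δ ∧ ∀ D ∈ S.M, ‖D‖ ≤ C → ‖D S.Om‖ < δ → ‖D ξ‖ < η := by
  obtain ⟨c, hc, h⟩ := st_M'_dense S ξ (ε := η / (2 * (|C| + 1))) (by positivity)
  refine ⟨η / (2 * (‖c‖ + 1)), by positivity, fun D hD hDC hDO => ?_⟩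
  have e1 : D ξ = D (ξ - c S.Om) + c (D S.Om) := by
    have : D (c S.Om) = c (D S.Om) := congrArg (fun T : H →L[ℂ] H => T S.Om) (hc D hD).symm.eq
    rw [map_sub, this]; abel
  have h1 : ‖D (ξ - c S.Om)‖ ≤ (|C| + 1) * (η / (2 * (|C| + 1))) := by
    refine (D.le_opNorm _).trans ?_
    have : ‖D‖ ≤ |C| + 1 := by linarith [le_abs_self C]
    exact mul_le_mul this h.le (norm_nonneg _) (by positivity)
  have h2 : ‖c (D S.Om)‖ < (‖c‖ + 1) * (η / (2 * (‖c‖ + 1))) := by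
    refine lt_of_le_of_lt (c.le_opNorm _) ?_
    calc ‖c‖ * ‖D S.Om‖ ≤ (‖c‖ + 1) * ‖D S.Om‖ := by
          apply mul_le_mul_of_nonneg_right (by linarith) (norm_nonneg _)
      _ < (‖c‖ + 1) * (η / (2 * (‖c‖ + 1))) := by
          apply mul_lt_mul_of_pos_left hDO (by positivity)
  have e2 : (|C| + 1) * (η / (2 * (|C| + 1))) = η / 2 := by field_simp
  have e3 : (‖c‖ + 1) * (η / (2 * (‖c‖ + 1))) = η / 2 := by field_simp
  rw [e1]
  linarith [norm_add_le (D (ξ - c S.Om)) (c (D S.Om))]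

/-- State multipliers (Q Lemma 7.3, first half). -/
theorem st_mult {z : H →L[ℂ] H} (_hz : z ∈ S.M) (C : ℝ) {η : ℝ} (hη : 0 < η) :
    ∃ δ : ℝ, 0 < δ ∧ ∀ D ∈ S.M, ‖D‖ ≤ C → ‖D S.Om‖ < δ → ‖D (z S.Om)‖ < η :=
  st_mult_vec S (z S.Om) C hη

/-- A bounded family in `M` which is Cauchy on `Om` along a filter converges strongly to an element of `M`. -/
theorem st_strong_lim {ι : Type*} (l : Filter ι) [l.NeBot] (x : ι → H →L[ℂ] H) (C : ℝ)
    (hM : ∀ i, x i ∈ S.M) (hC : ∀ i, ‖x i‖ ≤ C) (η : H)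
    (hlim : Filter.Tendsto (fun i => x i S.Om) l (nhds η)) :
    ∃ y ∈ S.M, ‖y‖ ≤ C ∧ y S.Om = η ∧ ∀ ξ : H, Filter.Tendsto (fun i => x i ξ) l (nhds (y ξ)) := by
  obtain ⟨y, hy, h1, h2, h3⟩ := vn_exists_sotTendsto_of_tendsto_apply (M := S.M) (Ω := S.Om) S.sep
    (l := l) (z := x) (C := C) (Filter.Eventually.of_forall hM) (Filter.Eventually.of_forall hC) hlim
  exact ⟨y, hy, h3, h2, h1⟩

/-! ### right multiplications -/

/-- `M Om` is dense. -/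
theorem st_dense_orbit : Dense {ξ : H | ∃ x ∈ S.M, x S.Om = ξ} := by
  rw [Metric.dense_iff]
  intro ξ r hr
  obtain ⟨x, hx, h⟩ := S.cyc ξ r hr
  refine ⟨x S.Om, ?_, x, hx, rfl⟩
  rw [Metric.mem_ball, dist_eq_norm, ← norm_neg, neg_sub]
  exact h

/-- Two bounded operators which agree on `M Om` are equal. -/
theorem st_ext_orbit {T T' : H →L[ℂ] H} (h : ∀ x ∈ S.M, T (x S.Om) = T' (x S.Om)) : T = T' := by
  have h1 : (T : H → H) = T' := by
    refine Continuous.ext_on (st_dense_orbit S) T.continuous T'.continuous ?_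
    rintro _ ⟨x, hx, rfl⟩
    exact h x hx
  exact DFunLike.coe_injective h1

theorem st_rmul_spec {n : H →L[ℂ] H} (hn : S.IsRBdd n) {x : H →L[ℂ] H} (hx : x ∈ S.M) :
    S.rmul n (x S.Om) = x (n S.Om) := by
  have hn' : ∃ T : H →L[ℂ] H, ∀ x ∈ S.M, T (x S.Om) = x (n S.Om) := hn
  unfold StData.rmul
  rw [dif_pos hn']
  exact Classical.choose_spec hn' x hx

theorem st_rmul_eq {n T : H →L[ℂ] H} (h : ∀ x ∈ S.M, T (x S.Om) = x (n S.Om)) : S.rmul n = T :=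
  st_ext_orbit S fun x hx => by rw [st_rmul_spec S ⟨T, h⟩ hx, h x hx]

theorem st_rmul_Om {n : H →L[ℂ] H} (hn : S.IsRBdd n) : S.rmul n S.Om = n S.Om := by
  simpa using st_rmul_spec S hn (one_mem S.M)

theorem st_rmul_mem {n : H →L[ℂ] H} (hn : S.IsRBdd n) : S.rmul n ∈ S.M' := by
  intro y hy
  refine st_ext_orbit S fun x hx => ?_
  rw [vn_mul_apply, vn_mul_apply, st_rmul_spec S hn hx, ← vn_mul_apply y x,
    st_rmul_spec S hn (mul_mem hy hx), vn_mul_apply]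

theorem st_norm_le_of_orbit {T : H →L[ℂ] H} {C : ℝ} (hC : 0 ≤ C)
    (h : ∀ x ∈ S.M, ‖T (x S.Om)‖ ≤ C * ‖x S.Om‖) : ‖T‖ ≤ C := by
  refine T.opNorm_le_bound hC fun ξ => ?_
  refine (st_dense_orbit S).induction (P := fun ξ => ‖T ξ‖ ≤ C * ‖ξ‖) ?_
    (isClosed_le (by fun_prop) (by fun_prop)) ξ
  rintro _ ⟨x, hx, rfl⟩
  exact h x hx

/-- criterion -/
theorem st_rbdd_of_le {n : H →L[ℂ] H} (C : ℝ) (h : ∀ x ∈ S.M, ‖x (n S.Om)‖ ≤ C * ‖x S.Om‖) :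
    S.IsRBdd n ∧ ‖S.rmul n‖ ≤ max C 0 := by
  let E : Submodule ℂ (H →L[ℂ] H) := Subalgebra.toSubmodule S.M.toStarSubalgebra.toSubalgebra
  let ev : H → (H →L[ℂ] H) →ₗ[ℂ] H := fun ξ =>
    ((ContinuousLinearMap.apply ℂ H ξ : (H →L[ℂ] H) →L[ℂ] H) : (H →L[ℂ] H) →ₗ[ℂ] H)
  let f : E →ₗ[ℂ] H := (ev (n S.Om)).domRestrict E
  let e : E →ₗ[ℂ] H := (ev S.Om).domRestrict E
  have hd : DenseRange e := by
    refine (st_dense_orbit S).mono ?_
    rintro _ ⟨x, hx, rfl⟩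
    exact ⟨⟨x, hx⟩, rfl⟩
  have hb : ∀ x : E, ‖f x‖ ≤ C * ‖e x‖ := fun x => h x.1 x.2
  have hR : S.IsRBdd n := ⟨f.extendOfNorm e, fun x hx =>
    LinearMap.extendOfNorm_eq hd ⟨C, hb⟩ ⟨x, hx⟩⟩
  refine ⟨hR, st_norm_le_of_orbit S (le_max_right _ _) fun x hx => ?_⟩
  rw [st_rmul_spec S hR hx]
  exact (h x hx).trans (mul_le_mul_of_nonneg_right (le_max_left _ _) (norm_nonneg _))

theorem st_rbdd_mul {n m : H →L[ℂ] H} (hn : S.IsRBdd n) (hm : S.IsRBdd m) (hmM : m ∈ S.M) :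
    S.IsRBdd (m * n) ∧ S.rmul (m * n) = S.rmul n * S.rmul m := by
  have h : ∀ x ∈ S.M, (S.rmul n * S.rmul m) (x S.Om) = x ((m * n) S.Om) := fun x hx => by
    rw [vn_mul_apply, st_rmul_spec S hm hx, ← vn_mul_apply x m,
      st_rmul_spec S hn (mul_mem hx hmM)]
    rfl
  exact ⟨⟨_, h⟩, st_rmul_eq S h⟩

theorem st_rbdd_add {n m : H →L[ℂ] H} (hn : S.IsRBdd n) (hm : S.IsRBdd m) :
    S.IsRBdd (n + m) ∧ S.rmul (n + m) = S.rmul n + S.rmul m := by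
  have h : ∀ x ∈ S.M, (S.rmul n + S.rmul m) (x S.Om) = x ((n + m) S.Om) := fun x hx => by
    rw [add_apply, st_rmul_spec S hn hx, st_rmul_spec S hm hx,
      add_apply, map_add]
  exact ⟨⟨_, h⟩, st_rmul_eq S h⟩

theorem st_rbdd_smul (c : ℂ) {n : H →L[ℂ] H} (hn : S.IsRBdd n) :
    S.IsRBdd (c • n) ∧ S.rmul (c • n) = c • S.rmul n := by
  have h : ∀ x ∈ S.M, (c • S.rmul n) (x S.Om) = x ((c • n) S.Om) := fun x hx => by
    rw [smul_apply, st_rmul_spec S hn hx,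
      smul_apply, map_smul]
  exact ⟨⟨_, h⟩, st_rmul_eq S h⟩

theorem st_norm_A_le {a x : H →L[ℂ] H} (ha : a ∈ S.A) (hx : x ∈ S.M) :
    ‖x (a S.Om)‖ ≤ ‖a‖ * ‖x S.Om‖ := by
  have haM := st_A_le_M S ha
  have h1 : S.phi (star (x * a) * (x * a)) = S.phi ((star x * x) * (a * star a)) := by
    rw [star_mul, mul_assoc, st_phi_central S (star_mem ha) (mul_mem (star_mem hx) (mul_mem hx haM))]
    simp only [mul_assoc]
  have h2 := (st_phi_mul_A_nonneg S (mul_mem (star_mem hx) hx) (star_mul_self_nonneg x)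
    (mul_mem ha (star_mem ha)) (mul_star_self_nonneg a)).2.2
  rw [← h1, st_phi_star_mul_self, st_phi_star_mul_self, CStarRing.norm_self_mul_star] at h2
  simp only [Complex.ofReal_re] at h2
  have h3 : ‖x (a S.Om)‖ ^ 2 ≤ (‖a‖ * ‖x S.Om‖) ^ 2 := by
    have : (x * a) S.Om = x (a S.Om) := rfl
    rw [this] at h2
    nlinarith [h2]
  exact le_of_sq_le_sq h3 (by positivity) |> fun h => h

theorem st_rbdd_A {a : H →L[ℂ] H} (ha : a ∈ S.A) : S.IsRBdd a :=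
  (st_rbdd_of_le S ‖a‖ fun _ hx => st_norm_A_le S ha hx).1

theorem st_rmul_A_norm {a : H →L[ℂ] H} (ha : a ∈ S.A) : ‖S.rmul a‖ ≤ ‖a‖ := by
  have h := (st_rbdd_of_le S ‖a‖ fun _ hx => st_norm_A_le S ha hx).2
  rwa [max_eq_left (norm_nonneg _)] at h

theorem st_rmul_A_star {a : H →L[ℂ] H} (ha : a ∈ S.A) : S.rmul (star a) = star (S.rmul a) := by
  refine st_ext_orbit S fun x hx => ?_
  refine (st_dense_orbit S).induction
    (P := fun η => ⟪η, S.rmul (star a) (x S.Om)⟫_ℂ = ⟪η, star (S.rmul a) (x S.Om)⟫_ℂ) ?_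
    (isClosed_eq (by fun_prop) (by fun_prop)) |> fun h => ext_inner_left ℂ h
  rintro _ ⟨y, hy, rfl⟩
  rw [vn_inner_star, st_rmul_spec S (st_rbdd_A S (star_mem ha)) hx, st_rmul_spec S (st_rbdd_A S ha) hy]
  have e1 : ⟪y S.Om, x (star a S.Om)⟫_ℂ = S.phi ((star y * x) * star a) := by
    rw [mul_assoc, st_phi_star_mul]; rfl
  have e2 : ⟪y (a S.Om), x S.Om⟫_ℂ = S.phi (star a * (star y * x)) := by
    rw [← mul_assoc, ← star_mul, st_phi_star_mul]; rfl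
  rw [e1, e2, st_phi_central S (star_mem ha) (mul_mem (star_mem hy) hx)]

theorem st_rmul_A_mul {a b : H →L[ℂ] H} (ha : a ∈ S.A) (hb : b ∈ S.A) :
    S.rmul (a * b) = S.rmul a * S.rmul b := by
  rw [(st_A_comm S ha hb).eq]
  exact (st_rbdd_mul S (st_rbdd_A S ha) (st_rbdd_A S hb) (st_A_le_M S hb)).2

theorem st_rmul_one : S.rmul 1 = 1 := st_rmul_eq S fun _ _ => rfl

theorem st_rmul_A_proj {e : H →L[ℂ] H} (he : S.IsProjA e) : IsStarProjection (S.rmul e) := by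
  refine ⟨?_, ?_⟩
  · show S.rmul e * S.rmul e = S.rmul e
    rw [← st_rmul_A_mul S he.1 he.1, he.2.isIdempotentElem.eq]
  · show star (S.rmul e) = S.rmul e
    rw [← st_rmul_A_star S he.1, he.2.isSelfAdjoint.star_eq]

end Claimed.Agent.R302
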