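/-
Row 302, package ST, file EAPart (first half of the EA chain): partitions, pinchings, the conditional expectation `E_A`, the pinching limit (D4, case v = 1),
factorisation of `A`-central vector functionals through `E_A`.
LEAF ST-EAPart (helper275): SORRY-FREE.

Proof plan.
* `T_P := ∑_{e ∈ P} e * rmul e` is a projection (commuting projections `e ∈ M`, `rmul e ∈ M'`, orthogonal over `e`), decreasing in `P`,
  and `P.pinch x Om = T_P (x Om)`  (`e x e Om = e (rmul e) x Om`).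
  A decreasing net of projections is strongly Cauchy: `‖T_P ξ‖²` is decreasing and bounded below, and
  `‖(T_P - T_P') ξ‖² = ‖T_P ξ‖² - ‖T_P' ξ‖²` for `P ≤ P'`.  So `P.pinch x Om` converges in norm to some `η`.
* `st_strong_lim` (filter `atTop`-like on `StPart S`: use the filter generated by the tails `{P | P₀ ≤ P}`) gives `b ∈ M`, `b Om = η`, `‖b‖ ≤ ‖x‖`,
  `P.pinch x → b` strongly.  `b` commutes with every projection `e` of `A` (for `P ≥ {e, 1-e}` the pinching commutes with `e`), so `b ∈ A`.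
  `phi (b a) = lim phi (P.pinch x a) = phi (x a)`.   Uniqueness: `phi ((b-b') a) = 0` with `a = (b-b')*` and `sep`.
* positivity, contractivity: from `b = strong limit of pinchings`.
* `st_central_factor`: `⟪ξ, x ξ⟫ = ⟪ξ, P.pinch x ξ⟫` for all `P` (centrality, `∑ e = 1`), then strong convergence.
Extra exports: `st_cell_mem`, `st_cell_isProj`, `st_cell_sq`, `st_cell_star`, `st_cell_comm`, `st_norm_sq_sum_orth`, `st_part_sq_sum`.
-/
import Claimed.Agent.R302.ST.Basic

set_option autoImplicit false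

namespace Claimed.Agent.R302

open scoped InnerProductSpace

variable {H : Type*} [NormedAddCommGroup H] [InnerProductSpace ℂ H] [CompleteSpace H]
variable (S : StData H)

/-! ### cells -/

theorem st_cell_mem (P : StPart S) {e : H →L[ℂ] H} (he : e ∈ P.cells) : e ∈ S.A := (P.proj e he).1

theorem st_cell_isProj (P : StPart S) {e : H →L[ℂ] H} (he : e ∈ P.cells) : IsStarProjection e :=
  (P.proj e he).2

theorem st_cell_sq (P : StPart S) {e : H →L[ℂ] H} (he : e ∈ P.cells) : e * e = e :=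
  (P.proj e he).2.isIdempotentElem.eq

theorem st_cell_star (P : StPart S) {e : H →L[ℂ] H} (he : e ∈ P.cells) : star e = e :=
  (P.proj e he).2.isSelfAdjoint.star_eq

theorem st_cell_comm (P P' : StPart S) {e e' : H →L[ℂ] H} (he : e ∈ P.cells) (he' : e' ∈ P'.cells) :
    Commute e e' := st_A_comm S (st_cell_mem S P he) (st_cell_mem S P' he')

/-! ### partitions -/

theorem st_part_refl (P : StPart S) : P ≤ P := fun e' he' => ⟨e', he', st_cell_sq S P he'⟩

theorem st_part_trans {P P' P'' : StPart S} (h : P ≤ P') (h' : P' ≤ P'') : P ≤ P'' := by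
  intro e'' he''
  obtain ⟨e', he', h1⟩ := h' e'' he''
  obtain ⟨e, he, h2⟩ := h e' he'
  exact ⟨e, he, by rw [← h1, ← mul_assoc, h2]⟩

theorem st_part_prod_orth (P P' : StPart S) {e₁ e₂ e₁' e₂' : H →L[ℂ] H} (h₁ : e₁ ∈ P.cells)
    (h₂ : e₂ ∈ P.cells) (h₁' : e₁' ∈ P'.cells) (h₂' : e₂' ∈ P'.cells)
    (hne : (e₁, e₁') ≠ (e₂, e₂')) : (e₁ * e₁') * (e₂ * e₂') = 0 := by
  rw [(st_cell_comm S P' P h₁' h₂).mul_mul_mul_comm]
  by_cases h : e₁ = e₂
  · have h' : e₁' ≠ e₂' := fun h' => hne (by rw [h, h'])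
    rw [P'.orth e₁' h₁' e₂' h₂' h', mul_zero]
  · rw [P.orth e₁ h₁ e₂ h₂ h, zero_mul]

/-- common refinement -/
theorem st_part_sup (P P' : StPart S) : ∃ P'' : StPart S, P ≤ P'' ∧ P' ≤ P'' := by
  classical
  refine ⟨⟨(P.cells ×ˢ P'.cells).image (fun q => q.1 * q.2), ?_, ?_, ?_⟩, ?_, ?_⟩
  · intro c hc
    obtain ⟨⟨e, e'⟩, hq, rfl⟩ := Finset.mem_image.1 hc
    rw [Finset.mem_product] at hq
    exact ⟨mul_mem (st_cell_mem S P hq.1) (st_cell_mem S P' hq.2),
      (st_cell_isProj S P hq.1).mul (st_cell_isProj S P' hq.2) (st_cell_comm S P P' hq.1 hq.2)⟩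
  · intro c hc c' hc' hne
    obtain ⟨⟨e₁, e₁'⟩, hq, rfl⟩ := Finset.mem_image.1 hc
    obtain ⟨⟨e₂, e₂'⟩, hq', rfl⟩ := Finset.mem_image.1 hc'
    rw [Finset.mem_product] at hq hq'
    exact st_part_prod_orth S P P' hq.1 hq'.1 hq.2 hq'.2 fun h => hne (by rw [h])
  · rw [Finset.sum_image_of_pairwise_eq_zero, Finset.sum_product]
    · have h : ∀ e ∈ P.cells, ∑ e' ∈ P'.cells, e * e' = e := fun e _ => by
        rw [← Finset.mul_sum, P'.sum_eq, mul_one]
      exact (Finset.sum_congr rfl h).trans P.sum_eq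
    · rintro ⟨e₁, e₁'⟩ hq ⟨e₂, e₂'⟩ hq' hne heq
      rw [Finset.mem_coe, Finset.mem_product] at hq hq'
      have h0 := st_part_prod_orth S P P' hq.1 hq'.1 hq.2 hq'.2 hne
      have hp := ((st_cell_isProj S P hq.1).mul (st_cell_isProj S P' hq.2)
        (st_cell_comm S P P' hq.1 hq.2)).isIdempotentElem.eq
      simp only at heq ⊢
      rw [← heq, hp] at h0
      exact h0
  · intro c hc
    obtain ⟨⟨e, e'⟩, hq, rfl⟩ := Finset.mem_image.1 hc
    rw [Finset.mem_product] at hq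
    exact ⟨e, hq.1, by simp only [← mul_assoc, st_cell_sq S P hq.1]⟩
  · intro c hc
    obtain ⟨⟨e, e'⟩, hq, rfl⟩ := Finset.mem_image.1 hc
    rw [Finset.mem_product] at hq
    refine ⟨e', hq.2, ?_⟩
    simp only
    rw [(st_cell_comm S P P' hq.1 hq.2).eq, ← mul_assoc, st_cell_sq S P' hq.2]

theorem st_part_of_proj {e : H →L[ℂ] H} (he : S.IsProjA e) :
    ∃ P : StPart S, e ∈ P.cells ∧ (1 - e) ∈ P.cells := by
  classical
  have he' : S.IsProjA (1 - e) := ⟨sub_mem (one_mem _) he.1, he.2.one_sub⟩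
  refine ⟨⟨{e, 1 - e}, ?_, ?_, ?_⟩, by simp, by simp⟩
  · intro c hc
    rcases Finset.mem_insert.1 hc with rfl | hc
    · exact he
    · rw [Finset.mem_singleton.1 hc]; exact he'
  · intro c hc c' hc' hne
    rcases Finset.mem_insert.1 hc with rfl | hc <;> rcases Finset.mem_insert.1 hc' with rfl | hc'
    · exact absurd rfl hne
    · rw [Finset.mem_singleton.1 hc']; exact he.2.mul_one_sub_self
    · rw [Finset.mem_singleton.1 hc]; exact he.2.one_sub_mul_self
    · rw [Finset.mem_singleton.1 hc, Finset.mem_singleton.1 hc'] at hne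
      exact absurd rfl hne
  · by_cases h : e = 1 - e
    · have h0 : e = 0 := by
        have := he.2.mul_one_sub_self
        rwa [← h, he.2.isIdempotentElem.eq] at this
      have h1 : (1 : H →L[ℂ] H) = 0 := by
        rw [h0, sub_zero] at h
        exact h.symm
      rw [h1]
      exact Finset.sum_eq_zero fun c _ => by
        rw [← mul_one c, h1, mul_zero]
    · rw [Finset.sum_pair h]; abel

instance st_part_nonempty : Nonempty (StPart S) :=
  ⟨(st_part_of_proj S ⟨one_mem S.A, IsStarProjection.one _⟩).choose⟩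

theorem st_evPart_and {F G : StPart S → Prop} (hF : S.EvPart F) (hG : S.EvPart G) :
    S.EvPart (fun P => F P ∧ G P) := by
  obtain ⟨P₁, h₁⟩ := hF
  obtain ⟨P₂, h₂⟩ := hG
  obtain ⟨P₃, h13, h23⟩ := st_part_sup S P₁ P₂
  exact ⟨P₃, fun P hP => ⟨h₁ P (st_part_trans S h13 hP), h₂ P (st_part_trans S h23 hP)⟩⟩

theorem st_evPart_mono {F G : StPart S → Prop} (hF : S.EvPart F) (h : ∀ P, F P → G P) : S.EvPart G := by
  obtain ⟨P₁, h₁⟩ := hF
  exact ⟨P₁, fun P hP => h P (h₁ P hP)⟩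

theorem st_evPart_exists {F : StPart S → Prop} (hF : S.EvPart F) : ∃ P, F P := by
  obtain ⟨P₁, h₁⟩ := hF
  exact ⟨P₁, h₁ P₁ (st_part_refl S P₁)⟩

/-- The filter of tails of the refinement net. -/
def StData.partFilter : Filter (StPart S) where
  sets := {s | ∃ P₀ : StPart S, ∀ P, P₀ ≤ P → P ∈ s}
  univ_sets := ⟨(st_part_nonempty S).some, fun _ _ => trivial⟩
  sets_of_superset := fun ⟨P₀, h⟩ hst => ⟨P₀, fun P hP => hst (h P hP)⟩
  inter_sets := fun ⟨P₁, h₁⟩ ⟨P₂, h₂⟩ => by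
    obtain ⟨P₃, h13, h23⟩ := st_part_sup S P₁ P₂
    exact ⟨P₃, fun P hP => ⟨h₁ P (st_part_trans S h13 hP), h₂ P (st_part_trans S h23 hP)⟩⟩

instance st_partFilter_neBot : (S.partFilter).NeBot := by
  rw [Filter.neBot_iff, Ne, ← Filter.empty_mem_iff_bot]
  rintro ⟨P₀, h⟩
  exact h P₀ (st_part_refl S P₀)

theorem st_eventually_iff (F : StPart S → Prop) : (∀ᶠ P in S.partFilter, F P) ↔ S.EvPart F := Iff.rfl

/-- every cell of a coarser partition is the sum of the finer cells below it -/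
theorem st_part_cell_sum {P P' : StPart S} (h : P ≤ P') {e : H →L[ℂ] H} (he : e ∈ P.cells) :
    e = ∑ e' ∈ P'.cells, e * e' ∧ ∀ e' ∈ P'.cells, e * e' = e' ∨ e * e' = 0 := by
  refine ⟨by rw [← Finset.mul_sum, P'.sum_eq, mul_one], fun e' he' => ?_⟩
  obtain ⟨e0, he0, h0⟩ := h e' he'
  by_cases hee : e = e0
  · left; rw [hee, h0]
  · right; rw [← h0, ← mul_assoc, P.orth e he e0 he0 hee, zero_mul]

/-! ### pinchings -/

theorem st_pinch_mem {x : H →L[ℂ] H} (hx : x ∈ S.M) (P : StPart S) : P.pinch x ∈ S.M :=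
  sum_mem fun _ he => mul_mem (mul_mem (st_A_le_M S (st_cell_mem S P he)) hx)
    (st_A_le_M S (st_cell_mem S P he))

omit [CompleteSpace H] in
/-- Pythagoras -/
theorem st_norm_sq_sum_orth {κ : Type*} (s : Finset κ) (v : κ → H)
    (ho : ∀ i ∈ s, ∀ j ∈ s, i ≠ j → ⟪v i, v j⟫_ℂ = 0) :
    ‖∑ i ∈ s, v i‖ ^ 2 = ∑ i ∈ s, ‖v i‖ ^ 2 := by
  rw [norm_sq_eq_re_inner (𝕜 := ℂ), sum_inner, map_sum]
  refine Finset.sum_congr rfl fun i hi => ?_
  rw [inner_sum, Finset.sum_eq_single_of_mem i hi (fun j hj hne => ho i hi j hj hne.symm),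
    norm_sq_eq_re_inner (𝕜 := ℂ)]

theorem st_cell_inner_orth (P : StPart S) {e e' : H →L[ℂ] H} (he : e ∈ P.cells) (he' : e' ∈ P.cells)
    (hne : e ≠ e') (ξ η : H) : ⟪e ξ, e' η⟫_ℂ = 0 := by
  rw [← vn_inner_star, st_cell_star S P he, ← vn_mul_apply, P.orth e he e' he' hne]
  simp

theorem st_part_sq_sum (P : StPart S) (ξ : H) : ∑ e ∈ P.cells, ‖e ξ‖ ^ 2 = ‖ξ‖ ^ 2 := by
  rw [← st_norm_sq_sum_orth P.cells (fun e => e ξ)
    (fun e he e' he' hne => st_cell_inner_orth S P he he' hne ξ ξ), ← sum_apply, P.sum_eq]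
  rfl

theorem st_pinch_norm_le (x : H →L[ℂ] H) (P : StPart S) : ‖P.pinch x‖ ≤ ‖x‖ := by
  refine ContinuousLinearMap.opNorm_le_bound _ (norm_nonneg _) fun ξ => ?_
  have hsq : ‖P.pinch x ξ‖ ^ 2 ≤ (‖x‖ * ‖ξ‖) ^ 2 := by
    have h1 : P.pinch x ξ = ∑ e ∈ P.cells, e (x (e ξ)) := by
      simp [StPart.pinch]
    rw [h1, st_norm_sq_sum_orth P.cells (fun e => e (x (e ξ)))
      (fun e he e' he' hne => st_cell_inner_orth S P he he' hne _ _)]
    calc ∑ e ∈ P.cells, ‖e (x (e ξ))‖ ^ 2 ≤ ∑ e ∈ P.cells, ‖x‖ ^ 2 * ‖e ξ‖ ^ 2 := by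
          refine Finset.sum_le_sum fun e he => ?_
          have h2 : ‖e (x (e ξ))‖ ≤ ‖x‖ * ‖e ξ‖ := by
            refine (e.le_opNorm _).trans ?_
            calc ‖e‖ * ‖x (e ξ)‖ ≤ 1 * ‖x (e ξ)‖ :=
                  mul_le_mul_of_nonneg_right (vn_proj_norm_le (st_cell_isProj S P he)) (norm_nonneg _)
              _ = ‖x (e ξ)‖ := one_mul _
              _ ≤ ‖x‖ * ‖e ξ‖ := x.le_opNorm _
          calc ‖e (x (e ξ))‖ ^ 2 ≤ (‖x‖ * ‖e ξ‖) ^ 2 := by gcongr
            _ = ‖x‖ ^ 2 * ‖e ξ‖ ^ 2 := by ring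
      _ = ‖x‖ ^ 2 * ‖ξ‖ ^ 2 := by rw [← Finset.mul_sum, st_part_sq_sum S P]
      _ = (‖x‖ * ‖ξ‖) ^ 2 := by ring
  exact le_of_sq_le_sq hsq (by positivity)

theorem st_pinch_nonneg {x : H →L[ℂ] H} (hx : 0 ≤ x) (P : StPart S) : 0 ≤ P.pinch x :=
  Finset.sum_nonneg fun _ he => (st_cell_isProj S P he).isSelfAdjoint.conjugate_nonneg hx

theorem st_pinch_star (x : H →L[ℂ] H) (P : StPart S) : P.pinch (star x) = star (P.pinch x) := by
  unfold StPart.pinch
  rw [star_sum]
  refine Finset.sum_congr rfl fun e he => ?_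
  rw [star_mul, star_mul, st_cell_star S P he, mul_assoc]

theorem st_pinch_add (x y : H →L[ℂ] H) (P : StPart S) : P.pinch (x + y) = P.pinch x + P.pinch y := by
  unfold StPart.pinch
  rw [← Finset.sum_add_distrib]
  exact Finset.sum_congr rfl fun e _ => by rw [mul_add, add_mul]

theorem st_pinch_smul (c : ℂ) (x : H →L[ℂ] H) (P : StPart S) : P.pinch (c • x) = c • P.pinch x := by
  unfold StPart.pinch
  rw [Finset.smul_sum]
  exact Finset.sum_congr rfl fun e _ => by rw [mul_smul_comm, smul_mul_assoc]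

theorem st_pinch_bimod {a b : H →L[ℂ] H} (ha : a ∈ S.A) (hb : b ∈ S.A) (x : H →L[ℂ] H) (P : StPart S) :
    P.pinch (a * x * b) = a * P.pinch x * b := by
  unfold StPart.pinch
  rw [Finset.mul_sum, Finset.sum_mul]
  refine Finset.sum_congr rfl fun e he => ?_
  have h1 : e * a = a * e := (st_A_comm S (st_cell_mem S P he) ha).eq
  have h2 : b * e = e * b := (st_A_comm S hb (st_cell_mem S P he)).eq
  calc e * (a * x * b) * e = (e * a) * x * (b * e) := by simp only [mul_assoc]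
    _ = a * (e * x * e) * b := by rw [h1, h2]; simp only [mul_assoc]

theorem st_pinch_A {a : H →L[ℂ] H} (ha : a ∈ S.A) (P : StPart S) : P.pinch a = a := by
  unfold StPart.pinch
  have h : ∀ e ∈ P.cells, e * a * e = a * e := fun e he => by
    rw [(st_A_comm S (st_cell_mem S P he) ha).eq, mul_assoc, st_cell_sq S P he]
  rw [Finset.sum_congr rfl h, ← Finset.mul_sum, P.sum_eq, mul_one]

theorem st_pinch_comm {P₀ P : StPart S} (h : P₀ ≤ P) {e : H →L[ℂ] H} (he : e ∈ P₀.cells) (x : H →L[ℂ] H) :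
    Commute (P.pinch x) e := by
  unfold StPart.pinch
  refine Commute.sum_left _ _ _ fun e' he' => ?_
  have hc : e' * e = e * e' := (st_cell_comm S P P₀ he' he).eq
  show e' * x * e' * e = e * (e' * x * e')
  rcases (st_part_cell_sum S h he).2 e' he' with h1 | h1
  · rw [mul_assoc (e' * x), hc, h1, ← mul_assoc, ← mul_assoc, h1]
  · rw [mul_assoc (e' * x), hc, h1, mul_zero, ← mul_assoc, ← mul_assoc, h1, zero_mul, zero_mul]

theorem st_pinch_pinch {P₀ P : StPart S} (h : P₀ ≤ P) (x : H →L[ℂ] H) :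
    P.pinch (P₀.pinch x) = P.pinch x := by
  unfold StPart.pinch
  refine Finset.sum_congr rfl fun e' he' => ?_
  obtain ⟨e0, he0, h0⟩ := h e' he'
  have h0' : e' * e0 = e' := by rw [(st_cell_comm S P P₀ he' he0).eq, h0]
  rw [Finset.mul_sum, Finset.sum_mul, Finset.sum_eq_single_of_mem e0 he0]
  · calc e' * (e0 * x * e0) * e' = (e' * e0) * x * (e0 * e') := by simp only [mul_assoc]
      _ = e' * x * e' := by rw [h0, h0']
  · intro e he hne
    have h1 : e * e' = 0 := by rw [← h0, ← mul_assoc, P₀.orth e he e0 he0 hne, zero_mul]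
    calc e' * (e * x * e) * e' = e' * (e * x) * (e * e') := by simp only [mul_assoc]
      _ = 0 := by rw [h1, mul_zero]

theorem st_phi_pinch {x a : H →L[ℂ] H} (hx : x ∈ S.M) (ha : a ∈ S.A) (P : StPart S) :
    S.phi (P.pinch x * a) = S.phi (x * a) := by
  unfold StPart.pinch
  rw [Finset.sum_mul, st_phi_sum]
  have h : ∀ e ∈ P.cells, S.phi (e * x * e * a) = S.phi (x * a * e) := by
    intro e he
    have heA := st_cell_mem S P he
    rw [mul_assoc, mul_assoc, st_phi_central S heA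
      (mul_mem hx (mul_mem (st_A_le_M S heA) (st_A_le_M S ha))), (st_A_comm S heA ha).eq]
    congr 1
    rw [mul_assoc, mul_assoc, st_cell_sq S P he, mul_assoc]
  rw [Finset.sum_congr rfl h, ← st_phi_sum, ← Finset.mul_sum, P.sum_eq, mul_one]

/-- the projection implementing the pinching on `H` -/
noncomputable def StPart.proj2 {S : StData H} (P : StPart S) : H →L[ℂ] H := ∑ e ∈ P.cells, e * S.rmul e

theorem st_rmul_cell_comm (P P' : StPart S) {e e' : H →L[ℂ] H} (he : e ∈ P.cells) (he' : e' ∈ P'.cells) :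
    Commute (S.rmul e) e' :=
  st_rmul_mem S (st_rbdd_A S (st_cell_mem S P he)) e' (st_A_le_M S (st_cell_mem S P' he'))

theorem st_proj2_mul (P P' : StPart S) {e e' : H →L[ℂ] H} (he : e ∈ P.cells) (he' : e' ∈ P'.cells) :
    (e * S.rmul e) * (e' * S.rmul e') = (e * e') * S.rmul (e * e') := by
  rw [(st_rmul_cell_comm S P P' he he').mul_mul_mul_comm,
    st_rmul_A_mul S (st_cell_mem S P he) (st_cell_mem S P' he')]

theorem st_proj2_isProj (P : StPart S) : IsStarProjection P.proj2 := by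
  refine vn_isStarProjection_sum P.cells (fun e => e * S.rmul e) (fun e he => ?_)
    (fun e he e' he' hne => ?_)
  · exact (st_cell_isProj S P he).mul (st_rmul_A_proj S (P.proj e he))
      (st_rmul_cell_comm S P P he he).symm
  · show (e * S.rmul e) * (e' * S.rmul e') = 0
    rw [st_proj2_mul S P P he he', P.orth e he e' he' hne, zero_mul]

theorem st_proj2_anti {P P' : StPart S} (h : P ≤ P') : P'.proj2 * P.proj2 = P'.proj2 := by
  unfold StPart.proj2
  rw [Finset.sum_mul]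
  refine Finset.sum_congr rfl fun e' he' => ?_
  obtain ⟨e0, he0, h0⟩ := h e' he'
  have h0' : e' * e0 = e' := by rw [(st_cell_comm S P' P he' he0).eq, h0]
  rw [Finset.mul_sum, Finset.sum_eq_single_of_mem e0 he0]
  · rw [st_proj2_mul S P' P he' he0, h0']
  · intro e he hne
    have h1 : e' * e = 0 := by
      rw [← h0', mul_assoc, P.orth e0 he0 e he hne.symm, mul_zero]
    rw [st_proj2_mul S P' P he' he, h1, zero_mul]

theorem st_pinch_Om {x : H →L[ℂ] H} (hx : x ∈ S.M) (P : StPart S) :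
    P.pinch x S.Om = P.proj2 (x S.Om) := by
  unfold StPart.pinch StPart.proj2
  rw [sum_apply, sum_apply]
  refine Finset.sum_congr rfl fun e he => ?_
  rw [vn_mul_apply, vn_mul_apply, vn_mul_apply, st_rmul_spec S (st_rbdd_A S (st_cell_mem S P he)) hx]

/-- decreasing nets of projections are strongly Cauchy -/
theorem st_proj2_tendsto (ξ : H) : ∃ η : H, Filter.Tendsto (fun P : StPart S => P.proj2 ξ) S.partFilter (nhds η) := by
  let _ : Preorder (StPart S) :=
    { le := (· ≤ ·), le_refl := st_part_refl S, le_trans := fun _ _ _ => st_part_trans S }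
  have : IsDirected (StPart S) (· ≤ ·) := ⟨fun P P' => st_part_sup S P P'⟩
  have h := vn_sotTendsto_projInf (p := fun P : StPart S => P.proj2) (st_proj2_isProj S)
    (fun P P' hPP' => ((st_proj2_isProj S P').le_iff_mul_eq_left (st_proj2_isProj S P)).2
      (st_proj2_anti S hPP'))
  have hf : S.partFilter = Filter.atTop := by
    ext s
    rw [Filter.mem_atTop_sets]
    rfl
  exact ⟨_, hf ▸ h ξ⟩

end Claimed.Agent.R302
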