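/-
Row 302, package ST, file EA: partitions, pinchings, the conditional expectation `E_A`, the pinching limit (D4, case v = 1),
factorisation of `A`-central vector functionals through `E_A`.
LEAF ST-EA (helper62): SORRY-FREE.

Proof plan.
* `T_P := ∑_{e ∈ P} e * rmul e` is a projection (commuting projections `e ∈ M`, `rmul e ∈ M'`, orthogonal over `e`), decreasing in `P`,
  and `P.pinch x Om = T_P (x Om)`  (`e x e Om = e (rmul e) x Om`).
  A decreasing net of projections is strongly Cauchy: `‖T_P ξ‖²` is decreasing and bounded below, and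
  `‖(T_P - T_P') ξ‖² = ‖T_P ξ‖² - ‖T_P' ξ‖²` for `P ≤ P'`.  So `P.pinch x Om` converges in norm to some `η`.
* `st_strong_lim` (filter `atTop`-like on `StPart S`: use the filter generated by the tails `{P | P₀ ≤ P}`) gives `b ∈ M`, `b Om = η`, `‖b‖ ≤ ‖x‖`,
  `P.pinch x → b` strongly.  `b` commutes with every projection `e` of `A` (for `P ≥ {e, 1-e}` the pinching commutes with `e`), so `b ∈ A`.
  `phi (b a) = lim phi (P.pinch x a) = phi (x a)`.   Uniqueness: `phi ((b-b') a) = 0` with `a = (b-b')*` and `sep`.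
* positivity, contractivity: from `b = strong limit of pinchings`.
* `st_central_factor`: `⟪ξ, x ξ⟫ = ⟪ξ, P.pinch x ξ⟫` for all `P` (centrality, `∑ e = 1`), then strong convergence.
-/
import Claimed.Agent.R302.ST.EAPart

set_option autoImplicit false

namespace Claimed.Agent.R302

open scoped InnerProductSpace ComplexOrder
open Filter

variable {H : Type*} [NormedAddCommGroup H] [InnerProductSpace ℂ H] [CompleteSpace H]
variable (S : StData H)

/-! ### existence, uniqueness, pinching limit -/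

theorem st_EA_unique {b b' x : H →L[ℂ] H} (hb : b ∈ S.A) (hb' : b' ∈ S.A)
    (h : ∀ a ∈ S.A, S.phi (b * a) = S.phi (x * a)) (h' : ∀ a ∈ S.A, S.phi (b' * a) = S.phi (x * a)) : b = b' := by
  have hd : b - b' ∈ S.A := sub_mem hb hb'
  have hs : star (b - b') ∈ S.A := star_mem hd
  have h1 : S.phi (star (b - b') * (b - b')) = 0 := by
    rw [(st_A_comm S hs hd).eq, sub_mul, st_phi_sub, h _ hs, h' _ hs, sub_self]
  exact sub_eq_zero.1 (st_phi_faithful S (st_A_le_M S hd) h1)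

/-- Main existence statement, together with the strong pinching limit. -/
theorem st_EA_exists {x : H →L[ℂ] H} (hx : x ∈ S.M) :
    ∃ b ∈ S.A, (∀ a ∈ S.A, S.phi (b * a) = S.phi (x * a)) ∧ ‖b‖ ≤ ‖x‖ ∧
      ∀ ξ : H, Filter.Tendsto (fun P : StPart S => P.pinch x ξ) S.partFilter (nhds (b ξ)) := by
  obtain ⟨η, hη⟩ := st_proj2_tendsto S (x S.Om)
  have hlim : Tendsto (fun P : StPart S => P.pinch x S.Om) S.partFilter (nhds η) := by
    simpa only [st_pinch_Om S hx] using hη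
  obtain ⟨b, hbM, hbn, -, hb⟩ := st_strong_lim S S.partFilter (fun P => P.pinch x) ‖x‖
    (fun P => st_pinch_mem S hx P) (fun P => st_pinch_norm_le S x P) η hlim
  have hbA : b ∈ S.A := by
    apply st_mem_A_of_comm_proj S hbM
    intro e he
    obtain ⟨P₀, heP, -⟩ := st_part_of_proj S he
    ext ξ
    have h1 := hb (e ξ)
    have h2 : Tendsto (fun P : StPart S => e (P.pinch x ξ)) S.partFilter (nhds (e (b ξ))) :=
      (e.continuous.tendsto _).comp (hb ξ)
    have h3 : (fun P : StPart S => P.pinch x (e ξ)) =ᶠ[S.partFilter] (fun P => e (P.pinch x ξ)) := by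
      rw [Filter.EventuallyEq, st_eventually_iff]
      exact ⟨P₀, fun P hP => congrArg (fun T : H →L[ℂ] H => T ξ) (st_pinch_comm S hP heP x).eq⟩
    exact tendsto_nhds_unique (h1.congr' h3) h2
  refine ⟨b, hbA, ?_, hbn, hb⟩
  intro a ha
  have h1 : Tendsto (fun P : StPart S => S.phi (P.pinch x * a)) S.partFilter (nhds (S.phi (b * a))) := by
    unfold StData.phi
    exact Filter.Tendsto.inner tendsto_const_nhds (hb (a S.Om))
  simp only [st_phi_pinch S hx ha] at h1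
  exact tendsto_nhds_unique h1 tendsto_const_nhds

theorem st_EA_mem {x : H →L[ℂ] H} (hx : x ∈ S.M) : S.EA x ∈ S.A := by
  have h : ∃ b ∈ S.A, ∀ a ∈ S.A, S.phi (b * a) = S.phi (x * a) := by
    obtain ⟨b, hb, h, -⟩ := st_EA_exists S hx
    exact ⟨b, hb, h⟩
  unfold StData.EA
  rw [dif_pos h]
  exact (Classical.choose_spec h).1

theorem st_EA_spec {x a : H →L[ℂ] H} (hx : x ∈ S.M) (ha : a ∈ S.A) :
    S.phi (S.EA x * a) = S.phi (x * a) := by
  have h : ∃ b ∈ S.A, ∀ a ∈ S.A, S.phi (b * a) = S.phi (x * a) := by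
    obtain ⟨b, hb, h, -⟩ := st_EA_exists S hx
    exact ⟨b, hb, h⟩
  unfold StData.EA
  rw [dif_pos h]
  exact (Classical.choose_spec h).2 a ha

theorem st_EA_eq {x b : H →L[ℂ] H} (hx : x ∈ S.M) (hb : b ∈ S.A)
    (h : ∀ a ∈ S.A, S.phi (b * a) = S.phi (x * a)) : S.EA x = b :=
  st_EA_unique S (st_EA_mem S hx) hb (fun _ ha => st_EA_spec S hx ha) h

/-- (D4), `v = 1`, strong form. -/
theorem st_pinch_tendsto {x : H →L[ℂ] H} (hx : x ∈ S.M) (ξ : H) :
    Filter.Tendsto (fun P : StPart S => P.pinch x ξ) S.partFilter (nhds (S.EA x ξ)) := by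
  obtain ⟨b, hb, h, -, hl⟩ := st_EA_exists S hx
  rw [st_EA_eq S hx hb h]
  exact hl ξ

theorem st_pinch_ev {x : H →L[ℂ] H} (hx : x ∈ S.M) (ξ : H) {ε : ℝ} (hε : 0 < ε) :
    S.EvPart (fun P => ‖(P.pinch x - S.EA x) ξ‖ < ε) := by
  rw [← st_eventually_iff]
  have h := (Metric.tendsto_nhds.1 (st_pinch_tendsto S hx ξ)) ε hε
  simpa only [dist_eq_norm, sub_apply] using h

/-! ### properties -/

theorem st_EA_add {x y : H →L[ℂ] H} (hx : x ∈ S.M) (hy : y ∈ S.M) : S.EA (x + y) = S.EA x + S.EA y := by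
  refine st_EA_eq S (add_mem hx hy) (add_mem (st_EA_mem S hx) (st_EA_mem S hy)) fun a ha => ?_
  rw [add_mul, add_mul, st_phi_add, st_phi_add, st_EA_spec S hx ha, st_EA_spec S hy ha]

theorem st_EA_sub {x y : H →L[ℂ] H} (hx : x ∈ S.M) (hy : y ∈ S.M) : S.EA (x - y) = S.EA x - S.EA y := by
  refine st_EA_eq S (sub_mem hx hy) (sub_mem (st_EA_mem S hx) (st_EA_mem S hy)) fun a ha => ?_
  rw [sub_mul, sub_mul, st_phi_sub, st_phi_sub, st_EA_spec S hx ha, st_EA_spec S hy ha]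

theorem st_EA_smul (c : ℂ) {x : H →L[ℂ] H} (hx : x ∈ S.M) : S.EA (c • x) = c • S.EA x := by
  refine st_EA_eq S (S.M.smul_mem hx c) (S.A.smul_mem (st_EA_mem S hx) c) fun a ha => ?_
  rw [smul_mul_assoc, smul_mul_assoc, st_phi_smul, st_phi_smul, st_EA_spec S hx ha]

theorem st_EA_of_mem {a : H →L[ℂ] H} (ha : a ∈ S.A) : S.EA a = a :=
  st_EA_eq S (st_A_le_M S ha) ha fun _ _ => rfl

theorem st_EA_sum {ι : Type*} (s : Finset ι) (f : ι → H →L[ℂ] H) (hf : ∀ i ∈ s, f i ∈ S.M) :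
    S.EA (∑ i ∈ s, f i) = ∑ i ∈ s, S.EA (f i) := by
  classical
  induction s using Finset.induction_on with
  | empty => simpa using st_EA_of_mem S (zero_mem S.A)
  | insert i s his ih =>
    rw [Finset.sum_insert his, Finset.sum_insert his,
      st_EA_add S (hf i (Finset.mem_insert_self i s))
        (sum_mem fun j hj => hf j (Finset.mem_insert_of_mem hj)),
      ih fun j hj => hf j (Finset.mem_insert_of_mem hj)]

theorem st_EA_star {x : H →L[ℂ] H} (hx : x ∈ S.M) : S.EA (star x) = star (S.EA x) := by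
  refine st_EA_eq S (star_mem hx) (star_mem (st_EA_mem S hx)) fun a ha => ?_
  have hsa : star a ∈ S.A := star_mem ha
  have e1 : star (S.EA x) * a = star (S.EA x * star a) := by
    rw [star_mul, star_star, (st_A_comm S ha (star_mem (st_EA_mem S hx))).eq]
  have e2 : a * star x = star (x * star a) := by rw [star_mul, star_star]
  rw [e1, st_phi_star, st_EA_spec S hx hsa, ← st_phi_star, ← e2, st_phi_central S ha (star_mem hx)]

theorem st_EA_mul_left {a x : H →L[ℂ] H} (ha : a ∈ S.A) (hx : x ∈ S.M) : S.EA (a * x) = a * S.EA x := by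
  refine st_EA_eq S (mul_mem (st_A_le_M S ha) hx) (mul_mem ha (st_EA_mem S hx)) fun a' ha' => ?_
  rw [(st_A_comm S ha (st_EA_mem S hx)).eq, mul_assoc, st_EA_spec S hx (mul_mem ha ha'),
    mul_assoc a x a', st_phi_central S ha (mul_mem hx (st_A_le_M S ha')), mul_assoc,
    (st_A_comm S ha ha').eq]

theorem st_EA_mul_right {a x : H →L[ℂ] H} (ha : a ∈ S.A) (hx : x ∈ S.M) : S.EA (x * a) = S.EA x * a := by
  refine st_EA_eq S (mul_mem hx (st_A_le_M S ha)) (mul_mem (st_EA_mem S hx) ha) fun a' ha' => ?_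
  rw [mul_assoc, st_EA_spec S hx (mul_mem ha ha'), mul_assoc]

theorem st_EA_nonneg {x : H →L[ℂ] H} (hx : x ∈ S.M) (h0 : 0 ≤ x) : 0 ≤ S.EA x := by
  rw [vn_nonneg_iff]
  intro ξ
  have h1 : Tendsto (fun P : StPart S => ⟪ξ, P.pinch x ξ⟫_ℂ) S.partFilter (nhds ⟪ξ, S.EA x ξ⟫_ℂ) :=
    Filter.Tendsto.inner tendsto_const_nhds (st_pinch_tendsto S hx ξ)
  exact ge_of_tendsto' h1 fun P => vn_nonneg_iff.1 (st_pinch_nonneg S h0 P) ξ

theorem st_EA_mono {x y : H →L[ℂ] H} (hx : x ∈ S.M) (hy : y ∈ S.M) (h : x ≤ y) : S.EA x ≤ S.EA y := by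
  rw [← sub_nonneg, ← st_EA_sub S hy hx]
  exact st_EA_nonneg S (sub_mem hy hx) (sub_nonneg.2 h)

theorem st_EA_norm_le {x : H →L[ℂ] H} (hx : x ∈ S.M) : ‖S.EA x‖ ≤ ‖x‖ := by
  obtain ⟨b, hb, h, hn, -⟩ := st_EA_exists S hx
  rw [st_EA_eq S hx hb h]
  exact hn

theorem st_phi_EA {x : H →L[ℂ] H} (hx : x ∈ S.M) : S.phi (S.EA x) = S.phi x := by
  simpa using st_EA_spec S hx (one_mem S.A)

theorem st_EA_faithful {x : H →L[ℂ] H} (hx : x ∈ S.M) (h : S.EA (star x * x) = 0) : x = 0 := by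
  apply st_phi_faithful S hx
  rw [← st_phi_EA S (mul_mem (star_mem hx) hx), h]
  simp [StData.phi]

theorem st_EA_Om_perp {x a : H →L[ℂ] H} (hx : x ∈ S.M) (ha : a ∈ S.A) :
    ⟪a S.Om, (x - S.EA x) S.Om⟫_ℂ = 0 := by
  have hsa : star a ∈ S.A := star_mem ha
  rw [← st_phi_star_mul, mul_sub, st_phi_sub, st_phi_central S hsa hx,
    (st_A_comm S hsa (st_EA_mem S hx)).eq, st_EA_spec S hx hsa, sub_self]

/-- `E_A x Om` is the orthogonal projection of `x Om` onto `closure (A Om)`; in particular: -/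
theorem st_EA_Om_norm_le {x : H →L[ℂ] H} (hx : x ∈ S.M) : ‖S.EA x S.Om‖ ≤ ‖x S.Om‖ := by
  have h := st_EA_Om_perp S hx (st_EA_mem S hx)
  have h1 := norm_add_sq_eq_norm_sq_add_norm_sq_of_inner_eq_zero (𝕜 := ℂ) _ _ h
  have e : S.EA x S.Om + (x - S.EA x) S.Om = x S.Om := by simp
  rw [e] at h1
  have h2 : ‖S.EA x S.Om‖ * ‖S.EA x S.Om‖ ≤ ‖x S.Om‖ * ‖x S.Om‖ := by
    rw [h1]; nlinarith [norm_nonneg ((x - S.EA x) S.Om)]
  exact abs_le_of_sq_le_sq' (by nlinarith) (norm_nonneg _) |>.2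

/-- Kadison-Schwarz -/
theorem st_EA_schwarz {x : H →L[ℂ] H} (hx : x ∈ S.M) : star (S.EA x) * S.EA x ≤ S.EA (star x * x) := by
  have hb := st_EA_mem S hx
  have hbM := st_A_le_M S hb
  have hsb : star (S.EA x) ∈ S.A := star_mem hb
  have hd : x - S.EA x ∈ S.M := sub_mem hx hbM
  have h0 := st_EA_nonneg S (mul_mem (star_mem hd) hd) (star_mul_self_nonneg _)
  have e : star (x - S.EA x) * (x - S.EA x)
      = star x * x - star x * S.EA x - star (S.EA x) * x + star (S.EA x) * S.EA x := by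
    rw [star_sub]; noncomm_ring
  rw [e, st_EA_add S (sub_mem (sub_mem (mul_mem (star_mem hx) hx) (mul_mem (star_mem hx) hbM))
      (mul_mem (st_A_le_M S hsb) hx)) (mul_mem (st_A_le_M S hsb) hbM),
    st_EA_sub S (sub_mem (mul_mem (star_mem hx) hx) (mul_mem (star_mem hx) hbM))
      (mul_mem (st_A_le_M S hsb) hx),
    st_EA_sub S (mul_mem (star_mem hx) hx) (mul_mem (star_mem hx) hbM),
    st_EA_mul_right S hb (star_mem hx), st_EA_mul_left S hsb hx, st_EA_star S hx,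
    st_EA_of_mem S (mul_mem hsb hb)] at h0
  rw [← sub_nonneg]
  simpa using h0

/-- Every `A`-central vector functional factors through `E_A`. -/
theorem st_central_factor (ξ : H)
    (hξ : ∀ a ∈ S.A, ∀ x ∈ S.M, ⟪ξ, (a * x) ξ⟫_ℂ = ⟪ξ, (x * a) ξ⟫_ℂ) {x : H →L[ℂ] H} (hx : x ∈ S.M) :
    ⟪ξ, x ξ⟫_ℂ = ⟪ξ, S.EA x ξ⟫_ℂ := by
  have h1 : Tendsto (fun P : StPart S => ⟪ξ, P.pinch x ξ⟫_ℂ) S.partFilter (nhds ⟪ξ, S.EA x ξ⟫_ℂ) :=
    Filter.Tendsto.inner tendsto_const_nhds (st_pinch_tendsto S hx ξ)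
  have h2 : ∀ P : StPart S, ⟪ξ, P.pinch x ξ⟫_ℂ = ⟪ξ, x ξ⟫_ℂ := by
    intro P
    have e1 : ∀ e ∈ P.cells, ⟪ξ, (e * x * e) ξ⟫_ℂ = ⟪ξ, (x * e) ξ⟫_ℂ := by
      intro e he
      have hp := P.proj e he
      rw [mul_assoc, hξ e hp.1 _ (mul_mem hx (st_A_le_M S hp.1)), mul_assoc,
        hp.2.isIdempotentElem.eq]
    unfold StPart.pinch
    rw [sum_apply, inner_sum, Finset.sum_congr rfl e1, ← inner_sum,
      ← sum_apply, ← Finset.mul_sum, P.sum_eq, mul_one]
  simp only [h2] at h1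
  exact tendsto_nhds_unique tendsto_const_nhds h1

/-- Normality of `E_A` in filter form (bounded strong convergence). -/
theorem st_EA_tendsto {ι : Type*} (l : Filter ι) (x : ι → H →L[ℂ] H) (y : H →L[ℂ] H) (C : ℝ)
    (hM : ∀ i, x i ∈ S.M) (hy : y ∈ S.M) (hC : ∀ i, ‖x i‖ ≤ C)
    (hlim : Filter.Tendsto (fun i => x i S.Om) l (nhds (y S.Om))) (ξ : H) :
    Filter.Tendsto (fun i => S.EA (x i) ξ) l (nhds (S.EA y ξ)) := by
  rw [Metric.tendsto_nhds]
  intro ε hε
  obtain ⟨δ, hδ, h⟩ := st_mult_vec S ξ (C + ‖y‖) hε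
  filter_upwards [(Metric.tendsto_nhds.1 hlim) δ hδ] with i hi
  have hd : x i - y ∈ S.M := sub_mem (hM i) hy
  have h1 := h (S.EA (x i - y)) (st_A_le_M S (st_EA_mem S hd))
    ((st_EA_norm_le S hd).trans ((norm_sub_le _ _).trans (by linarith [hC i])))
    (lt_of_le_of_lt (st_EA_Om_norm_le S hd) (by simpa [dist_eq_norm] using hi))
  rw [st_EA_sub S (hM i) hy] at h1
  simpa [dist_eq_norm] using h1

end Claimed.Agent.R302
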