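/-
Row 302, package ST, file NormAlg (part 1 of the Norm chain): groupoid normalisers, covariance of `E_A`, fixed part, Radon-Nikodym elements, right multiplications
by normalisers, three-set lemma, symmetric unitary normalisers, `Nalg` is a `*`-algebra.
LEAVES: ST-Norm-alg (closure properties, covariance, fixed part, D4), ST-Norm-RN (RN existence + exhaustion),
        ST-Norm-three (three-set lemma + symmetric unitaries + Nalg algebra), ST-Norm-rmul.

Proof plans.
* covariance `EA (v z v*) = v EA z v*`:  `psi w := phi (v w v*) = ⟪v* Om, w v* Om⟫` is `A`-central, so `psi = psi ∘ EA` (`st_central_factor`);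
  `phi (v z v* a) = psi (z a')`, `a' = v* a v`, `= psi (EA z a') = phi (v EA z v* a)`; conclude with `st_EA_eq`.
* fixed part: `b := EA v`, `f :=` support projection of `b` in `A`.  `b (v* a v) = EA (v v* a v) = EA (a v) = a b`, hence `f (v* a v - a) = 0`, hence `v f` commutes
  with `A`, `v f ∈ A`, `b = b f = EA (v f) = v f`.  Replace `f` by `f v*v`.
* (D4): `∑ (v e v*) z (v e v*) = v (P.pinch (v* z v)) v*`, strong pinching limit at the vector `v* Om`, covariance.
* RN existence (`st_RN_of_le`): `psi a := phi (v* a v) ≤ C phi a` on `A₊`.  For `t ≥ 0` let `e_t :=` sup of all projections `e ∈ A` such that `psi e' ≤ t phi e'` for all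
  projections `e' ≤ e` of `A` (hereditary + closed under orthogonal sums: complete additivity of vector functionals).  Below `1 - e_t`: `psi ≥ t phi`
  (maximal orthogonal family of `e''` with `psi e'' > t phi e''`).  `k :=` norm limit of `∑ t_i (e_{t_{i+1}} - e_{t_i})`.  Then `psi a = phi (k a)` on `A`, and on `M` by
  `st_central_factor` for `ξ = v Om`.      (Alternative: Riesz on `closure (A Om)` + clipping of approximants.)
* exhaustion: with the same `e_t` for `psi` (no domination assumed): `phi (v v* - e_t) ≤ psi 1 / t`.  Do it for `v` and `v*` and intersect.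
* `st_rbdd_GNb`: `‖x v Om‖² = phi (v* x* x v) = phi (k x* x) ≤ ‖k‖ ‖x Om‖²`.
  adjoint: `phi (z v) = phi (v* v z v) = phi (k v z)`.
* three-set lemma: see the comment at `st_three`.
-/
import Claimed.Agent.R302.ST.EA

set_option autoImplicit false
set_option linter.unusedVariables false

namespace Claimed.Agent.R302

open scoped InnerProductSpace

variable {H : Type*} [NormedAddCommGroup H] [InnerProductSpace ℂ H] [CompleteSpace H]
variable (S : StData H)

/-! ### closure properties -/

theorem st_GN_pisom' {v : H →L[ℂ] H} (hv : S.IsGN v) : v * (star v * v) = v := by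
  rw [← mul_assoc]; exact hv.pisom

theorem st_GN_pisom_star {v : H →L[ℂ] H} (hv : S.IsGN v) : star v * (v * star v) = star v := by
  have := congrArg star hv.pisom
  simpa [star_mul, mul_assoc] using this

theorem st_GN_pisom_star' {v : H →L[ℂ] H} (hv : S.IsGN v) : star v * v * star v = star v := by
  rw [mul_assoc]; exact st_GN_pisom_star S hv

theorem st_GN_star {v : H →L[ℂ] H} (hv : S.IsGN v) : S.IsGN (star v) where
  mem := star_mem hv.mem
  pisom := by rw [star_star]; exact st_GN_pisom_star' S hv
  src := by rw [star_star]; exact hv.rng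
  rng := by rw [star_star]; exact hv.src
  conj := fun a ha => by rw [star_star]; exact hv.conj' a ha
  conj' := fun a ha => by rw [star_star]; exact hv.conj a ha

theorem st_GN_mul {v w : H →L[ℂ] H} (hv : S.IsGN v) (hw : S.IsGN w) : S.IsGN (v * w) where
  mem := mul_mem hv.mem hw.mem
  pisom := by
    calc v * w * star (v * w) * (v * w)
        = v * ((w * star w) * (star v * v)) * w := by rw [star_mul]; simp only [mul_assoc]
      _ = v * ((star v * v) * (w * star w)) * w := by rw [(st_A_comm S hw.rng hv.src).eq]
      _ = (v * star v * v) * (w * star w * w) := by simp only [mul_assoc]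
      _ = v * w := by rw [hv.pisom, hw.pisom]
  src := by
    have : star (v * w) * (v * w) = star w * (star v * v) * w := by
      rw [star_mul]; simp only [mul_assoc]
    rw [this]; exact hw.conj' _ hv.src
  rng := by
    have : v * w * star (v * w) = v * (w * star w) * star v := by
      rw [star_mul]; simp only [mul_assoc]
    rw [this]; exact hv.conj _ hw.rng
  conj := fun a ha => by
    have : v * w * a * star (v * w) = v * (w * a * star w) * star v := by
      rw [star_mul]; simp only [mul_assoc]
    rw [this]; exact hv.conj _ (hw.conj a ha)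
  conj' := fun a ha => by
    have : star (v * w) * a * (v * w) = star w * (star v * a * v) * w := by
      rw [star_mul]; simp only [mul_assoc]
    rw [this]; exact hw.conj' _ (hv.conj' a ha)

/-- partial isometries of `A` -/
theorem st_GN_of_mem_A {c : H →L[ℂ] H} (hc : c ∈ S.A) (h : c * star c * c = c) : S.IsGN c where
  mem := st_A_le_M S hc
  pisom := h
  src := mul_mem (star_mem hc) hc
  rng := mul_mem hc (star_mem hc)
  conj := fun a ha => mul_mem (mul_mem hc ha) (star_mem hc)
  conj' := fun a ha => mul_mem (mul_mem (star_mem hc) ha) hc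

theorem st_GN_proj {e : H →L[ℂ] H} (he : S.IsProjA e) : S.IsGN e :=
  st_GN_of_mem_A S he.1 (by
    rw [he.2.isSelfAdjoint.star_eq, he.2.isIdempotentElem.eq, he.2.isIdempotentElem.eq])

theorem st_GN_one : S.IsGN 1 := st_GN_of_mem_A S (one_mem _) (by simp)

theorem st_GN_zero : S.IsGN 0 := st_GN_of_mem_A S (zero_mem _) (by simp)

theorem st_GN_cut_left {v e : H →L[ℂ] H} (hv : S.IsGN v) (he : S.IsProjA e) : S.IsGN (e * v) :=
  st_GN_mul S (st_GN_proj S he) hv

theorem st_GN_cut_right {v e : H →L[ℂ] H} (hv : S.IsGN v) (he : S.IsProjA e) : S.IsGN (v * e) :=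
  st_GN_mul S hv (st_GN_proj S he)

theorem st_GN_src_proj {v : H →L[ℂ] H} (hv : S.IsGN v) : S.IsProjA (star v * v) := by
  refine ⟨hv.src, ⟨?_, ?_⟩⟩
  · show star v * v * (star v * v) = star v * v
    rw [mul_assoc, st_GN_pisom' S hv]
  · show star (star v * v) = star v * v
    rw [star_mul, star_star]

theorem st_GN_rng_proj {v : H →L[ℂ] H} (hv : S.IsGN v) : S.IsProjA (v * star v) := by
  have := st_GN_src_proj S (st_GN_star S hv)
  rwa [star_star] at this

/-- `a v = v (v* a v)` -/
theorem st_GN_intertwine {v a : H →L[ℂ] H} (hv : S.IsGN v) (ha : a ∈ S.A) :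
    a * v = v * (star v * a * v) := by
  calc a * v = a * (v * star v * v) := by rw [hv.pisom]
    _ = (a * (v * star v)) * v := by simp only [mul_assoc]
    _ = ((v * star v) * a) * v := by rw [(st_A_comm S ha hv.rng).eq]
    _ = v * (star v * a * v) := by simp only [mul_assoc]

theorem st_GN_intertwine' {v a : H →L[ℂ] H} (hv : S.IsGN v) (ha : a ∈ S.A) :
    v * a = (v * a * star v) * v := by
  calc v * a = (v * (star v * v)) * a := by rw [st_GN_pisom' S hv]
    _ = v * ((star v * v) * a) := by simp only [mul_assoc]
    _ = v * (a * (star v * v)) := by rw [(st_A_comm S hv.src ha).eq]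
    _ = (v * a * star v) * v := by simp only [mul_assoc]

theorem st_GN_conj_mul {v a b : H →L[ℂ] H} (hv : S.IsGN v) (ha : a ∈ S.A) (hb : b ∈ S.A) :
    v * (a * b) * star v = (v * a * star v) * (v * b * star v) := by
  calc v * (a * b) * star v = (v * a) * b * star v := by simp only [mul_assoc]
    _ = ((v * a * star v) * v) * b * star v := by rw [← st_GN_intertwine' S hv ha]
    _ = (v * a * star v) * (v * b * star v) := by simp only [mul_assoc]

theorem st_GN_conj_proj {v e : H →L[ℂ] H} (hv : S.IsGN v) (he : S.IsProjA e) :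
    S.IsProjA (v * e * star v) := by
  refine ⟨hv.conj e he.1, ⟨?_, ?_⟩⟩
  · show v * e * star v * (v * e * star v) = v * e * star v
    rw [← st_GN_conj_mul S hv he.1 he.1, he.2.isIdempotentElem.eq]
  · show star (v * e * star v) = v * e * star v
    rw [star_mul, star_mul, star_star, he.2.isSelfAdjoint.star_eq, mul_assoc]

theorem st_sym_GN {u : H →L[ℂ] H} (hu : S.IsSym u) : S.IsGN u := by
  obtain ⟨hM, hsa, hsq, hconj, -⟩ := hu
  have hs : star u = u := hsa.star_eq
  exact
    { mem := hM
      pisom := by rw [hs, hsq, one_mul]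
      src := by rw [hs, hsq]; exact one_mem _
      rng := by rw [hs, hsq]; exact one_mem _
      conj := fun a ha => by rw [hs]; exact hconj a ha
      conj' := fun a ha => by rw [hs]; exact hconj a ha }

theorem st_sym_GNb {u : H →L[ℂ] H} (hu : S.IsSym u) : S.IsGNb u := by
  refine ⟨st_sym_GN S hu, hu.2.2.2.2, ?_⟩
  rw [hu.2.1.star_eq]
  exact hu.2.2.2.2

theorem st_sym_one : S.IsSym 1 := by
  refine ⟨one_mem _, IsSelfAdjoint.one _, one_mul 1, fun a ha => by simpa using ha, 1, one_mem _,
    zero_le_one, fun w _ => by simp⟩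

/-! ### covariance, fixed part, (D4) -/

theorem st_GN_norm_le {v : H →L[ℂ] H} (hv : S.IsGN v) : ‖v‖ ≤ 1 := by
  have h1 := vn_proj_norm_le (st_GN_src_proj S hv).2
  rw [CStarRing.norm_star_mul_self] at h1
  nlinarith [norm_nonneg v]

theorem st_inner_conj (v y : H →L[ℂ] H) :
    ⟪star v S.Om, y (star v S.Om)⟫_ℂ = S.phi (v * y * star v) := by
  unfold StData.phi
  rw [← vn_inner_star (star v), star_star]
  rfl

/-- the functional `w ↦ phi (v w v*)` is `A`-central -/
theorem st_GN_central {v : H →L[ℂ] H} (hv : S.IsGN v) : ∀ a ∈ S.A, ∀ x ∈ S.M,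
    ⟪star v S.Om, (a * x) (star v S.Om)⟫_ℂ = ⟪star v S.Om, (x * a) (star v S.Om)⟫_ℂ := by
  intro a ha x hx
  rw [st_inner_conj, st_inner_conj]
  have h1 : v * (a * x) * star v = (v * a * star v) * (v * x * star v) := by
    calc v * (a * x) * star v = (v * a) * x * star v := by simp only [mul_assoc]
      _ = ((v * a * star v) * v) * x * star v := by rw [← st_GN_intertwine' S hv ha]
      _ = (v * a * star v) * (v * x * star v) := by simp only [mul_assoc]
  have h2 : (v * x * star v) * (v * a * star v) = v * (x * a) * star v := by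
    calc (v * x * star v) * (v * a * star v) = v * x * ((star v * v) * a) * star v := by
          simp only [mul_assoc]
      _ = v * x * (a * (star v * v)) * star v := by rw [(st_A_comm S hv.src ha).eq]
      _ = v * (x * a) * (star v * v * star v) := by simp only [mul_assoc]
      _ = v * (x * a) * star v := by rw [st_GN_pisom_star' S hv]
  rw [h1, st_phi_central S (hv.conj a ha) (mul_mem (mul_mem hv.mem hx) (star_mem hv.mem)), h2]

theorem st_EA_conj {v z : H →L[ℂ] H} (hv : S.IsGN v) (hz : z ∈ S.M) :
    S.EA (v * z * star v) = v * S.EA z * star v := by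
  refine st_EA_eq S (mul_mem (mul_mem hv.mem hz) (star_mem hv.mem))
    (hv.conj _ (st_EA_mem S hz)) fun a ha => ?_
  have ha' : star v * a * v ∈ S.A := hv.conj' a ha
  have h0 : star v * a = (star v * a * v) * star v := by
    have := st_GN_intertwine' S (st_GN_star S hv) ha
    rwa [star_star] at this
  have h1 : ∀ y : H →L[ℂ] H, v * y * star v * a = v * (y * (star v * a * v)) * star v := by
    intro y
    calc v * y * star v * a = v * y * (star v * a) := by simp only [mul_assoc]
      _ = v * y * ((star v * a * v) * star v) := by rw [← h0]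
      _ = v * (y * (star v * a * v)) * star v := by simp only [mul_assoc]
  rw [h1, h1, ← st_inner_conj, ← st_inner_conj,
    st_central_factor S _ (st_GN_central S hv) (mul_mem hz (st_A_le_M S ha')),
    st_EA_mul_right S ha' hz]

theorem st_EA_conj' {v z : H →L[ℂ] H} (hv : S.IsGN v) (hz : z ∈ S.M) :
    S.EA (star v * z * v) = star v * S.EA z * v := by
  have := st_EA_conj S (st_GN_star S hv) hz
  rwa [star_star] at this

/-- `v* E_A(v x) = E_A(x v) v*` -/
theorem st_EA_flip {v x : H →L[ℂ] H} (hv : S.IsGN v) (hx : x ∈ S.M) :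
    star v * S.EA (v * x) = S.EA (x * v) * star v := by
  have hvx : v * x ∈ S.M := mul_mem hv.mem hx
  have hxv : x * v ∈ S.M := mul_mem hx hv.mem
  have hb : S.EA (v * x) ∈ S.A := st_EA_mem S hvx
  have h1 : S.EA (v * x) = (v * star v) * S.EA (v * x) := by
    rw [← st_EA_mul_left S hv.rng hvx, ← mul_assoc, hv.pisom]
  have h2 : S.EA (v * x) = S.EA (v * x) * (v * star v) := by
    rw [(st_A_comm S hb hv.rng).eq]; exact h1
  have h3 : star v * S.EA (v * x) * v = S.EA (x * v) * (star v * v) := by
    rw [← st_EA_conj' S hv hvx]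
    have : star v * (v * x) * v = (star v * v) * (x * v) := by simp only [mul_assoc]
    rw [this, st_EA_mul_left S hv.src hxv, (st_A_comm S hv.src (st_EA_mem S hxv)).eq]
  calc star v * S.EA (v * x) = star v * (S.EA (v * x) * (v * star v)) := by rw [← h2]
    _ = (star v * S.EA (v * x) * v) * star v := by simp only [mul_assoc]
    _ = S.EA (x * v) * (star v * v) * star v := by rw [h3]
    _ = S.EA (x * v) * (star v * v * star v) := by simp only [mul_assoc]
    _ = S.EA (x * v) * star v := by rw [st_GN_pisom_star' S hv]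

/-- The fixed part of a normaliser. -/
theorem st_fix {v : H →L[ℂ] H} (hv : S.IsGN v) :
    ∃ f, S.IsProjA f ∧ f * (star v * v) = f ∧ v * f ∈ S.A ∧ S.EA v = v * f ∧
      ∀ e, S.IsProjA e → e * (star v * v) = e → v * e ∈ S.A → e * f = e := by
  set b := S.EA v with hb
  have hbA : b ∈ S.A := st_EA_mem S hv.mem
  set f := vn_rangeProj (star b) with hf
  have hfp : IsStarProjection f := vn_rangeProj_isStarProjection _
  have hfA : f ∈ S.A := by
    refine st_mem_A_of_comm S (vn_rangeProj_mem S.M (star_mem (st_A_le_M S hbA))) fun a ha => ?_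
    refine (vn_commute_rangeProj (st_A_comm S ha (star_mem hbA)) ?_).symm
    rw [star_star]
    exact st_A_comm S ha hbA
  have hbf : b * f = b := vn_mul_rangeProj_star b
  have hker : ∀ c : H →L[ℂ] H, b * c = 0 → f * c = 0 := fun c hc =>
    vn_rangeProj_star_mul_eq_zero_iff.mpr hc
  -- `b (v* a v) = a b`
  have h1 : ∀ a ∈ S.A, b * (star v * a * v) = b * a := by
    intro a ha
    rw [hb, ← st_EA_mul_right S (hv.conj' a ha) hv.mem, ← st_GN_intertwine S hv ha,
      st_EA_mul_left S ha hv.mem, (st_A_comm S ha (st_EA_mem S hv.mem)).eq]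
  have h2 : ∀ a ∈ S.A, f * (star v * a * v) = f * a := by
    intro a ha
    have := hker (star v * a * v - a) (by rw [mul_sub, h1 a ha, sub_self])
    rwa [mul_sub, sub_eq_zero] at this
  have hfsrc : f * (star v * v) = f := by
    have := h2 1 (one_mem _)
    simpa using this
  have hvfA : v * f ∈ S.A := by
    refine st_mem_A_of_comm S (mul_mem hv.mem (st_A_le_M S hfA)) fun a ha => ?_
    show v * f * a = a * (v * f)
    calc v * f * a = v * (f * a) := by rw [mul_assoc]
      _ = v * (f * (star v * a * v)) := by rw [h2 a ha]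
      _ = v * ((star v * a * v) * f) := by rw [(st_A_comm S hfA (hv.conj' a ha)).eq]
      _ = (v * (star v * a * v)) * f := by simp only [mul_assoc]
      _ = a * v * f := by rw [← st_GN_intertwine S hv ha]
      _ = a * (v * f) := by rw [mul_assoc]
  have hbv : b = v * f := by
    calc b = b * f := hbf.symm
      _ = S.EA (v * f) := by rw [hb, st_EA_mul_right S hfA hv.mem]
      _ = v * f := st_EA_of_mem S hvfA
  refine ⟨f, ⟨hfA, hfp⟩, hfsrc, hvfA, hbv, fun e he hes hve => ?_⟩
  -- maximality
  have h3 : v * e = v * (f * e) := by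
    calc v * e = S.EA (v * e) := (st_EA_of_mem S hve).symm
      _ = b * e := by rw [st_EA_mul_right S he.1 hv.mem]
      _ = v * (f * e) := by rw [hbv, mul_assoc]
  have h4 : (star v * v) * e = (star v * v) * (f * e) := by
    rw [mul_assoc, h3, mul_assoc]
  have h5 : (star v * v) * e = e := by rw [(st_A_comm S hv.src he.1).eq]; exact hes
  have h6 : (star v * v) * (f * e) = f * e := by
    rw [← mul_assoc, (st_A_comm S hv.src hfA).eq, hfsrc]
  rw [h5, h6] at h4
  rw [(st_A_comm S he.1 hfA).eq]
  exact h4.symm

/-- (D4) of Notes_helper100. -/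
theorem st_pinch_GN {v z : H →L[ℂ] H} (hv : S.IsGN v) (hz : z ∈ S.M) (ξ : H) {ε : ℝ} (hε : 0 < ε) :
    S.EvPart (fun P => ‖((∑ e ∈ P.cells, (v * e * star v) * z * (v * e * star v)) - v * star v * S.EA z) ξ‖ < ε) := by
  have hy : star v * z * v ∈ S.M := mul_mem (mul_mem (star_mem hv.mem) hz) hv.mem
  have key : ∀ P : StPart S, ∑ e ∈ P.cells, (v * e * star v) * z * (v * e * star v) =
      v * P.pinch (star v * z * v) * star v := by
    intro P
    unfold StPart.pinch
    rw [Finset.mul_sum, Finset.sum_mul]
    exact Finset.sum_congr rfl fun e _ => by simp only [mul_assoc]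
  have h2 : v * star v * S.EA z = v * S.EA (star v * z * v) * star v := by
    rw [st_EA_conj' S hv hz]
    calc v * star v * S.EA z = (v * star v) * (v * star v) * S.EA z := by
          rw [(st_GN_rng_proj S hv).2.isIdempotentElem.eq]
      _ = (v * star v) * ((v * star v) * S.EA z) := by rw [mul_assoc]
      _ = (v * star v) * (S.EA z * (v * star v)) := by
          rw [(st_A_comm S hv.rng (st_EA_mem S hz)).eq]
      _ = v * (star v * S.EA z * v) * star v := by simp only [mul_assoc]
  refine st_evPart_mono S (st_pinch_ev S hy (star v ξ) hε) fun P hP => ?_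
  have h3 : ((∑ e ∈ P.cells, (v * e * star v) * z * (v * e * star v)) - v * star v * S.EA z) ξ =
      v ((P.pinch (star v * z * v) - S.EA (star v * z * v)) (star v ξ)) := by
    rw [key, h2, ← sub_mul, ← mul_sub]
    rfl
  rw [h3]
  refine lt_of_le_of_lt ((v.le_opNorm _).trans ?_) hP
  exact mul_le_of_le_one_left (norm_nonneg _) (st_GN_norm_le S hv)

/-- "the two sites agree": `∑_e e (w e w*)` decreases to the fixed projection of `w`. -/
theorem st_fix_inf {w f : H →L[ℂ] H} (hw : S.IsGN w) (hf : S.IsProjA f) (hfw : S.EA w = w * f)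
    (hf' : f * (star w * w) = f) (ξ : H) {ε : ℝ} (hε : 0 < ε) :
    S.EvPart (fun P => ‖((∑ e ∈ P.cells, e * (w * e * star w)) - f) ξ‖ < ε) := by
  have key : ∀ P : StPart S, ∑ e ∈ P.cells, e * (w * e * star w) = P.pinch w * star w := by
    intro P
    unfold StPart.pinch
    rw [Finset.sum_mul]
    exact Finset.sum_congr rfl fun e _ => by simp only [mul_assoc]
  have hc : w * f ∈ S.A := by rw [← hfw]; exact st_EA_mem S hw.mem
  have hff : f * f = f := hf.2.isIdempotentElem.eq
  have hfs : star f = f := hf.2.isSelfAdjoint.star_eq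
  have h1 : star (w * f) * (w * f) = f := by
    rw [star_mul, hfs]
    calc f * star w * (w * f) = (f * (star w * w)) * f := by simp only [mul_assoc]
      _ = f := by rw [hf', hff]
  have h2 : (w * f) * star (w * f) = w * f * star w := by
    rw [star_mul, hfs]
    calc w * f * (f * star w) = w * (f * f) * star w := by simp only [mul_assoc]
      _ = w * f * star w := by rw [hff]
  have h3 : S.EA w * star w = f := by
    rw [hfw, ← h2, (st_A_comm S hc (star_mem hc)).eq, h1]
  refine st_evPart_mono S (st_pinch_ev S hw.mem (star w ξ) hε) fun P hP => ?_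
  have h4 : ((∑ e ∈ P.cells, e * (w * e * star w)) - f) ξ = (P.pinch w - S.EA w) (star w ξ) := by
    rw [key, ← h3, ← sub_mul]
    rfl
  rw [h4]
  exact hP

end Claimed.Agent.R302
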